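import Vale.Agent.P027M.I.Act

/-!
# P022K, block TH, row ACT: the quartic `η ^ 4 + x η + d` and the curve `Z ^ 3 - d Z = x ^ 2`
in characteristic three
-/

set_option autoImplicit false
set_option linter.unusedSectionVars false
set_option linter.style.haveILetI false

noncomputable section

open IntermediateField Vale.Agent.P019P P025H746 P025H492 P025H816 Module Vale.Agent.P027M.I

namespace Vale.Agent.P022K.TH.Ac

variable {k M : Type} [Field k] [Field M] [Algebra k M] [CFF k M]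

theorem pole_deg {t h : M} (hh : h ∈ k⟮t⟯) :
    ∃ n : ℤ, ∀ Q : Plk k M, ord Q t < 0 → ord Q h = n * ord Q t := by
  obtain ⟨p, q, rfl⟩ := (mem_adjoin_simple_iff k h).1 hh
  by_cases hp : p = 0
  · exact ⟨0, fun Q _ => by simp [hp, ord_zero]⟩
  by_cases hq : q = 0
  · exact ⟨0, fun Q _ => by simp [hq, ord_zero]⟩
  refine ⟨p.natDegree - q.natDegree, fun Q hQ => ?_⟩
  obtain ⟨h1, h2⟩ := ord_aeval_pole hQ hp
  obtain ⟨h3, h4⟩ := ord_aeval_pole hQ hq
  rw [div_eq_mul_inv, ord_mul Q h1 (inv_ne_zero h3), ord_inv, h2, h4]; ring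

theorem same_pole {t u : M} (h : k⟮u⟯ = k⟮t⟯) {Q : Plk k M} (h1 : ord Q t < 0)
    (h2 : ord Q u < 0) : ord Q u = ord Q t := by
  obtain ⟨n, hn⟩ := pole_deg (h ▸ mem_adjoin_simple_self k u : u ∈ k⟮t⟯)
  obtain ⟨m, hm⟩ := pole_deg (h.symm ▸ mem_adjoin_simple_self k t : t ∈ k⟮u⟯)
  have e1 := hn Q h1
  have e2 := hm Q h2
  have h3 : 1 ≤ n := by nlinarith
  have h4 : 1 ≤ m := by nlinarith
  nlinarith

theorem ne0 {Q : Plk k M} {z : M} (h : ord Q z ≠ 0) : z ≠ 0 := by
  rintro rfl; exact h (ord_zero Q)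

theorem const_of_one {g : M} (hg : g ≠ 0) (P : Plk k M) (h : ∀ Q, Q ≠ P → ord Q g = 0) :
    ∃ a : k, a ≠ 0 ∧ g = algebraMap k M a := by
  have h1 : dv k g = Finsupp.single P (ord P g) := by
    ext Q
    by_cases e : Q = P
    · rw [e, dv_apply, Finsupp.single_eq_same]
    · rw [dv_apply, h Q e, Finsupp.single_eq_of_ne e]
  have h2 := dg_dv (k := k) g
  rw [h1, dg_sgl] at h2
  rw [h2, Finsupp.single_zero] at h1
  obtain ⟨a, ha⟩ := (dv_eq_zero_iff hg).1 h1
  exact ⟨a, fun e => hg (by rw [ha, e, map_zero]), ha⟩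

/-- the quartic relation -/
def Qr (d : k) (x η : M) : Prop := η ^ 4 + x * η + algebraMap k M d = 0

section quartic

variable {d : k} {x η v u : M} {Q : Plk k M}

theorem Qr.pole (h : Qr d x η) (hQ : ord Q η < 0) : ord Q x = 3 * ord Q η := by
  have h0 : η ≠ 0 := ne0 hQ.ne
  obtain ⟨h1, h2⟩ := ord_add_of_lt (P := Q) (pow_ne_zero 4 h0) (w := algebraMap k M d)
    (Or.inr (by rw [ord_pow, ord_const]; push_cast; omega))
  have e : x * η = -(η ^ 4 + algebraMap k M d) := by unfold Qr at h; linear_combination h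
  have h3 : x ≠ 0 := by rintro rfl; rw [zero_mul] at e; exact h1 (neg_eq_zero.1 e.symm)
  have h4 := ord_mul Q h3 h0
  rw [e, ord_neg, h2, ord_pow] at h4
  push_cast at h4; omega

theorem Qr.zero (h : Qr d x η) (hd : d ≠ 0) (hQ : 0 < ord Q η) : ord Q x = -ord Q η := by
  have h0 : η ≠ 0 := ne0 hQ.ne'
  obtain ⟨h1, h2⟩ := ord_add_of_lt (P := Q) ((map_ne_zero (algebraMap k M)).2 hd) (w := η ^ 4)
    (Or.inr (by rw [ord_pow, ord_const]; push_cast; omega))
  have e : x * η = -(algebraMap k M d + η ^ 4) := by unfold Qr at h; linear_combination h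
  have h3 : x ≠ 0 := by rintro rfl; rw [zero_mul] at e; exact h1 (neg_eq_zero.1 e.symm)
  have h4 := ord_mul Q h3 h0
  rw [e, ord_neg, h2, ord_const] at h4
  omega

theorem Qr.ne (h : Qr d x η) (hd : d ≠ 0) : η ≠ 0 := by
  rintro rfl
  exact hd (by simpa [Qr] using h)

theorem Qr.unit (h : Qr d x η) (hd : d ≠ 0) (hQ : ord Q η = 0) : 0 ≤ ord Q x := by
  have e : x = -(η ^ 3) - algebraMap k M d * η⁻¹ := by
    have := h.ne hd
    unfold Qr at h; field_simp; linear_combination h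
  refine ord_nonneg_of_mem Q (e ▸ sub_mem (neg_mem (pow_mem ?_ 3)) (mul_mem (Q.2.1 d) ?_))
  · exact (mem_iff_ord Q _).2 (Or.inr hQ.ge)
  · exact (mem_iff_ord Q _).2 (Or.inr (by rw [ord_inv, hQ]; rfl))

theorem Qr.deg (h : Qr d x η) (hd : d ≠ 0) (hx : ∀ a : k, x ≠ algebraMap k M a)
    (hη : ∀ a : k, η ≠ algebraMap k M a) : finrank k⟮x⟯ M = 4 * finrank k⟮η⟯ M := by
  have e : pol k x = 3 • pol k η + pol k η⁻¹ := by
    ext Q
    rw [Finsupp.add_apply, Finsupp.smul_apply, pol_apply, pol_apply, pol_apply, ord_inv]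
    rcases lt_trichotomy (ord Q η) 0 with h1 | h1 | h1
    · have := h.pole h1; simp only [nsmul_eq_mul]; push_cast; omega
    · have := h.unit hd h1; simp only [nsmul_eq_mul]; push_cast; omega
    · have := h.zero hd h1; simp only [nsmul_eq_mul]; push_cast; omega
  have h1 := congrArg dg e
  rw [map_add, map_nsmul, dg_pol hx, dg_pol hη, dg_pol (nc_inv hη), cDeg_finrank_inv] at h1
  simp only [nsmul_eq_mul] at h1
  omega

theorem Qr.four (h : Qr d x η) (hd : d ≠ 0) (hx : ∀ a : k, x ≠ algebraMap k M a)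
    (hη : ∀ a : k, η ≠ algebraMap k M a) : 4 ∣ finrank k⟮x⟯ M := ⟨_, h.deg hd hx hη⟩

theorem Qr.nc (h : Qr d x η) (hd : d ≠ 0) (hx : ∀ a : k, x ≠ algebraMap k M a) (a : k) :
    η ≠ algebraMap k M a := by
  rintro rfl
  refine hx (-(a ^ 3) - d * a⁻¹) ?_
  have := h.ne hd
  unfold Qr at h
  simp only [map_sub, map_neg, map_pow, map_mul, map_inv₀]
  field_simp; linear_combination h

variable (h3 : (3 : k) = 0)
include h3

theorem cthree : (3 : M) = 0 := by rw [← map_ofNat (algebraMap k M) 3, h3, map_zero]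

theorem Qr.reg (h : Qr d x η) (hd : d ≠ 0) {a : k} (ha : a ≠ 0)
    (hQ : 0 < ord Q (η - algebraMap k M a)) :
    ∃ b : k, ord Q (x - algebraMap k M b) = ord Q (η - algebraMap k M a) := by
  have h0 := h.ne hd
  have ha' : algebraMap k M a ≠ 0 := (map_ne_zero _).2 ha
  have h1 : ord Q η = 0 := by
    have := (ord_add_of_lt (P := Q) ha' (w := η - algebraMap k M a)
      (Or.inr (by rw [ord_const]; omega))).2
    rwa [add_sub_cancel, ord_const] at this
  have hd' : algebraMap k M (d * a⁻¹) ≠ 0 := (map_ne_zero _).2 (mul_ne_zero hd (inv_ne_zero ha))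
  have h2 : ord Q (algebraMap k M (d * a⁻¹) * η⁻¹ * (η - algebraMap k M a)) =
      ord Q (η - algebraMap k M a) := by
    rw [ord_mul Q (mul_ne_zero hd' (inv_ne_zero h0)) (ne0 hQ.ne'),
      ord_mul Q hd' (inv_ne_zero h0), ord_inv, ord_const, h1]; ring
  refine ⟨-(a ^ 3) - d * a⁻¹, ?_⟩
  have h4 := (ord_add_of_lt (P := Q) (ne0 (h2.trans_ne hQ.ne'))
    (w := -(η - algebraMap k M a) ^ 3) (Or.inr (by
      rw [ord_neg, ord_pow, h2]; push_cast; omega))).2
  rw [← h2, ← h4]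
  congr 1
  have := cthree (M := M) h3
  unfold Qr at h
  simp only [map_sub, map_neg, map_pow, map_mul, map_inv₀]
  field_simp
  linear_combination algebraMap k M a * h + (algebraMap k M a ^ 3 * η ^ 2 -
    algebraMap k M a ^ 2 * η ^ 3) * this

theorem Qr.step (h : Qr d x η) (h' : Qr d v u) (hd : d ≠ 0) (hu : ∀ a : k, u ≠ algebraMap k M a)
    (e : k⟮u⟯ = k⟮η⟯) (hv : v ∈ k⟮x⟯) (hQ : ord Q η < 0) : ord Q u < 0 := by
  by_contra hc
  have h1 := ord_sub_vl_pos hu (not_lt.1 hc)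
  have h2 := same_pole (u := (u - algebraMap k M (vl Q u))⁻¹)
    (by rw [adjoin_inv_eq, adjoin_sub_eq, e]) hQ (by rw [ord_inv]; omega)
  rw [ord_inv] at h2
  have h4 := h.pole hQ
  by_cases ha : vl Q u = 0
  · obtain ⟨n, hn⟩ := pole_deg hv
    rw [ha, map_zero, sub_zero] at h1 h2
    have h5 := hn Q (by omega)
    rw [h'.zero hd h1, h2, h4] at h5
    have : 3 * n = 1 := mul_right_cancel₀ hQ.ne (by linear_combination -h5)
    omega
  · obtain ⟨b, hb⟩ := h'.reg h3 hd ha h1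
    obtain ⟨n, hn⟩ := pole_deg (sub_mem hv (k⟮x⟯.algebraMap_mem b))
    have h5 := hn Q (by omega)
    rw [hb, h4] at h5
    have : 3 * n = -1 := mul_right_cancel₀ hQ.ne (by linear_combination -h5 - h2)
    omega

theorem Qr.half (h : Qr d x η) (h' : Qr d v u) (hd : d ≠ 0) (hu : ∀ a : k, u ≠ algebraMap k M a)
    (hη : ∀ a : k, η ≠ algebraMap k M a) (e : k⟮u⟯ = k⟮η⟯) (e' : k⟮v⟯ = k⟮x⟯)
    (hQ : ord Q η ≠ 0) : ord Q u = ord Q η := by
  have hv : v ∈ k⟮x⟯ := e' ▸ mem_adjoin_simple_self k v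
  have hx : x ∈ k⟮v⟯ := e'.symm ▸ mem_adjoin_simple_self k x
  rcases hQ.lt_or_gt with h1 | h1
  · exact same_pole e h1 (h.step h3 h' hd hu e hv h1)
  obtain ⟨P, hP⟩ := exists_pole hη
  obtain ⟨n, hn⟩ := pole_deg hv
  have h4 := h.step h3 h' hd hu e hv hP
  have h5 := hn P (by have := h.pole hP; omega)
  rw [h'.pole h4, same_pole e hP h4, h.pole hP] at h5
  have h6 : n = 1 := mul_right_cancel₀ (b := 3 * ord P η) (by omega) (by linear_combination -h5)
  have h7 := h.zero hd h1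
  have h8 := hn Q (by omega)
  rw [h6, one_mul] at h8
  rcases lt_trichotomy (ord Q u) 0 with h9 | h9 | h9
  · have := h'.step h3 h hd hη e.symm hx h9; omega
  · have := h'.unit hd h9; omega
  · have := h'.zero hd h9; omega

/-- two generators of the same pair of fields differ by a fourth root of unity -/
theorem Qr.scal (h : Qr d x η) (h' : Qr d v u) (hd : d ≠ 0) (hx : ∀ a : k, x ≠ algebraMap k M a)
    (hv : ∀ a : k, v ≠ algebraMap k M a) (e : k⟮u⟯ = k⟮η⟯) (e' : k⟮v⟯ = k⟮x⟯) :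
    ∃ l : k, l ^ 4 = 1 ∧ u = algebraMap k M l * η ∧ v = algebraMap k M (l ^ 3) * x := by
  have hη := h.nc hd hx
  have hu := h'.nc hd hv
  have h0 := h.ne hd
  obtain ⟨P, hP⟩ := exists_pole hη
  obtain ⟨l, hl, h1⟩ := const_of_one (mul_ne_zero (h'.ne hd) (inv_ne_zero h0)) P fun Q _ => by
    rw [ord_mul Q (h'.ne hd) (inv_ne_zero h0), ord_inv]
    by_cases c : ord Q η = 0
    · by_cases c' : ord Q u = 0
      · omega
      · have := h'.half h3 h hd hη hu e.symm e'.symm c'; omega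
    · have := h.half h3 h' hd hu hη e e' c; omega
  have h2 : u = algebraMap k M l * η := by rw [← h1]; field_simp
  have hl' : algebraMap k M l ≠ 0 := (map_ne_zero _).2 hl
  have h4 : v - algebraMap k M (l ^ 3) * x = algebraMap k M (d * l⁻¹ * (l ^ 4 - 1)) * η⁻¹ := by
    unfold Qr at h h'
    rw [h2] at h'
    simp only [map_sub, map_one, map_pow, map_mul, map_inv₀]
    field_simp
    linear_combination h' - algebraMap k M l ^ 4 * h
  have h5 : l ^ 4 = 1 := by
    by_contra c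
    obtain ⟨n, hn⟩ := pole_deg (sub_mem (e' ▸ mem_adjoin_simple_self k v : v ∈ k⟮x⟯)
      (mul_mem (k⟮x⟯.algebraMap_mem (l ^ 3)) (mem_adjoin_simple_self k x)))
    have h6 := h.pole hP
    have h7 := hn P (by omega)
    rw [h4, ord_mul P ((map_ne_zero _).2 (mul_ne_zero (mul_ne_zero hd (inv_ne_zero hl))
      (sub_ne_zero.2 c))) (inv_ne_zero h0), ord_const, ord_inv, h6] at h7
    have : 3 * n = -1 := mul_right_cancel₀ hP.ne (by linear_combination -h7)
    omega
  refine ⟨l, h5, h2, sub_eq_zero.1 ?_⟩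
  rw [h4, h5, sub_self, mul_zero, map_zero, zero_mul]

end quartic

/-- the cubic resolvent -/
def El (d : k) (x Z : M) : Prop := Z ^ 3 - algebraMap k M d * Z = x ^ 2

section cubic

variable {d : k} {x Z : M} {Q : Plk k M}

theorem El.pole (h : El d x Z) (hQ : ord Q Z < 0) : 3 * ord Q Z = 2 * ord Q x := by
  have h1 := (ord_add_of_lt (P := Q) (pow_ne_zero 3 (ne0 hQ.ne)) (w := -(algebraMap k M d * Z))
    (neg_mem (Mge_mono Q (by rw [ord_pow]; push_cast; omega)
      (mul_mem_Mge (mem_Mge0.2 (Q.2.1 d)) (Or.inr le_rfl))))).2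
  rw [← sub_eq_add_neg, h, ord_pow, ord_pow] at h1
  exact_mod_cast h1.symm

theorem El.reg (h : El d x Z) (hQ : 0 ≤ ord Q Z) : 0 ≤ ord Q x := by
  have h0 : Z ∈ Q.1 := (mem_iff_ord Q Z).2 (Or.inr hQ)
  have h1 := ord_nonneg_of_mem Q (sub_mem (pow_mem h0 3) (mul_mem (Q.2.1 d) h0))
  rw [h, ord_pow] at h1
  push_cast at h1; omega

theorem El.nc (h : El d x Z) (hx : ∀ a : k, x ≠ algebraMap k M a) (a : k) :
    Z ≠ algebraMap k M a := by
  rintro rfl
  obtain ⟨P, hP⟩ := exists_pole hx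
  have := h.reg (ord_const P a).ge
  omega

theorem El.deg (h : El d x Z) (hx : ∀ a : k, x ≠ algebraMap k M a) :
    3 * finrank k⟮Z⟯ M = 2 * finrank k⟮x⟯ M := by
  have e : 3 • pol k Z = 2 • pol k x := by
    ext Q
    rw [Finsupp.smul_apply, Finsupp.smul_apply, pol_apply, pol_apply]
    rcases lt_or_ge (ord Q Z) 0 with h1 | h1
    · have := h.pole h1; simp only [nsmul_eq_mul]; push_cast; omega
    · have := h.reg h1; simp only [nsmul_eq_mul]; push_cast; omega
  have h1 := congrArg dg e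
  rw [map_nsmul, map_nsmul, dg_pol hx, dg_pol (h.nc hx)] at h1
  simp only [nsmul_eq_mul] at h1
  omega

theorem El.three (h : El d x Z) (hx : ∀ a : k, x ≠ algebraMap k M a) : 3 ∣ finrank k⟮x⟯ M := by
  have := h.deg hx
  omega

variable (h : El d x Z) (hx : ∀ a : k, x ≠ algebraMap k M a) (hr : finrank k⟮x⟯ M ≤ 3)
include h hx hr

theorem El.two : finrank k⟮Z⟯ M = 2 ∧ finrank k⟮x⟯ M = 3 := by
  haveI := (finite_of_notMem hx).2
  have h1 : 0 < finrank k⟮x⟯ M := finrank_pos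
  have := h.deg hx
  omega

theorem El.fix (τ : M →+* M) (hk : ∀ a : k, τ (algebraMap k M a) = algebraMap k M a)
    (h1 : τ x = x) (h2 : τ Z = Z) (f : M) : τ f = f := by
  let A : IntermediateField k M := (τ.eqLocusField (RingHom.id M)).toIntermediateField hk
  have h3 := finrank_dvd_of_le_left (adjoin_simple_le_iff.2 h1 : k⟮x⟯ ≤ A)
  have h4 := finrank_dvd_of_le_left (adjoin_simple_le_iff.2 h2 : k⟮Z⟯ ≤ A)
  rw [(h.two hx hr).2] at h3
  rw [(h.two hx hr).1] at h4
  have h5 : A = ⊤ := finrank_eq_one_iff_eq_top.1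
    (Nat.eq_one_of_dvd_coprimes (by norm_num : Nat.Coprime 3 2) h3 h4)
  exact (h5 ▸ mem_top : f ∈ A)

theorem El.inf : ∃ P : Plk k M, ord P Z < 0 ∧ ∀ Q, Q ≠ P → 0 ≤ ord Q Z := by
  classical
  obtain ⟨P, hP⟩ := exists_pole (h.nc hx)
  refine ⟨P, hP, fun Q hQ => not_lt.1 fun c => ?_⟩
  have h1 := sum_ord_le (nc_inv (h.nc hx)) {Q, P} (by
    simp only [Finset.mem_insert, Finset.mem_singleton, ord_inv]
    rintro _ (rfl | rfl) <;> omega)
  rw [Finset.sum_pair hQ, cDeg_finrank_inv, (h.two hx hr).1, ord_inv, ord_inv] at h1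
  have := h.pole hP
  have := h.pole c
  omega

variable (h3 : (3 : k) = 0) (hd : d ≠ 0)
include h3 hd

omit hr in
theorem El.even {a : k} (ha : a ^ 3 - d * a = 0) (hQ : 0 < ord Q (Z - algebraMap k M a)) :
    ord Q (Z - algebraMap k M a) = 2 * ord Q x := by
  obtain ⟨h1, h2⟩ := ord_add_of_lt (P := Q) ((map_ne_zero (algebraMap k M)).2 (neg_ne_zero.2 hd))
    (w := (Z - algebraMap k M a) ^ 2) (Or.inr (by rw [ord_pow, ord_const]; push_cast; omega))
  have h4 := ord_mul Q (ne0 hQ.ne') h1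
  have h5 := congrArg (algebraMap k M) ha
  simp only [map_sub, map_pow, map_mul, map_zero] at h5
  have h6 : (Z - algebraMap k M a) * (algebraMap k M (-d) + (Z - algebraMap k M a) ^ 2) = x ^ 2 := by
    unfold El at h
    rw [map_neg]
    linear_combination h - h5 + (algebraMap k M a ^ 2 * Z - algebraMap k M a * Z ^ 2) *
      cthree (M := M) h3
  rw [h6, h2, ord_const, ord_pow, add_zero] at h4
  exact_mod_cast h4.symm

theorem El.gen_pos : 1 ≤ gen k M := by
  haveI : IsAlgClosed k := CFF.ac (k := k) (F := M)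
  by_contra hg
  have h2 : ((2 : ℕ) : k) ≠ 0 := fun e => one_ne_zero (α := k) (by
    push_cast at e; linear_combination h3 - e)
  have hc := card_HK (F := M) h2
  rw [show gen k M = 0 by omega, mul_zero, pow_zero, Nat.card_eq_one_iff_unique] at hc
  obtain ⟨P, hP, hP'⟩ := h.inf hx hr
  have sq : ∀ a : k, a ^ 3 - d * a = 0 → ∃ w : M, w ^ 2 = Z - algebraMap k M a ∧
      ∀ Q, Q ≠ P → w ∈ Q.1 := fun a ha => by
    have h0 : Z - algebraMap k M a ≠ 0 := sub_ne_zero.2 (h.nc hx a)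
    have h4 : ∀ Q, Q ≠ P → 0 ≤ ord Q (Z - algebraMap k M a) := fun Q hQ =>
      ord_nonneg_of_mem Q (sub_mem ((mem_iff_ord Q Z).2 (Or.inr (hP' Q hQ))) (Q.2.1 a))
    have h5 : Units.mk0 _ h0 ∈ divU k M 2 := fun Q => by
      change ((2 : ℕ) : ℤ) ∣ ord Q (Z - algebraMap k M a)
      by_cases hQ : Q = P
      · rw [hQ, sub_eq_add_neg, (ord_add_of_lt (ne0 hP.ne) (neg_mem (Or.inr (by
          rw [ord_const]; omega)))).2]
        have := h.pole hP
        omega
      · rcases (h4 Q hQ).lt_or_eq with c | c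
        · exact ⟨_, h.even hx h3 hd ha c⟩
        · rw [← c]; exact dvd_zero _
    obtain ⟨w, hw⟩ := mem_powU'.1 ((QuotientGroup.eq_one_iff (⟨_, h5⟩ : divU k M 2)).1
      (hc.1.elim _ _))
    refine ⟨w, hw, fun Q hQ => (mem_iff_ord Q w).2 (Or.inr ?_)⟩
    have h6 := h4 Q hQ
    rw [← show w ^ 2 = Z - algebraMap k M a from hw, ord_pow] at h6
    push_cast at h6; omega
  obtain ⟨s, hs⟩ := IsAlgClosed.exists_pow_nat_eq d two_pos
  have hs0 : algebraMap k M s ≠ 0 := (map_ne_zero _).2 (by rintro rfl; exact hd (by simp [← hs]))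
  obtain ⟨w, hw, hw'⟩ := sq 0 (by simp)
  obtain ⟨w', h4, h4'⟩ := sq s (by rw [← hs]; ring)
  have e : (w - w') * (w + w') = algebraMap k M s := by
    rw [map_zero] at hw; linear_combination hw - h4
  have h5 : w - w' ≠ 0 := left_ne_zero_of_mul (e ▸ hs0)
  have h6 : w + w' ≠ 0 := right_ne_zero_of_mul (e ▸ hs0)
  have h7 : ∀ Q, Q ≠ P → ord Q (w - w') = 0 ∧ ord Q (w + w') = 0 := fun Q hQ => by
    have a1 := ord_mul Q h5 h6
    rw [e, ord_const] at a1
    have a2 := ord_nonneg_of_mem Q (sub_mem (hw' Q hQ) (h4' Q hQ))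
    have a3 := ord_nonneg_of_mem Q (add_mem (hw' Q hQ) (h4' Q hQ))
    omega
  obtain ⟨a, -, ha⟩ := const_of_one h5 P fun Q hQ => (h7 Q hQ).1
  obtain ⟨b, -, hb⟩ := const_of_one h6 P fun Q hQ => (h7 Q hQ).2
  refine h.nc hx ((a + b) ^ 2) ?_
  rw [map_zero, sub_zero] at hw
  rw [map_pow, map_add, ← ha, ← hb, ← hw]
  linear_combination (-w ^ 2) * cthree (M := M) h3

variable (ι : M ≃+* M) (hk : ∀ a : k, ι (algebraMap k M a) = algebraMap k M (RingEquiv.refl k a))
  (h1 : ι x = -x) (h2 : ι Z = Z)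
include hk h1 h2

theorem El.fibre (hQ : 0 ≤ ord Q Z) : pol k (Z - algebraMap k M (vl Q Z))⁻¹ =
    Finsupp.single Q 1 + Finsupp.single (plEquiv ι _ hk Q) 1 := by
  classical
  have hZ := h.nc hx
  have p1 := ord_sub_vl_pos hZ hQ
  have p2 := ord_plEquiv ι _ hk Q (Z - algebraMap k M (vl Q Z))
  rw [map_sub, h2, hk, RingEquiv.refl_apply] at p2
  refine (eq_of_le_of_dg_le (fun R => ?_) ?_).symm
  · rw [Finsupp.add_apply, pol_apply, ord_inv, neg_neg, Finsupp.single_apply,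
      Finsupp.single_apply]
    split_ifs with c c' c'
    · subst c
      have q0 := h.reg hQ
      have q1 := ord_sub_vl_pos hx q0
      have q2 := ord_plEquiv ι _ hk Q (x - algebraMap k M (vl Q x))
      rw [c', map_sub, h1, hk, RingEquiv.refl_apply] at q2
      have q3 : vl Q x = 0 := by
        have a1 := add_mem (mem_Mge.2 (Or.inr q1)) (mem_Mge.2 (Or.inr (q2 ▸ q1)))
        have a2 : x - algebraMap k M (vl Q x) + (-x - algebraMap k M (vl Q x)) =
            algebraMap k M (vl Q x) := by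
          linear_combination -algebraMap k M (vl Q x) * cthree (M := M) h3
        rw [a2, mem_Mge, ord_const, map_eq_zero] at a1
        exact a1.resolve_right (by omega)
      rw [q3, map_zero, sub_zero] at q1
      have m1 : Z ∈ Q.1 := (mem_iff_ord Q Z).2 (Or.inr hQ)
      have m2 : x ∈ Q.1 := (mem_iff_ord Q x).2 (Or.inr q0)
      have q4 := congrArg (vl Q) h
      rw [vl_sub' (pow_mem m1 3) (mul_mem (Q.2.1 d) m1), vl_pow' m1, vl_mul' (Q.2.1 d) m1,
        vl_const, vl_pow' m2, q3, zero_pow two_ne_zero] at q4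
      have := h.even hx h3 hd q4 p1
      omega
    · subst c; omega
    · subst c'; omega
    · omega
  · rw [dg_pol (nc_inv (nc_sub hZ _)), cDeg_finrank_inv, adjoin_sub_eq, (h.two hx hr).1, map_add,
      dg_sgl, dg_sgl]
    rfl

/-- the involution acts by `-1` on torsion classes -/
theorem El.neg {m : ℕ} (hm : m ≠ 0) {f : M} (hf : f ≠ 0) (hv : ∀ Q : Plk k M, (m : ℤ) ∣ ord Q f) :
    ∃ z : M, ι f * f * z ^ m = 1 := by
  haveI : IsAlgClosed k := CFF.ac (k := k) (F := M)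
  obtain ⟨P, hP, hP'⟩ := h.inf hx hr
  have hι : plEquiv ι _ hk P = P := by
    by_contra c
    have a1 := hP' _ c
    have a2 := ord_plEquiv ι _ hk P Z
    rw [h2] at a2; omega
  have key : ∀ D : Plk k M →₀ ℤ, ∃ g : M, g ≠ 0 ∧ ∀ R, R ≠ P →
      ord R g = (D + D.mapDomain (plEquiv ι _ hk)) R := fun D => by
    induction D using Finsupp.induction_linear with
    | zero => exact ⟨1, one_ne_zero, fun R _ => by simp [ord_one]⟩
    | add D E hD hE =>
      obtain ⟨g, g0, hg⟩ := hD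
      obtain ⟨g', g0', hg'⟩ := hE
      refine ⟨g * g', mul_ne_zero g0 g0', fun R hR => ?_⟩
      rw [ord_mul R g0 g0', hg R hR, hg' R hR, Finsupp.mapDomain_add]
      simp only [Finsupp.add_apply]; ring
    | single Q n =>
      rw [Finsupp.mapDomain_single]
      by_cases c : Q = P
      · exact ⟨1, one_ne_zero, fun R hR => by
          rw [c, hι, ord_one, Finsupp.add_apply, Finsupp.single_eq_of_ne hR, add_zero]⟩
      refine ⟨(Z - algebraMap k M (vl Q Z)) ^ n, zpow_ne_zero _ (sub_ne_zero.2 (h.nc hx _)),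
        fun R hR => ?_⟩
      have a1 := congrArg (fun D : Plk k M →₀ ℤ => n * D R)
        (h.fibre hx hr h3 hd ι hk h1 h2 (hP' Q c))
      have a2 := ord_nonneg_of_mem R (sub_mem ((mem_iff_ord R Z).2 (Or.inr (hP' R hR)))
        (R.2.1 (vl Q Z)))
      simp only [pol_apply, ord_inv, neg_neg, max_eq_right a2] at a1
      classical
      rw [ord_zpow, a1]
      simp only [Finsupp.add_apply, Finsupp.single_apply]
      split_ifs <;> ring
  obtain ⟨D, hD⟩ := exists_halfdiv (k := k) (f := Units.mk0 f hf) hv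
  obtain ⟨g, g0, hg⟩ := key D
  have hf' : ι f ≠ 0 := (map_ne_zero ι).2 hf
  obtain ⟨a, a0, ha⟩ := const_of_one (mul_ne_zero (mul_ne_zero hf' hf)
    (pow_ne_zero m (inv_ne_zero g0))) P fun R hR => by
      rw [ord_mul R (mul_ne_zero hf' hf) (pow_ne_zero m (inv_ne_zero g0)), ord_mul R hf' hf,
        ord_pow, ord_inv, hg R hR, ← dv_apply, ← dv_apply, dv_plEquiv ι _ hk,
        ← show m • D = dv k f from hD, Finsupp.mapDomain_smul]
      simp only [Finsupp.add_apply, Finsupp.smul_apply, nsmul_eq_mul]; ring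
  obtain ⟨r, hr'⟩ := IsAlgClosed.exists_pow_nat_eq a⁻¹ (Nat.pos_of_ne_zero hm)
  refine ⟨g⁻¹ * algebraMap k M r, ?_⟩
  rw [mul_pow, ← mul_assoc, ha, ← map_pow, hr', ← map_mul, mul_inv_cancel₀ a0, map_one]

end cubic

end Vale.Agent.P022K.TH.Ac
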