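import Vale.Agent.P022K.TH.St
import Vale.Agent.P022K.TH.ActA

/-!
# P022K, block TH, row ACT: the norm above a node and the action of inertia on its residue field
-/

set_option autoImplicit false
set_option linter.unusedSectionVars false
set_option linter.style.haveILetI false

noncomputable section

open IntermediateField Vale.Agent.P019P P025H746 P025H492 Module Vale.Agent.P027M.I

namespace Vale.Agent.P022K.TH.Ac

section alg

variable {k M N : Type} [Field k] [Field M] [Algebra k M] [Field N] [Algebra k N]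

/-- the four roots of `T ^ 4 + x T + d` -/
structure Sy (d : k) (x p q r t : M) : Prop where
  e1 : p + q + r + t = 0
  e2 : p * q + p * r + p * t + q * r + q * t + r * t = 0
  e3 : p * q * r + p * q * t + p * r * t + q * r * t + x = 0
  e4 : p * q * r * t - algebraMap k M d = 0

variable {d : k} {x p q r t : M}

theorem Sy.qr (h : Sy d x p q r t) : Qr d x p := by
  unfold Qr
  linear_combination p ^ 3 * h.e1 - p ^ 2 * h.e2 + p * h.e3 - h.e4

theorem Sy.ab (h : Sy d x p q r t) : r + t = -(p + q) ∧ p * q + r * t = (p + q) ^ 2 :=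
  ⟨by linear_combination h.e1, by linear_combination h.e2 - (p + q) * h.e1⟩

theorem Sy.el (h : Sy d x p q r t) (h3 : (3 : M) = 0) : El d x (p * q + r * t) := by
  have e : x = (p + q) * (p * q - r * t) := by linear_combination h.e3 - p * q * h.ab.1
  have e' : algebraMap k M d = p * q * (r * t) := by linear_combination -h.e4
  unfold El
  rw [e, e', mul_pow, ← h.ab.2]
  linear_combination (p * q + r * t) * (p * q) * (r * t) * h3

theorem Sy.sq (h : Sy d x p q r t) (h3 : (3 : M) = 0) :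
    ((p - q) * (r - t)) ^ 2 = algebraMap k M d := by
  have e' : algebraMap k M d = p * q * (r * t) := by linear_combination -h.e4
  have a1 : (p - q) ^ 2 = r * t := by linear_combination -h.ab.2 - p * q * h3
  have a2 : (r - t) ^ 2 = p * q := by
    linear_combination -h.ab.2 + (r + t - p - q) * h.ab.1 - r * t * h3
  rw [mul_pow, a1, a2, e', mul_comm]

theorem Qr.map {η : M} (h : Qr d x η) (τ : M →ₐ[k] N) : Qr d (τ x) (τ η) := by
  have := congrArg τ h
  simpa [Qr] using this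

theorem Qr.of_map {η : M} (τ : M →ₐ[k] N) (h : Qr d (τ x) (τ η)) : Qr d x η :=
  τ.injective (by simpa [Qr] using h)

theorem El.of_map {Z : M} (τ : M →ₐ[k] N) (h : El d (τ x) (τ Z)) : El d x Z :=
  τ.injective (by simpa [El] using h)

theorem nc_map (τ : M →ₐ[k] N) (hx : ∀ a : k, x ≠ algebraMap k M a) (a : k) :
    τ x ≠ algebraMap k N a := fun e => hx a (τ.injective (e.trans (τ.commutes a).symm))

theorem map_mem (τ : M →ₐ[k] N) {a : M} (h : a ∈ k⟮x⟯) : τ a ∈ k⟮τ x⟯ := by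
  obtain ⟨f, g, rfl⟩ := (mem_adjoin_simple_iff k a).1 h
  exact (mem_adjoin_simple_iff k _).2 ⟨f, g, by
    rw [map_div₀, Polynomial.aeval_algHom_apply, Polynomial.aeval_algHom_apply]⟩

theorem adj_eq (τ : M →ₐ[k] M) {a : M} (h1 : τ x ∈ k⟮x⟯) (h2 : a ∈ k⟮x⟯) (h3 : τ a = x) :
    k⟮τ x⟯ = k⟮x⟯ :=
  le_antisymm (adjoin_simple_le_iff.2 h1) (adjoin_simple_le_iff.2 (by
    have := map_mem τ h2; rwa [h3] at this))

end alg

variable {C : Type} [NontriviallyNormedField C] [IsUltrametricDist C] [IsAlgClosed C]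
  {K L Y : Type} [Field K] [Algebra C K] [Field L] [Algebra C L] [Algebra K L]
  [IsScalarTower C K L] [FiniteDimensional K L] [Field Y] [Algebra C Y] [Algebra K Y]
  [IsScalarTower C K Y] [FiniteDimensional K Y]

theorem root_le {ξ : NV C L} {t a b c e : L} (ha : ξ a ≤ 1) (hb : ξ b ≤ 1) (hc : ξ c ≤ 1)
    (he : ξ e ≤ 1) (h : t ^ 4 = a * t ^ 3 - b * t ^ 2 + c * t - e) : ξ t ≤ 1 := by
  by_contra hT
  have h1 : 1 < ξ t := not_le.1 hT
  have k : ∀ (z : L) (i : ℕ), ξ z ≤ 1 → i < 4 → ξ (z * t ^ i) < ξ t ^ 4 := fun z i hz hi => by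
    rw [map_mul, map_pow]
    exact (mul_le_of_le_one_left (by positivity) hz).trans_lt (pow_lt_pow_right₀ h1 hi)
  have h2 := NV.sub_lt (NV.add_lt (NV.sub_lt (k a 3 ha (by omega)) (k b 2 hb (by omega)))
    (k c 1 hc (by omega))) (k e 0 he (by omega))
  rw [pow_one, pow_zero, mul_one, ← h, map_pow] at h2
  exact lt_irrefl _ h2

theorem three_eq (h : ‖(3 : C)‖ < 1) : (3 : kC C) = 0 := by
  rw [← (cred_eq_zero h.le).2 h, cred_of h.le]
  exact (map_ofNat (IsLocalRing.residue (OC C)) 3).symm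

/-- the map of residue fields induced by an isometry which is residually trivial on `C` -/
def ra {w : NV C Y} (g : Y →+* Y) (h : ∀ y, w (g y) = w y) {s : C ≃+* C}
    (hg : ∀ c, g (algebraMap C Y c) = algebraMap C Y (s c)) (hs : ∀ c, ‖s c‖ = ‖c‖)
    (hr : ∀ c : C, ‖c‖ ≤ 1 → ‖s c - c‖ < 1) : kap w →ₐ[kC C] kap w :=
  { rm g h with
    commutes' := fun a => by
      obtain ⟨c, hc, rfl⟩ := cred_surj a
      refine (rm_const g h hg hs hc).trans (congrArg _ ?_)
      have := cred_add (hr c hc).le hc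
      rwa [sub_add_cancel, (cred_eq_zero (hr c hc).le).2 (hr c hc), zero_add] at this }

theorem triv_const {w : NV C Y} {m : ℕ} (hm : m ≠ 0) {c : C} (hc : c ≠ 0) {g : Y}
    (h : Triv m w g) : Triv m w (algebraMap C Y c * g) := by
  obtain ⟨z, hz⟩ := h
  obtain ⟨e, he⟩ := IsAlgClosed.exists_pow_nat_eq c⁻¹ (Nat.pos_of_ne_zero hm)
  refine ⟨algebraMap C Y e * z, ?_⟩
  rwa [mul_pow, ← map_pow, he, mul_mul_mul_comm, ← map_mul, mul_inv_cancel₀ hc, map_one, one_mul]

theorem triv_of {w : NV C Y} {m : ℕ} {g : Y} (hg : w g ≤ 1) {z : kap w}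
    (h : w.red g * z ^ m = 1) : Triv m w g := by
  obtain ⟨y, hy, rfl⟩ := NV.red_surj z
  have h1 : w (y ^ m) ≤ 1 := pow_mem (NV.mem_ring.2 hy) m
  exact ⟨y, (red_eq_iff (NV.mul_le_one hg h1) (one_mem w.ring)).1 (by
    rw [NV.red_mul hg h1, NV.red_pow hy, h, NV.red_one])⟩

/-- local data at a node: `p q r t` are the roots of a quartic which reduces to
`T ^ 4 + x T + d` -/
structure Qu (u : NV C K) (ξ : NV C L) (p q r t : L) (X : K) (d : C) : Prop where
  hn : ∀ a : ℝ, 0 ≤ a → ∃ x : C, ‖x‖ = a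
  ch : ‖(3 : C)‖ < 1
  deg : finrank K L ≤ 12
  d1 : ‖d‖ = 1
  e1 : ξ (p + q + r + t) < 1
  e2 : ξ (p * q + p * r + p * t + q * r + q * t + r * t) < 1
  e3 : ξ (p * q * r + p * q * t + p * r * t + q * r * t + algebraMap K L X) < 1
  e4 : ξ (p * q * r * t - algebraMap C L d) < 1
  og : u.OverG X
  top : (kC C)⟮u.red X⟯ = ⊤

section one

variable {u : NV C K} {ξ : NV C L} {p q r t : L} {X : K} {d : C} (h : Qu u ξ p q r t X d)
include h

theorem Qu.hv (x : K) : ∃ c : C, ‖c‖ = u x := h.hn _ (u.av.nonneg x)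

theorem Qu.d0 : cred d ≠ 0 := fun e => ((cred_eq_zero h.d1.le).1 e).ne h.d1

theorem Qu.cff (w : NV C Y) [NVExt u w] : CFF (kC C) (kap w) := by
  haveI : CFF (kC C) (kap u) := ⟨inferInstance, _, h.og.transc_red, by
    rw [h.top]; exact finite_of_finrank_eq_succ IntermediateField.finrank_top⟩
  haveI := finite_resdeg u h.hv w
  exact cff_of_finite (K := kap u)

theorem Qu.nc (w : NV C Y) [NVExt u w] (a : kC C) :
    w.red (algebraMap K Y X) ≠ algebraMap (kC C) (kap w) a := (NVExt.overG.2 h.og).red_ne a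

theorem Qu.rk (w : NV C Y) [NVExt u w] :
    finrank (kC C)⟮w.red (algebraMap K Y X)⟯ (kap w) = finrank (kap u) (kap w) := by
  rw [← finrank_mul_resdeg h.og.apply_T.le, h.top, IntermediateField.finrank_top, one_mul]

theorem Qu.rk_le (w : NV C Y) [NVExt u w] :
    finrank (kC C)⟮w.red (algebraMap K Y X)⟯ (kap w) ≤ finrank K Y := by
  rw [h.rk w]
  simpa using sum_resdeg_le u h.hv (fun _ : Unit => w) fun _ _ _ => rfl

variable [hu : NVExt u ξ]

theorem Qu.le : ξ p ≤ 1 ∧ ξ q ≤ 1 ∧ ξ r ≤ 1 ∧ ξ t ≤ 1 := by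
  have a3 := NV.sub_le h.e3.le ((hu.out X).trans h.og.apply_T).le
  have a4 := NV.add_le h.e4.le ((ξ.ext' d).trans h.d1).le
  rw [add_sub_cancel_right] at a3
  rw [sub_add_cancel] at a4
  refine ⟨?_, ?_, ?_, ?_⟩ <;> exact root_le h.e1.le h.e2.le a3 a4 (by ring)

theorem Qu.sy : Sy (cred d) (ξ.red (algebraMap K L X)) (ξ.red p) (ξ.red q) (ξ.red r) (ξ.red t) := by
  obtain ⟨hp, hq, hr, ht⟩ := h.le
  have hX := ((hu.out X).trans h.og.apply_T).le
  have hd := ((ξ.ext' d).trans h.d1).le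
  have key : ∀ a : ξ.ring, ξ a < 1 → IsLocalRing.residue ξ.ring a = 0 := fun a ha =>
    (NV.red_of a.2).symm.trans (NV.red_of_lt ha)
  rw [NV.red_of hp, NV.red_of hq, NV.red_of hr, NV.red_of ht, NV.red_of hX]
  set P : ξ.ring := ⟨p, hp⟩
  set Q : ξ.ring := ⟨q, hq⟩
  set R : ξ.ring := ⟨r, hr⟩
  set T : ξ.ring := ⟨t, ht⟩
  refine ⟨?_, ?_, ?_, ?_⟩
  · simpa only [map_add] using key (P + Q + R + T) h.e1
  · simpa only [map_add, map_mul] using key (P * Q + P * R + P * T + Q * R + Q * T + R * T) h.e2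
  · simpa only [map_add, map_mul] using
      key (P * Q * R + P * Q * T + P * R * T + Q * R * T + ⟨_, hX⟩) h.e3
  · rw [← NV.red_algebraMap h.d1.le, NV.red_of hd]
    simpa only [map_sub, map_mul] using key (P * Q * R * T - ⟨_, hd⟩) h.e4

/-- the norm above is unique -/
theorem Qu.uniq (ξ' : NV C L) [hu' : NVExt u ξ'] : ξ' = ξ := by
  classical
  by_contra hne
  haveI := h.cff ξ
  have h4 := h.sy.qr.four h.d0 (h.nc ξ) (h.sy.qr.nc h.d0 (h.nc ξ))
  have h3 := (h.sy.el (cthree (three_eq h.ch))).three (h.nc ξ)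
  rw [h.rk ξ] at h3 h4
  haveI := finite_resdeg u h.hv ξ
  haveI := finite_resdeg u h.hv ξ'
  have p1 : 0 < finrank (kap u) (kap ξ) := finrank_pos
  have p2 : 0 < finrank (kap u) (kap ξ') := finrank_pos
  let A : Finset {v : NV C L // NVExt u v} := {⟨ξ', hu'⟩, ⟨ξ, hu⟩}
  have h1 := sum_resdeg_le u h.hv (fun i : A => i.1.1)
    (Subtype.val_injective.comp Subtype.val_injective)
  rw [Finset.sum_coe_sort A fun v => finrank (kap u) (kap v.1),
    Finset.sum_pair fun e => hne (congrArg Subtype.val e)] at h1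
  have := h.deg
  change finrank (kap u) (kap ξ') + finrank (kap u) (kap ξ) ≤ _ at h1
  omega

variable [Algebra Y L] [IsScalarTower C Y L] [IsScalarTower K Y L]

theorem Qu.ext (w : NV C Y) [hw : NVExt w ξ] : NVExt u w :=
  ⟨fun x => by rw [← hw.out, ← IsScalarTower.algebraMap_apply, hu.out]⟩

theorem Qu.redX (w : NV C Y) [hw : NVExt w ξ] :
    IsScalarTower.toAlgHom (kC C) (kap w) (kap ξ) (w.red (algebraMap K Y X)) =
      ξ.red (algebraMap K L X) := by
  rw [IsScalarTower.algebraMap_apply K Y L, red_algebraMap' (w := w)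
    (((h.ext w).out X).trans h.og.apply_T).le]
  rfl

theorem Qu.redZ (w : NV C Y) [hw : NVExt w ξ] {Z : Y} (hZ : algebraMap Y L Z = p * q + r * t) :
    IsScalarTower.toAlgHom (kC C) (kap w) (kap ξ) (w.red Z) =
      ξ.red p * ξ.red q + ξ.red r * ξ.red t := by
  obtain ⟨hp, hq, hr, ht⟩ := h.le
  have a1 := NV.mul_le_one hp hq
  have a2 := NV.mul_le_one hr ht
  rw [← NV.red_mul hp hq, ← NV.red_mul hr ht, ← NV.red_add a1 a2, ← hZ,
    red_algebraMap' (w := w) (by rw [← hw.out, hZ]; exact NV.add_le a1 a2)]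
  rfl

theorem Qu.el (w : NV C Y) [hw : NVExt w ξ] {Z : Y} (hZ : algebraMap Y L Z = p * q + r * t) :
    El (cred d) (w.red (algebraMap K Y X)) (w.red Z) := by
  haveI := h.cff ξ
  refine El.of_map (IsScalarTower.toAlgHom (kC C) (kap w) (kap ξ)) ?_
  rw [h.redX w, h.redZ w hZ]
  exact h.sy.el (cthree (three_eq h.ch))

/-- the residue field of the cubic subfield has positive genus -/
theorem Qu.gen_pos (w : NV C Y) [NVExt w ξ] [CFF (kC C) (kap w)] (hY : finrank K Y ≤ 3) {Z : Y}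
    (hZ : algebraMap Y L Z = p * q + r * t) : 1 ≤ gen (kC C) (kap w) :=
  haveI := h.ext w
  (h.el w hZ).gen_pos (h.nc w) ((h.rk_le w).trans hY) (three_eq h.ch) h.d0

theorem Qu.memK {a : L} (ha : a ∈ Set.range (algebraMap K L)) (h1 : ξ a ≤ 1) :
    ξ.red a ∈ (kC C)⟮ξ.red (algebraMap K L X)⟯ := by
  obtain ⟨a, rfl⟩ := ha
  rw [red_algebraMap' (w := u) h.og.apply_T.le,
    red_algebraMap' (w := u) ((hu.out a).ge.trans h1)]
  exact map_mem (IsScalarTower.toAlgHom (kC C) (kap u) (kap ξ)) (h.top ▸ mem_top)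

theorem Qu.mem0 (hY : finrank K Y ≤ 4) (hp : p ∈ Set.range (algebraMap Y L)) {a : L}
    (ha : a ∈ Set.range (algebraMap Y L)) (h1 : ξ a ≤ 1) : ξ.red a ∈ (kC C)⟮ξ.red p⟯ := by
  obtain ⟨a, rfl⟩ := ha
  obtain ⟨y, rfl⟩ := hp
  let w := ξ.comap Y
  haveI := h.ext w
  haveI := h.cff w
  have h2 := h.sy.qr
  rw [red_algebraMap' (w := w) h.le.1, ← h.redX w] at h2
  have h3 := Qr.of_map (IsScalarTower.toAlgHom (kC C) (kap w) (kap ξ)) h2
  have h4 := h3.nc h.d0 (h.nc w)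
  have h5 := h3.deg h.d0 (h.nc w) h4
  have h6 := h.rk_le w
  haveI := (finite_of_notMem h4).2
  have h7 : 0 < finrank (kC C)⟮w.red y⟯ (kap w) := finrank_pos
  have h8 : (kC C)⟮w.red y⟯ = ⊤ := finrank_eq_one_iff_eq_top.1 (by omega)
  rw [red_algebraMap' (w := w) h1, red_algebraMap' (w := w) h.le.1]
  exact map_mem (IsScalarTower.toAlgHom (kC C) (kap w) (kap ξ)) (h8 ▸ mem_top)

theorem Qu.gal (g : L ≃ₐ[K] L) {l : kC C} {a b : L}
    (e : ξ.red a = algebraMap _ _ l * ξ.red b) : ξ.red (g a) = algebraMap _ _ l * ξ.red (g b) := by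
  have h1 : ∀ x, ξ ((g : L →+* L) x) = ξ x := NV.congr (h.uniq (ξ.twist g))
  have h2 := congrArg (rm (g : L →+* L) h1) e
  obtain ⟨c, hc, rfl⟩ := cred_surj l
  rwa [map_mul, rm_red, rm_red, rm_const _ h1 (s := RingEquiv.refl C) (fun c => by
    rw [RingEquiv.refl_apply, IsScalarTower.algebraMap_apply C K L]
    exact g.commutes _) (fun _ => rfl) hc] at h2

end one

variable [Algebra Y L] [IsScalarTower C Y L] [IsScalarTower K Y L]
  {u : NV C K} {ξ : NV C L} {X : K} {d : C} [hu : NVExt u ξ]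

variable {K₀ : Type} [Field K₀] [Algebra C K₀] [Algebra K K₀] [IsScalarTower C K K₀]
  [FiniteDimensional K K₀] [Algebra K₀ L] [IsScalarTower C K₀ L] [IsScalarTower K K₀ L]
  {V : NV C L} {γ ν : L ≃ₐ[K] L} {S : L ≃+* L} {s : C ≃+* C} {ε : ℤ}
  (A : Act V γ ν S s ε) (g3 : γ ^ 3 = 1)
  (fix0 : ∀ x : L, γ x = x ↔ x ∈ Set.range (algebraMap K₀ L))
  (fix : ∀ x : L, γ x = x → ν x = x → x ∈ Set.range (algebraMap K L)) (d0 : finrank K K₀ ≤ 4)
  {y : K₀} (h : Qu u ξ (algebraMap K₀ L y) (ν (algebraMap K₀ L y)) (γ (ν (algebraMap K₀ L y)))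
    (γ (γ (ν (algebraMap K₀ L y)))) X d) (hS : ∀ a : K, ξ (S (algebraMap K L a)) = u a)

include A in
omit hu in
theorem fixS {x : L} : γ (S x) = S x ↔ γ x = x := by
  have e := A.cg x
  rw [← S.injective.eq_iff (a := γ x), e]
  rcases A.sgn with c | c <;> rw [c]
  · rw [zpow_one]
  · rw [zpow_neg_one, AlgEquiv.aut_inv, AlgEquiv.symm_apply_eq, eq_comm]

include A h hS in
theorem Qu.iso (x : L) : ξ ((S : L →+* L) x) = ξ x :=
  haveI : NVExt u (pullNV (S : L →+* L) A.semi.1 A.semi.2 ξ) := ⟨hS⟩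
  NV.congr (h.uniq (pullNV (S : L →+* L) A.semi.1 A.semi.2 ξ)) x

include A g3 fix0 fix d0 h hS

/-- the square of `S` on the residue field -/
theorem Qu.sq : ∃ τ : kap ξ →ₐ[kC C] kap ξ, (∀ x, τ (ξ.red x) = ξ.red (S x)) ∧
    τ (τ (ξ.red (algebraMap K L X))) = ε * ξ.red (algebraMap K L X) ∧
    ∀ Z, Z = ξ.red (algebraMap K₀ L y) * ξ.red (ν (algebraMap K₀ L y)) +
      ξ.red (γ (ν (algebraMap K₀ L y))) * ξ.red (γ (γ (ν (algebraMap K₀ L y)))) → τ (τ Z) = Z := by
  haveI := h.cff ξ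
  have hi := h.iso A hS
  let τ := ra (S : L →+* L) hi A.semi.1 A.semi.2 A.res
  have hτ : ∀ x, τ (ξ.red x) = ξ.red (S x) := rm_red _ hi
  have hi' : ∀ x, ξ (S.symm x) = ξ x := fun x => by
    rw [← hi]; exact congrArg _ (S.apply_symm_apply x)
  have hX := ((hu.out X).trans h.og.apply_T).le
  set p := algebraMap K₀ L y with hp
  have p0 : γ p = p := (fix0 p).2 ⟨y, rfl⟩
  have h3 := three_eq h.ch
  obtain ⟨l, l4, l1, l2⟩ := h.sy.qr.scal h3 (h.sy.qr.map τ) h.d0 (h.nc ξ) (nc_map τ (h.nc ξ))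
    (adj_eq τ (a := ξ.red (S.symm p))
      (hτ p ▸ h.mem0 d0 ⟨y, rfl⟩ ((fix0 _).1 ((fixS A).2 p0)) ((hi p).trans_le h.le.1))
      (h.mem0 d0 ⟨y, rfl⟩ ((fix0 _).1 ((fixS A).1 (by rwa [S.apply_symm_apply])))
        ((hi' p).trans_le h.le.1)) (by rw [hτ, S.apply_symm_apply]))
    (adj_eq τ (a := ξ.red (S.symm (algebraMap K L X)))
      (hτ _ ▸ h.memK (fix _ ((fixS A).2 (γ.commutes X)) (by rw [← A.cn, ν.commutes]))
        ((hi _).trans_le hX))
      (h.memK (fix _ ((fixS A).1 (by rw [S.apply_symm_apply, γ.commutes]))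
        (S.injective (by rw [A.cn, S.apply_symm_apply, ν.commutes]))) ((hi' _).trans_le hX))
      (by rw [hτ, S.apply_symm_apply]))
  have q1 := h.gal ν (hτ p ▸ l1)
  have q2 := h.gal γ q1
  have q3 := h.gal γ q2
  have gi : ∀ x, (γ ^ (-1 : ℤ)) x = γ (γ x) := fun x => by
    rw [zpow_neg_one, inv_eq_of_mul_eq_one_right (show γ * (γ * γ) = 1 by rw [← g3, pow_three])]
    rfl
  have g4 : ∀ x, γ (γ (γ x)) = x := fun x => by
    have := congrArg (fun g : L ≃ₐ[K] L => g x) g3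
    rwa [pow_three] at this
  have hL : algebraMap (kC C) (kap ξ) l ^ 4 = 1 := by rw [← map_pow, l4, map_one]
  have W := h.sy.sq (cthree h3)
  have t1 : τ (ξ.red (ν p)) = algebraMap _ _ l * ξ.red (ν p) := by rw [hτ, A.cn, q1]
  set P := ξ.red p
  set Q := ξ.red (ν p)
  have key : τ (ξ.red (γ (ν p)) - ξ.red (γ (γ (ν p)))) =
        ε * algebraMap _ _ l * (ξ.red (γ (ν p)) - ξ.red (γ (γ (ν p)))) ∧
      τ (ξ.red (γ (ν p)) * ξ.red (γ (γ (ν p)))) =
        algebraMap _ _ l ^ 2 * (ξ.red (γ (ν p)) * ξ.red (γ (γ (ν p)))) := by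
    rw [map_sub, map_mul, hτ, hτ, A.cg, A.cg, A.cg, A.cn]
    rcases A.sgn with c | c <;> rw [c]
    · rw [zpow_one, q2, q3]; constructor <;> push_cast <;> ring
    · rw [gi, gi, g4, q2, q3]; constructor <;> push_cast <;> ring
  set R := ξ.red (γ (ν p))
  set T := ξ.red (γ (γ (ν p)))
  obtain ⟨b, hb⟩ := IsAlgClosed.exists_pow_nat_eq (cred d) two_pos
  have W0 : (P - Q) * (R - T) ≠ 0 := fun e => h.d0 (by
    rwa [e, zero_pow two_ne_zero, eq_comm, map_eq_zero] at W)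
  have W1 : τ ((P - Q) * (R - T)) = (P - Q) * (R - T) := by
    rw [← hb, map_pow] at W
    rcases sq_eq_sq_iff_eq_or_eq_neg.1 W with e | e <;> rw [e]
    · exact τ.commutes b
    · rw [map_neg, τ.commutes]
  rw [map_mul, key.1, map_sub, l1, t1] at W1
  have W2 : (ε : kap ξ) * algebraMap (kC C) (kap ξ) l ^ 2 = 1 :=
    mul_right_cancel₀ W0 (by linear_combination W1)
  refine ⟨τ, hτ, ?_, ?_⟩
  · rw [l2, map_mul, τ.commutes, l2, map_pow]
    linear_combination (algebraMap (kC C) (kap ξ) l ^ 2 + ε) * ξ.red (algebraMap K L X) * hL -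
      (algebraMap (kC C) (kap ξ) l ^ 2) * ξ.red (algebraMap K L X) * W2
  · rintro _ rfl
    have e : τ (P * Q + R * T) = algebraMap (kC C) (kap ξ) (l ^ 2) * (P * Q + R * T) := by
      rw [map_add, key.2, map_mul, l1, t1, map_pow]; ring
    rw [e, map_mul, τ.commutes, e, map_pow]
    linear_combination (P * Q + R * T) * hL

/-- **ACT**: the square of inertia acts by `ε` on the torsion classes of the elliptic tail -/
theorem Qu.act (w : NV C Y) [hw : NVExt w ξ] [CFF (kC C) (kap w)] (hY : finrank K Y ≤ 3) {Z : Y}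
    (hZ : algebraMap Y L Z = algebraMap K₀ L y * ν (algebraMap K₀ L y) +
      γ (ν (algebraMap K₀ L y)) * γ (γ (ν (algebraMap K₀ L y)))) (S2 : Y →+* Y)
    (hS2 : ∀ f, algebraMap Y L (S2 f) = S (S (algebraMap Y L f))) {f : Y} (hf : f ≠ 0) {m : ℕ}
    (hm : Odd m) {c : C} (h1 : w (algebraMap C Y c * (S2 f * f ^ (-ε))) = 1)
    (h2 : ∀ x : Plk (kC C) (kap w), (m : ℤ) ∣ ord x (w.red (algebraMap C Y c * (S2 f * f ^ (-ε))))) :
    Triv m w (S2 f * f ^ (-ε)) := by
  haveI := h.ext w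
  obtain ⟨τ, hτ, tX, tZ⟩ := h.sq A g3 fix0 fix d0 hS
  have hi := h.iso A hS
  have wi : ∀ f, w (S2 f) = w f := fun f => by
    rw [← hw.out, ← hw.out, hS2]; exact (hi _).trans (hi _)
  have sc : ∀ c, S2 (algebraMap C Y c) = algebraMap C Y ((s.trans s) c) := fun c =>
    (algebraMap Y L).injective (by
      rw [hS2, ← IsScalarTower.algebraMap_apply, ← IsScalarTower.algebraMap_apply, A.semi.1,
        A.semi.1]; rfl)
  have sn : ∀ c, ‖(s.trans s) c‖ = ‖c‖ := fun c => (A.semi.2 _).trans (A.semi.2 c)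
  let σ := ra S2 wi sc sn fun c hc => by
    have := IsUltrametricDist.norm_add_le_max (s (s c) - s c) (s c - c)
    rw [sub_add_sub_cancel] at this
    exact this.trans_lt (max_lt (A.res _ ((A.semi.2 c).trans_le hc)) (A.res c hc))
  have hσ : ∀ x, σ (w.red x) = w.red (S2 x) := rm_red _ wi
  let j := IsScalarTower.toAlgHom (kC C) (kap w) (kap ξ)
  have ji : Function.Injective j := j.injective
  have hj : ∀ a, j (σ a) = τ (τ (j a)) := fun a => by
    obtain ⟨x, hx, rfl⟩ := NV.red_surj a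
    have e : ∀ x, w x ≤ 1 → j (w.red x) = ξ.red (algebraMap Y L x) := fun x hx =>
      (red_algebraMap' hx).symm
    rw [hσ, e _ ((wi x).trans_le hx), e x hx, hτ, hτ, hS2]
  have sX : σ (w.red (algebraMap K Y X)) = ε * w.red (algebraMap K Y X) := ji (by
    rw [hj, map_mul, map_intCast, h.redX w, tX])
  have sZ : σ (w.red Z) = w.red Z := ji (by rw [hj]; exact tZ _ (h.redZ w hZ))
  have hE := h.el w hZ
  have hr := (h.rk_le w).trans hY
  obtain ⟨c0, hc0⟩ := h.hn _ (w.av.nonneg f)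
  have c00 : c0 ≠ 0 := by
    rintro rfl
    exact hf (w.av.eq_zero.1 (by rw [← hc0, norm_zero]))
  obtain ⟨g, hg, rfl⟩ : ∃ g, w g = 1 ∧ f = algebraMap C Y c0 * g :=
    ⟨(algebraMap C Y c0)⁻¹ * f, by
      rw [map_mul, map_inv₀, w.ext', hc0, inv_mul_cancel₀ (w.av.ne_zero hf)],
      (mul_inv_cancel_left₀ ((map_ne_zero _).2 c00) f).symm⟩
  have e : S2 (algebraMap C Y c0 * g) * (algebraMap C Y c0 * g) ^ (-ε) =
      algebraMap C Y ((s.trans s) c0 * c0 ^ (-ε)) * (S2 g * g ^ (-ε)) := by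
    rw [map_mul, sc, mul_zpow, map_mul, map_zpow₀]; ring
  have m0 : m ≠ 0 := hm.pos.ne'
  rw [e] at h1 h2 ⊢
  refine triv_const m0 (mul_ne_zero ((map_ne_zero _).2 c00) (zpow_ne_zero _ c00)) ?_
  have g1 : w (S2 g) = 1 := (wi g).trans hg
  rcases A.sgn with rfl | rfl
  · have gi : w g⁻¹ ≤ 1 := by rw [map_inv₀, hg, inv_one]
    rw [zpow_neg_one]
    refine triv_of (NV.mul_le_one g1.le gi) (z := 1) ?_
    rw [one_pow, mul_one, NV.red_mul g1.le gi, NV.red_inv hg, ← hσ,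
      show σ (w.red g) = w.red g from hE.fix (h.nc w) hr σ σ.commutes (by simpa using sX) sZ _,
      mul_inv_cancel₀ (NV.red_ne_zero hg)]
  · simp only [neg_neg, zpow_one] at h1 h2 ⊢
    replace sX : σ (w.red (algebraMap K Y X)) = -w.red (algebraMap K Y X) := by simpa using sX
    have ss : ∀ a, σ (σ a) = a := hE.fix (h.nc w) hr (σ.comp σ) (σ.comp σ).commutes
      (by simp [sX]) (by simp [sZ])
    have G1 : w (S2 g * g) = 1 := by rw [map_mul, g1, hg, mul_one]
    rw [← mul_assoc, ← map_mul] at h1 h2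
    rw [map_mul, G1, mul_one] at h1
    have c1 := (w.ext' _).symm.trans h1
    rw [NV.red_mul h1.le G1.le, NV.red_algebraMap c1.le] at h2
    have H0 := NV.red_ne_zero G1
    obtain ⟨z, hz⟩ := hE.neg (h.nc w) hr (three_eq h.ch) h.d0
      (RingEquiv.ofRingHom (σ : kap w →+* kap w) σ (RingHom.ext ss) (RingHom.ext ss))
      σ.commutes sX sZ m0 H0 fun x => by
        have := h2 x
        rwa [ord_mul x ((map_ne_zero _).2 fun e => ((cred_eq_zero c1.le).1 e).ne c1) H0,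
          ord_const, zero_add] at this
    have hH : σ (w.red (S2 g * g)) = w.red (S2 g * g) := by
      rw [NV.red_mul g1.le hg.le, ← hσ, map_mul, ss, mul_comm]
    replace hz : σ (w.red (S2 g * g)) * w.red (S2 g * g) * z ^ m = 1 := hz
    rw [hH] at hz
    obtain ⟨i, rfl⟩ := hm
    refine triv_of G1.le (z := (w.red (S2 g * g) * z ^ i)⁻¹) ?_
    generalize w.red (S2 g * g) = H at hz H0 ⊢
    have e' : (H * z ^ i) ^ (2 * i + 1) = H * (H * H * z ^ (2 * i + 1)) ^ i := by ring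
    rw [inv_pow, e', hz, one_pow, mul_one, mul_inv_cancel₀ H0]

end Vale.Agent.P022K.TH.Ac
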