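import Vale.Agent.P022K.F0.Rep
import Vale.Agent.P022K.CH.Gk

/-!
# P022K, block TH: traces from approximations on which one element acts by a sign
-/

set_option autoImplicit false

open Filter Topology NumberField IsDedekindDomain
open scoped MatrixGroups

noncomputable section

namespace Vale.Agent.P022K.TH

open Vale.Agent.P022 CH Sh

theorem tr_sq {Γ R : Type} [Group Γ] [CommRing R] (ρ : Γ →* GL (Fin 2) R) (s g : Γ) :
    tr ρ (s ^ 2 * g) = tr ρ s * tr ρ (s * g) - dt ρ s * tr ρ g := by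
  simp only [CH.tr, dt, sq, map_mul, Units.val_mul, Matrix.trace_fin_two, Matrix.det_fin_two,
    Matrix.mul_apply, Fin.sum_univ_two]
  ring

/-- the three clauses from the signs -/
theorem the_of {p : ℕ} [hp : Fact p.Prime] (h2 : p ≠ 2) {H : Subgroup GQ}
    (hH : IsOpen (H : Set GQ)) {ρ : H →* GL (Fin 2) (Cp p)} (c : Continuous ρ) {I : Subgroup GQ}
    (hd : ∀ s : H, s.1 ∈ I → dt ρ s = 1)
    (h1 : ∀ s : H, s.1 ∈ I → (∀ g, tr ρ (s ^ 2 * g) = tr ρ g) ∨ ∀ g, tr ρ (s ^ 2 * g) = -tr ρ g)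
    (h3 : ∃ s : H, s.1 ∈ I ∧ ∀ g, tr ρ (s ^ 2 * g) = -tr ρ g) :
    (∀ s g : H, s.1 ∈ I → tr ρ (s ^ 4 * g) = tr ρ g) ∧
    (∃ U : Subgroup GQ, IsOpen (U : Set GQ) ∧ ∀ s g : H, s.1 ∈ U ⊓ I → tr ρ (s * g) = tr ρ g) ∧
    ∃ s : H, s.1 ∈ I ∧ tr ρ s = 0 := by
  have one : tr ρ 1 = 2 := by simp [CH.tr]
  have sq : ∀ s : H, s.1 ∈ I → tr ρ (s ^ 2 * 1) = tr ρ s ^ 2 - 2 := fun s hs => by
    rw [tr_sq, hd s hs, mul_one, one]
    ring
  have neg : ∀ s : H, s.1 ∈ I → (∀ g, tr ρ (s ^ 2 * g) = -tr ρ g) → tr ρ s = 0 := fun s hs h =>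
    pow_eq_zero_iff two_ne_zero |>.1 (by linear_combination h 1 - sq s hs - one)
  have n2 : ‖(2 : Cp p)‖ = 1 := by
    simpa using norm_nat (p := p) (n := 2) fun h =>
      h2 ((Nat.prime_dvd_prime_iff_eq hp.out Nat.prime_two).1 h)
  refine ⟨fun s g hs => ?_, ?_, h3.imp fun s h => ⟨h.1, neg s h.1 h.2⟩⟩
  · rw [show s ^ 4 * g = s ^ 2 * (s ^ 2 * g) by group]
    rcases h1 s hs with h | h <;> simp only [h, neg_neg]
  · have ct : Continuous (tr ρ) := (Units.continuous_val.comp c).matrix_trace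
    obtain ⟨U, o, hU⟩ := CH.Loc.nar (ι := H.subtype) hH.isOpenEmbedding_subtypeVal
      {s | ‖tr ρ s - 2‖ < 1} (isOpen_lt (ct.sub continuous_const).norm continuous_const)
      (by simp [one])
    refine ⟨U.map H.subtype, hH.isOpenMap_subtype_val _ o, ?_⟩
    rintro s g ⟨⟨u, hu, e⟩, hs⟩
    have k : ‖tr ρ s - 2‖ < 1 := Subtype.ext e ▸ hU hu
    rcases h1 s hs with h | h
    · have e1 : (tr ρ s - 2) * (tr ρ s + 2) = 0 := by linear_combination h 1 - sq s hs + one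
      have e2 : tr ρ s = 2 := sub_eq_zero.1 ((mul_eq_zero.1 e1).resolve_right fun e2 => by
        rw [show tr ρ s - 2 = -(2 * 2) by linear_combination e2, norm_neg, norm_mul, n2] at k
        simp at k)
      have := tr_sq ρ s g
      rw [h, e2, hd s hs] at this
      exact mul_left_cancel₀ two_ne_zero (by linear_combination -this)
    · rw [neg s hs h, zero_sub, norm_neg, n2] at k
      exact absurd k (lt_irrefl _)

section aps

variable {Γ Λ M C : Type} [Group Γ] [CommRing Λ] [AddCommGroup M] [Module Λ M]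
  {ρ : Representation Λ Γ M} (e : Γ →* Λˣ) [NormedField C] [TopologicalSpace Γ]
  [IsTopologicalGroup Γ]

/-- an approximation of level `r` on which `s` acts by `ε` -/
def Aps (i : Λ →+* C) (R : Γ → Λ → Prop) (s : Γ) (ε : Λ) (r : ℝ) : Prop :=
  ∃ (M : Type) (_ : AddCommGroup M) (_ : Module Λ M) (ρ : Representation Λ Γ M),
    (∀ a : Λ, (∀ v : M, a • v = 0) → ‖i a‖ ≤ r) ∧
    (∀ᶠ u in 𝓝 (1 : Γ), ρ u = 1 ∧ ∀ v : M, (e u : Λ) • v = v) ∧
    (∀ g τ, R g τ → Qd ρ e g τ) ∧ ∀ v, ρ s v = ε • v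

variable {e} {i : Λ →+* C} {R : Γ → Λ → Prop} {s : Γ} {ε : Λ}

omit [IsTopologicalGroup Γ] in
theorem aps_of {r : ℝ}
    (J : Module.End Λ M → Λ → Prop) (com : ∀ A c, J A c → ∀ g v, A (ρ g v) = ρ g (A v)) (v0 : M)
    (h0 : ∀ A c, J A c → A v0 = c • v0) (ann : ∀ a : Λ, a • v0 = 0 → ‖i a‖ ≤ r)
    (opn : ∀ᶠ u in 𝓝 (1 : Γ), ρ u = 1 ∧ ∀ v : M, (e u : Λ) • v = v)
    (hR : ∀ g τ, R g τ → ∃ A, J A τ ∧ ∀ v, ρ g (ρ g v) - A (ρ g v) + (e g : Λ) • v = 0)
    (hI : ∀ v, (∀ A c, J A c → A v = c • v) → ρ s v = ε • v) : Aps e i R s ε r := by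
  let N : Submodule Λ M := ⨅ (A) (c) (_ : J A c), LinearMap.eqLocus A (c • LinearMap.id)
  have hN : ∀ a, a ∈ N ↔ ∀ A c, J A c → A a = c • a := fun a => by
    simp only [N, Submodule.mem_iInf]
    rfl
  have st : ∀ g, N ≤ N.comap (ρ g) := fun g a ha => (hN _).2 fun A c k => by
    rw [com A c k, (hN a).1 ha A c k, map_smul]
  refine ⟨N, inferInstance, inferInstance, ρ.subrepresentation N st,
    fun a h => ann a (congrArg Subtype.val (h ⟨v0, (hN _).2 h0⟩)),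
    opn.mono fun u h => ⟨LinearMap.ext fun v => Subtype.ext (LinearMap.congr_fun h.1 v.1),
      fun v => Subtype.ext (h.2 v.1)⟩, fun g τ k => ?_,
    fun v => Subtype.ext (hI v ((hN _).1 v.2))⟩
  obtain ⟨A, a, b⟩ := hR g τ k
  refine qd_of fun v => Subtype.ext ?_
  have := b v
  rwa [(hN _).1 (st g v.2) A τ a] at this

/-- **the sign on traces** -/
theorem tr_aps {t : Γ → C} (ct : Continuous t) (hR : ∀ g τ, R g τ → t g = i τ)
    (den : Dense {g | ∃ τ, R g τ}) (hε : ε * ε = 1) (es : e s = 1) {r : ℕ → ℝ}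
    (hr : Tendsto r atTop (𝓝 0)) (H : ∀ n, Aps e i R s ε (r n)) (g : Γ) :
    t (s * g) = i ε * t g := by
  refine eq_of_forall_dist_le fun δ hδ => ?_
  have h3 : 0 < δ / 3 := by positivity
  obtain ⟨n, hn⟩ := (hr.eventually (gt_mem_nhds h3)).exists
  obtain ⟨M, _, _, ρ, ann, opn, hQ, hs⟩ := H n
  have ex : ∀ g, ∃ τ, Qd ρ e g τ ∧ dist (i τ) (t g) < δ / 3 := fun g => by
    have c' : Tendsto (fun h => h⁻¹ * g) (𝓝 g) (𝓝 1) :=
      (continuous_inv.mul continuous_const).tendsto' _ _ (inv_mul_cancel g)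
    obtain ⟨φ, ⟨τ, k⟩, a, b⟩ := den.inter_nhds_nonempty
      ((c'.eventually opn).and (Metric.tendsto_nhds.1 (ct.tendsto g) _ h3))
    exact ⟨τ, mul_inv_cancel_left φ g ▸ (hQ φ τ k).right a.1 a.2, hR φ τ k ▸ b⟩
  obtain ⟨τ, q, d⟩ := ex g
  obtain ⟨τ', q', d'⟩ := ex (s * g)
  have hs' : ∀ v, ρ s⁻¹ v = ε • v := fun v => by
    rw [← hs, ← one_smul Λ (ρ s⁻¹ v), ← hε, mul_smul, ← hs, ← hs, ρ.self_inv_apply]
  have k := ann (τ' - ε * τ) fun v => by
    rw [sub_smul, ← q' v, mul_smul, ← q v, mul_inv_rev, map_mul, map_mul, map_mul, es, one_mul,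
      Module.End.mul_apply, Module.End.mul_apply, hs, hs', map_smul, smul_add, smul_comm ε,
      sub_self]
  have n1 : ‖i ε‖ = 1 := by
    have := congrArg (fun x => ‖i x‖) hε
    simp only [map_mul, norm_mul, map_one, norm_one] at this
    exact (mul_self_eq_one_iff.1 this).resolve_right fun h => by linarith [norm_nonneg (i ε)]
  rw [map_sub, map_mul, ← dist_eq_norm] at k
  have k' : dist (i ε * i τ) (i ε * t g) = dist (i τ) (t g) := by
    rw [dist_eq_norm, ← mul_sub, norm_mul, n1, one_mul, dist_eq_norm]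
  have := dist_triangle4 (t (s * g)) (i τ') (i ε * i τ) (i ε * t g)
  rw [dist_comm] at d'
  linarith

end aps

end Vale.Agent.P022K.TH
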