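import Vale.Agent.P022K.TH.St

/-!
# P022K, block TH: degrees in the tetrahedral cover; the field `YF` fixed by the Klein group
-/

set_option autoImplicit false
set_option linter.unusedSectionVars false
set_option linter.style.haveILetI false

noncomputable section

open IntermediateField Vale.Agent.P019P P025H746 P025H492 Module

namespace Vale.Agent.P022K.TH

open Vale.Agent.P027M Vale.Agent.P027M.I Vale.Agent.P022K.FI

section grp

variable {G : Type} [Group G]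

theorem comm_of {g n : G} (g3 : g ^ 3 = 1) (n2 : n ^ 2 = 1) (ng : (n * g) ^ 3 = 1) :
    n * (g⁻¹ * n * g) = g⁻¹ * n * g * n := by
  have hn : n⁻¹ = n := inv_eq_of_mul_eq_one_right (by rw [← sq, n2])
  have hg : g * g = g⁻¹ := eq_inv_of_mul_eq_one_left (by rw [← pow_three', g3])
  have h1 : n * g * n = g⁻¹ * n * g⁻¹ := by
    rw [← one_mul (g⁻¹ * n * g⁻¹), ← ng, pow_three']
    nth_rw 6 [← hn]
    group
  have h2 : n * g⁻¹ * n = g * n * g := by simpa [hn, mul_assoc] using congrArg Inv.inv h1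
  have h3 : g⁻¹ * g⁻¹ = g := by rw [← mul_inv_rev, hg, inv_inv]
  calc n * (g⁻¹ * n * g) = n * g⁻¹ * n * g := by group
    _ = g⁻¹ * g⁻¹ * n * g⁻¹ := by rw [h2, mul_assoc, hg, h3]
    _ = g⁻¹ * (g⁻¹ * n * g⁻¹) := by group
    _ = _ := by rw [← h1]; group

/-- the group generated by two commuting involutions -/
def kl {a b : G} (ha : a * a = 1) (hb : b * b = 1) (hc : b * a = a * b) : Subgroup G where
  carrier := {1, a, b, a * b}
  one_mem' := by simp
  mul_mem' := by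
    have h1 : ∀ x, a * (a * x) = x := fun x => by rw [← mul_assoc, ha, one_mul]
    have h2 : ∀ x, b * (a * x) = a * (b * x) := fun x => by rw [← mul_assoc, hc, mul_assoc]
    rintro x y (rfl | rfl | rfl | rfl) (rfl | rfl | rfl | rfl) <;> simp [*, mul_assoc]
  inv_mem' := by
    have h1 := inv_eq_of_mul_eq_one_right ha
    have h2 := inv_eq_of_mul_eq_one_right hb
    rintro x (rfl | rfl | rfl | rfl) <;> simp [*]

theorem card_kl {a b : G} (ha : a * a = 1) (hb : b * b = 1) (hc : b * a = a * b) :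
    Nat.card (kl ha hb hc) ≤ 4 :=
  (Set.ncard_insert_le 1 _).trans (Nat.succ_le_succ ((Set.ncard_insert_le a _).trans
    (Nat.succ_le_succ ((Set.ncard_insert_le b _).trans (by simp)))))

end grp

section alg

variable {K L : Type} [Field K] [Field L] [Algebra K L]

/-- `γ` and `ν` generate the group of `L / K`, a quotient of `A₄` -/
structure A4 (γ ν : L ≃ₐ[K] L) : Prop where
  g3 : γ ^ 3 = 1
  n2 : ν ^ 2 = 1
  ng : (ν * γ) ^ 3 = 1
  fix : ∀ x : L, γ x = x → ν x = x → x ∈ Set.range (algebraMap K L)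

/-- the field fixed by the Klein group -/
def YF (γ ν : L ≃ₐ[K] L) : IntermediateField K L where
  carrier := {f | ν f = f ∧ ν (γ f) = γ f}
  mul_mem' := fun a b => ⟨by rw [map_mul, a.1, b.1], by rw [map_mul, map_mul, a.2, b.2]⟩
  add_mem' := fun a b => ⟨by rw [map_add, a.1, b.1], by rw [map_add, map_add, a.2, b.2]⟩
  algebraMap_mem' := fun a => ⟨ν.commutes a, by rw [γ.commutes, ν.commutes]⟩
  inv_mem' := fun _ a => ⟨by rw [map_inv₀, a.1], by rw [map_inv₀, map_inv₀, a.2]⟩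

variable {γ ν : L ≃ₐ[K] L}

theorem mem_YF {f : L} : f ∈ YF γ ν ↔ ν f = f ∧ ν (γ f) = γ f := Iff.rfl

theorem deg_eq_card [FiniteDimensional K L] (H : Subgroup (L ≃ₐ[K] L))
    (h : ∀ x, (∀ g ∈ H, g x = x) → x ∈ Set.range (algebraMap K L)) :
    finrank K L = Nat.card H := by
  have e : fixedField H = ⊥ :=
    eq_bot_iff.2 fun x hx => mem_bot.2 (h x ((mem_fixedField_iff H x).1 hx))
  rw [← finrank_fixedField_eq_card, e, finrank_bot']

namespace A4

variable (h : A4 γ ν)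
include h

theorem gam3 (x : L) : γ (γ (γ x)) = x := DFunLike.congr_fun h.g3 x

theorem nunu (x : L) : ν (ν x) = x := DFunLike.congr_fun h.n2 x

theorem nug3 (x : L) : ν (γ (ν (γ (ν (γ x))))) = x := DFunLike.congr_fun h.ng x

theorem nu2 {f : L} (hf : f ∈ YF γ ν) : ν (γ (γ f)) = γ (γ f) := by
  have h1 := congrArg ν (h.nug3 f)
  rw [hf.2, h.nunu, hf.1] at h1
  exact γ.injective (h1.trans (h.gam3 f).symm)

theorem gam_mem {f : L} (hf : f ∈ YF γ ν) : γ f ∈ YF γ ν := ⟨hf.2, h.nu2 hf⟩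

/-- the norm from `L` to `YF` up to a power -/
theorem nrm_mem (x : L) : x * ν x * γ⁻¹ (ν (γ (x * ν x))) ∈ YF γ ν := by
  have h1 : ∀ y, ν (γ⁻¹ (ν (γ y))) = γ⁻¹ (ν (γ (ν y))) := fun y =>
    DFunLike.congr_fun (comm_of h.g3 h.n2 h.ng) y
  have h2 : ν (x * ν x) = x * ν x := by rw [map_mul, h.nunu, mul_comm]
  have h3 : ∀ y, γ (γ⁻¹ y) = y := γ.apply_symm_apply
  exact ⟨by rw [map_mul, h1, h2], by rw [map_mul γ, h3, map_mul ν, h.nunu, mul_comm]⟩

/-- odd roots of elements of `YF` -/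
theorem root' {n : ℕ} (hn : Odd n) {a z₀ : L} (ha : a ∈ YF γ ν) (e : a = z₀ ^ n) :
    ∃ z ∈ YF γ ν, a = z ^ n := by
  rcases eq_or_ne a 0 with rfl | a0
  · exact ⟨0, zero_mem _, (zero_pow hn.pos.ne').symm⟩
  have h1 : (z₀ * ν z₀ * γ⁻¹ (ν (γ (z₀ * ν z₀)))) ^ n = a ^ 4 := by
    have h2 : (z₀ * ν z₀) ^ n = a * a := by rw [mul_pow, ← map_pow, ← e, ha.1]
    have h3 : γ⁻¹ (γ a) = a := γ.symm_apply_apply a
    rw [mul_pow, ← map_pow, ← map_pow, ← map_pow, h2, map_mul, map_mul, map_mul, ha.2, h3]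
    ring
  obtain ⟨u, v, huv⟩ : IsCoprime (4 : ℤ) n :=
    Nat.isCoprime_iff_coprime.2 (Nat.Coprime.pow_left 2 hn.coprime_two_left)
  refine ⟨_, mul_mem (zpow_mem (h.nrm_mem z₀) u) (zpow_mem ha v), ?_⟩
  rw [mul_pow, ← zpow_natCast, ← zpow_mul, mul_comm u, zpow_mul, zpow_natCast, h1, ← zpow_natCast,
    ← zpow_natCast, ← zpow_mul, ← zpow_mul, ← zpow_add₀ a0, Nat.cast_ofNat, mul_comm 4, huv,
    zpow_one]

theorem root {n : ℕ} (hn : Odd n) {f z₀ : L} (hf : f ∈ YF γ ν)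
    (e : f * γ f * γ (γ f) = z₀ ^ n) : ∃ z ∈ YF γ ν, f * γ f * γ (γ f) = z ^ n :=
  h.root' hn (mul_mem (mul_mem hf (h.gam_mem hf)) (h.gam_mem (h.gam_mem hf))) e

variable [FiniteDimensional K L]

/-- `γ` on `YF` -/
def gY : YF γ ν ≃ₐ[K] YF γ ν :=
  AlgEquiv.ofBijective (((γ : L →ₐ[K] L).comp (YF γ ν).val).codRestrict (YF γ ν).toSubalgebra
    fun f => h.gam_mem f.2) (Algebra.IsAlgebraic.algHom_bijective _)

theorem coe_gY (f : YF γ ν) : (h.gY f : L) = γ f := rfl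

theorem gY3 : h.gY ^ 3 = 1 := AlgEquiv.ext fun f => Subtype.ext (h.gam3 f)

theorem gal : IsGalois K L := IsGalois.of_fixedField_eq_bot K L (eq_bot_iff.2 fun x hx =>
  have := (mem_fixedField_iff _ x).1 hx
  mem_bot.2 (h.fix x (this γ trivial) (this ν trivial)))

theorem fixY {f : YF γ ν} (hf : h.gY f = f) : f ∈ Set.range (algebraMap K (YF γ ν)) :=
  (h.fix f (congrArg Subtype.val hf) f.2.1).imp fun _ => Subtype.ext

theorem deg_dvd : finrank K (YF γ ν) ∣ 3 := by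
  rw [deg_eq_card (Subgroup.zpowers h.gY) fun x hx => h.fixY (hx _ (Subgroup.mem_zpowers _)),
    Nat.card_zpowers]
  exact orderOf_dvd_of_pow_eq_one h.gY3

theorem deg3 : finrank K (YF γ ν) ≤ 3 := Nat.le_of_dvd three_pos h.deg_dvd

theorem deg4 : finrank (YF γ ν) L ≤ 4 := by
  have ha : ν * ν = 1 := by rw [← sq, h.n2]
  have hb : γ⁻¹ * ν * γ * (γ⁻¹ * ν * γ) = 1 := by
    rw [mul_assoc, ← mul_assoc γ, ← mul_assoc γ, mul_inv_cancel, one_mul, mul_assoc,
      ← mul_assoc ν, ha, one_mul, inv_mul_cancel]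
  have hc := (comm_of h.g3 h.n2 h.ng).symm
  have e : YF γ ν = fixedField (kl ha hb hc) := by
    ext x
    rw [mem_fixedField_iff]
    refine ⟨fun hx => ?_, fun hx => ⟨hx ν (.inr (.inl rfl)),
      γ.symm_apply_eq.1 (hx (γ⁻¹ * ν * γ) (.inr (.inr (.inl rfl))))⟩⟩
    have h1 : (γ⁻¹ * ν * γ) x = x := γ.symm_apply_eq.2 hx.2
    rintro g (rfl | rfl | rfl | rfl)
    exacts [rfl, hx.1, h1, by rw [AlgEquiv.mul_apply, h1, hx.1]]
  rw [e, finrank_fixedField_eq_card]
  exact card_kl ha hb hc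

theorem deg : finrank K L ≤ 12 := by
  rw [← finrank_mul_finrank K (YF γ ν) L]
  exact Nat.mul_le_mul h.deg3 h.deg4

end A4

end alg

section crv

variable {C K L : Type} [Field C] [Field K] [Field L] [Algebra C K] [Algebra C L] [Algebra K L]
  [IsScalarTower C K L] [CFF C K] [FiniteDimensional K L]

theorem cffY (Y : IntermediateField K L) : CFF C Y := cff_of_finite (K := K)

instance towY (Y : IntermediateField K L) : IsScalarTower C Y L :=
  IsScalarTower.of_algebraMap_eq fun _ => rfl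

variable [CFF C L] {Y : IntermediateField K L} [CFF C Y]

theorem unr_bot (h : IsUnr C K L) : IsUnr C K Y := h.bot

theorem unr_top (h : IsUnr C K L) : IsUnr C Y L := h.top

theorem dvd_down (h : IsUnr C K L) {n : ℤ} {f : Y} (hf : ∀ P : Plk C L, n ∣ ord P (f : L))
    (P : Plk C Y) : n ∣ ord P f := by
  obtain ⟨Q, rfl⟩ := exists_over (L := L) P
  rw [← (unr_top h).ord_algebraMap]
  exact hf Q

theorem gen_pos_of [CharZero C] (h : IsUnr C K L) (hd : 2 ≤ finrank K L) : 1 ≤ gen C K := by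
  have h1 := h.genus
  refine Nat.pos_of_ne_zero fun e => ?_
  rw [e] at h1
  omega

theorem gen_le3 [CharZero C] (h : IsUnr C K L) (hg : 1 ≤ gen C K) (hd : finrank K Y ≤ 3) :
    (gen C Y : ℤ) ≤ 3 * ((gen C K : ℤ) - 1) + 1 := by
  have h1 := (unr_bot (Y := Y) h).genus
  have h2 : (finrank K Y : ℤ) * (2 * gen C K - 2) ≤ 3 * (2 * gen C K - 2) :=
    mul_le_mul_of_nonneg_right (by exact_mod_cast hd) (by omega)
  omega

end crv

section geo

variable {C : Type} [NontriviallyNormedField C] [IsUltrametricDist C] [IsAlgClosed C]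
  {K K' K₀ L : Type} [Field K] [Algebra C K] [CFF C K] [Field K'] [Algebra C K'] [CFF C K']
  [Field K₀] [Algebra C K₀] [CFF C K₀] [Algebra K K₀] [IsScalarTower C K K₀]
  [FiniteDimensional K K₀] [Field L] [Algebra C L] [CFF C L] [Algebra K L] [Algebra K₀ L]
  [IsScalarTower C K L] [IsScalarTower C K₀ L] [IsScalarTower K K₀ L] [FiniteDimensional K L]
  {p' : K' →ₐ[C] K₀} {u : NV C K} {u' : NV C K'} {v v' : NV C K₀} {V : NV C L} {γ ν : L ≃ₐ[K] L}

theorem Two.gen_pos [CharZero C] (h : Two p' u u' v v') : 1 ≤ gen C K :=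
  gen_pos_of h.unr (by rw [h.deg]; norm_num)

theorem Geo.a4 (h : Geo p' u u' v v' V γ ν) : A4 γ ν := ⟨h.g3, h.n2, h.ng, h.fix⟩

theorem Geo.genY [CharZero C] (h : Geo p' u u' v v' V γ ν) [CFF C (YF γ ν)] :
    (gen C (YF γ ν) : ℤ) ≤ 3 * ((gen C K : ℤ) - 1) + 1 :=
  gen_le3 h.unrL h.toTwo.gen_pos h.a4.deg3

end geo

end Vale.Agent.P022K.TH
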