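import Vale.Agent.P022K.F0.Rep
import Vale.Agent.P022K.F0.FreeB
import Vale.Agent.P022K.F0.Ntw
import Vale.Agent.P022K.CH.StB

/-!
# P022K, block TH: from the type `cth` to the level of the quaternion group
-/

set_option autoImplicit false
set_option linter.unusedSectionVars false

open NumberField IsDedekindDomain
open scoped MatrixGroups

noncomputable section

namespace Vale.Agent.P022K.TH

open Vale.Agent.P022 CH Sh

/-! ## the finite group -/

theorem q_iff : ∀ a b c d : ZMod 3, a * d - b * c = 1 →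
    ((!![a, b; c, d] : Matrix (Fin 2) (Fin 2) (ZMod 3)) ^ 4 = 1 ↔ a + d = 0 ∨ b = 0 ∧ c = 0) := by
  decide +kernel

theorem q_mul : ∀ a b c d : ZMod 3, a * d - b * c = 1 → (a + d = 0 ∨ b = 0 ∧ c = 0) →
    ∀ a' b' c' d' : ZMod 3, a' * d' - b' * c' = 1 → (a' + d' = 0 ∨ b' = 0 ∧ c' = 0) →
    a * a' + b * c' + (c * b' + d * d') = 0 ∨ a * b' + b * d' = 0 ∧ c * a' + d * c' = 0 := by
  decide +kernel

theorem pow_iff {g : GL (Fin 2) (ZMod 3)} (h : g.val.det = 1) :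
    g ^ 4 = 1 ↔ g 0 0 + g 1 1 = 0 ∨ g 0 1 = 0 ∧ g 1 0 = 0 := by
  rw [← q_iff _ _ _ _ (Matrix.det_fin_two g.val ▸ h), Units.ext_iff, Units.val_pow_eq_pow_val,
    ← Matrix.eta_fin_two g.val, Units.val_one]

/-- the quaternion group -/
def Q8 : Subgroup (GL (Fin 2) (ZMod 3)) where
  carrier := {g | g.val.det = 1 ∧ g ^ 4 = 1}
  mul_mem' {a b} ha hb := by
    have d : (a * b).val.det = 1 := by rw [Units.val_mul, Matrix.det_mul, ha.1, hb.1, one_mul]
    refine ⟨d, (pow_iff d).2 ?_⟩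
    simpa only [Units.val_mul, Matrix.mul_apply, Fin.sum_univ_two] using
      q_mul _ _ _ _ (Matrix.det_fin_two a.val ▸ ha.1) ((pow_iff ha.1).1 ha.2) _ _ _ _
        (Matrix.det_fin_two b.val ▸ hb.1) ((pow_iff hb.1).1 hb.2)
  one_mem' := by simp
  inv_mem' {a} ha := ⟨by rw [Matrix.coe_units_inv, Matrix.det_nonsing_inv, ha.1, Ring.inverse_one],
    by rw [inv_pow, ha.2, inv_one]⟩

instance : Q8.Normal := ⟨fun q h g => ⟨by
  rw [Units.val_mul, Units.val_mul, Matrix.det_mul_comm, ← mul_assoc, Units.inv_mul, one_mul, h.1],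
  by rw [conj_pow, h.2, mul_one, mul_inv_cancel]⟩⟩

theorem cth_q {q : GL (Fin 2) (ZMod 3)} (h : q ∈ Q8) (g : GL (Fin 2) (ZMod 3)) :
    cth (q * g) = cth g := by
  have d : (q * g).val.det = g.val.det := by rw [Units.val_mul, Matrix.det_mul, h.1, one_mul]
  unfold cth
  rw [d]
  refine ite_congr rfl (fun e => if_congr ?_ rfl rfl) fun _ => rfl
  exact ⟨fun k => ((Q8.mul_mem_cancel_left h).1 ⟨d.trans e, k⟩).2,
    fun k => ((Q8.mul_mem_cancel_left h).2 ⟨e, k⟩).2⟩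

theorem q_sum : ∀ a b c d : ZMod 3, a * d - b * c = 1 →
    (if a + d = 0 ∨ b = 0 ∧ c = 0 then (2 : ℤ) else -1) +
    (if a - c + d = 0 ∨ b - d = 0 ∧ c = 0 then 2 else -1) +
    (if a - c - c + d = 0 ∨ b - d - d = 0 ∧ c = 0 then 2 else -1) = 0 := by
  decide +kernel

theorem cth_sum {n : GL (Fin 2) (ZMod 3)} (hn : n.val = !![1, 1; 0, 1]) (g : GL (Fin 2) (ZMod 3)) :
    cth g + cth (n⁻¹ * g) + cth (n⁻¹ * (n⁻¹ * g)) = 0 := by
  have e : ∀ g : GL (Fin 2) (ZMod 3),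
      (n⁻¹ * g).val = !![g 0 0 - g 1 0, g 0 1 - g 1 1; g 1 0, g 1 1] := fun g => by
    rw [Units.val_mul, Units.inv_mul_eq_iff_eq_mul, hn]
    ext i j
    fin_cases i <;> fin_cases j <;> simp [Matrix.mul_apply, Fin.sum_univ_two]
  have d : ∀ g : GL (Fin 2) (ZMod 3), (n⁻¹ * g).val.det = g.val.det := fun g => by
    rw [e, Matrix.det_fin_two, Matrix.det_fin_two]
    simp
    ring
  unfold cth
  rw [d, d, d]
  by_cases h : g.val.det = 1
  · have := congrArg (Int.cast (R := Qb)) (q_sum _ _ _ _ (Matrix.det_fin_two g.val ▸ h))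
    simp only [h, if_true, pow_iff h, pow_iff ((d g).trans h),
      pow_iff ((d _).trans ((d g).trans h)), e]
    simpa using this
  · simp only [h, if_false, add_zero]

variable {l : ℕ} [Fact l.Prime]

/-- reduction -/
abbrev rd : GL (Fin 2) ℤ_[l] →* GL (Fin 2) (ZMod l) :=
  Matrix.GeneralLinearGroup.map PadicInt.toZMod

/-- the inverse image in `GL₂(ℚ_l)` -/
def U3 (V : Subgroup (GL (Fin 2) (ZMod l))) : Subgroup (GL (Fin 2) ℚ_[l]) :=
  (V.comap rd).map (gK ℚ_[l])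

theorem U3_le (V : Subgroup (GL (Fin 2) (ZMod l))) : U3 V ≤ KK ℤ_[l] ℚ_[l] := by
  rintro _ ⟨k, -, rfl⟩
  exact ⟨k, rfl⟩

theorem rd_surj (g : GL (Fin 2) (ZMod l)) : ∃ k, rd k = g := by
  choose A hA using fun i j => ZMod.ringHom_surjective (PadicInt.toZMod (p := l)) (g i j)
  have e : (PadicInt.toZMod (p := l)).mapMatrix (Matrix.of A) = g.val := by ext i j; exact hA i j
  refine ⟨Matrix.GeneralLinearGroup.mk'' (Matrix.of A) ?_, Units.ext e⟩
  by_contra h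
  have : (Matrix.of A).det ∈ RingHom.ker (PadicInt.toZMod (p := l)) := (PadicInt.ker_toZMod (p := l)) ▸ h
  rw [RingHom.mem_ker, RingHom.map_det, e] at this
  exact g.det_ne_zero this

theorem rd_one {k : GL (Fin 2) ℤ_[l]} : gK ℚ_[l] k ∈ Km ℤ_[l] ℚ_[l] 1 ↔ rd k = 1 := by
  have hi : Function.Injective (algebraMap ℤ_[l] ℚ_[l]) := Subtype.val_injective
  have key : ∀ {S : Type} [CommRing S] (f : ℤ_[l] →+* S) i j, f ((k.val - 1) i j) =
      ((Matrix.GeneralLinearGroup.map f k).val - 1) i j := fun f i j => by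
    simp only [Matrix.sub_apply, map_sub, Matrix.one_apply]
    congr 1
    split <;> simp
  rw [LocA.mem_Km hi, Units.ext_iff, Units.val_one, ← sub_eq_zero, ← Matrix.ext_iff, pow_one,
    ← PadicInt.ker_toZMod]
  refine ⟨fun h i j => ?_, fun h => ⟨⟨k, rfl⟩, fun i j => ⟨_, (key _ i j).trans (h i j), key _ i j⟩⟩⟩
  obtain ⟨o, h1, h2⟩ := h.2 i j
  rwa [← key, ← hi (h2.trans (key _ i j).symm)]

theorem Km_le (V : Subgroup (GL (Fin 2) (ZMod l))) : Km ℤ_[l] ℚ_[l] 1 ≤ U3 V := fun g hg => by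
  obtain ⟨k, rfl⟩ := LocA.Km_le 1 hg
  exact ⟨k, Subgroup.mem_comap.2 (rd_one.1 hg ▸ one_mem V), rfl⟩

theorem ex_lf (g : GL (Fin 2) (ZMod l)) : ∃ k, rd k = g ∧ Tw.lf l g = gK ℚ_[l] k :=
  ⟨_, Classical.epsilon_spec (rd_surj g), rfl⟩

/-! ## the operator of a type -/

section ec

variable {G0 G : Type} [Group G0] [Group G] {T : Tw G0 G} {Λ B : Type} [CommRing Λ]
  [AddCommGroup B] [Module Λ B] {ρ : Representation Λ G0 B} {U U' : Subgroup G}
  {w : T.Lc ℤ_[l] ℚ_[l]} {c : GL (Fin 2) (ZMod l) → Λ} {f : G → B} {z : G0 → G → B}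

theorem ec_apply (x : G) : w.ec c f x = ∑ g, c g • f (x * w.ι (Tw.lf l g)) := by
  simp [Tw.Lc.ec, rt]

variable (w c) in
/-- the operator as a linear map -/
def ecL : (G → B) →ₗ[Λ] G → B where
  toFun := w.ec c
  map_add' f g := funext fun x => by simp [ec_apply, Finset.sum_add_distrib]
  map_smul' a f := funext fun x => by simp [ec_apply, Finset.smul_sum, smul_comm a]

theorem ec_lt (γ : G0) : w.ec c (T.lt ρ γ f) = T.lt ρ γ (w.ec c f) := funext fun x => by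
  simp [ec_apply, Tw.lt, mul_assoc]

theorem ec_com {y : G} (h : ∀ g, Commute (w.ι g) y) : rt y (w.ec c f) = w.ec c (rt y f) :=
  funext fun x => by simp only [rt, ec_apply, mul_assoc, (h _).eq]

theorem rt_ec (a : w.At (Km ℤ_[l] ℚ_[l] 1) U) (hf : Inv U f) (k : GL (Fin 2) ℤ_[l]) :
    rt (w.ι (gK ℚ_[l] k)) (w.ec c f) = w.ec (fun g => c ((rd k)⁻¹ * g)) f := funext fun x => by
  rw [rt, ec_apply, ec_apply]
  refine Fintype.sum_equiv (Equiv.mulLeft (rd k)) _ _ fun g => ?_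
  obtain ⟨k₁, a1, b1⟩ := ex_lf g
  obtain ⟨k₂, a2, b2⟩ := ex_lf (rd k * g)
  rw [Equiv.coe_mulLeft, inv_mul_cancel_left, b1, b2, mul_assoc, ← map_mul, ← map_mul]
  refine congrArg _ (hf.eq ?_ x)
  rw [← map_inv, ← map_mul, ← map_inv, ← map_mul]
  exact a.1 _ (rd_one.2 (by rw [map_mul, map_inv, map_mul, a1, a2, inv_mul_cancel]))

/-- the stabiliser of a function -/
def Sb (f : G → B) : Subgroup G where
  carrier := {u | rt u f = f}
  mul_mem' {a b} ha hb := funext fun x => by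
    rw [rt, ← mul_assoc]
    exact (congrFun hb _).trans (congrFun ha x)
  one_mem' := funext fun x => congrArg f (mul_one x)
  inv_mem' {a} ha := funext fun x => by
    rw [rt, ← congrFun ha, rt, inv_mul_cancel_right]

theorem ec_inv (ok : T.Ok) (hU : U ∈ T.Lev) (hU' : U' ∈ T.Lev) (a : w.At (Km ℤ_[l] ℚ_[l] 1) U)
    {V : Subgroup (GL (Fin 2) (ZMod l))} (a' : w.At (U3 V) U')
    (le : ∀ y ∈ U', w.π y = 1 → y ∈ U) (hc : ∀ q ∈ V, ∀ g, c (q * g) = c g) (hf : Inv U f) :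
    Inv U' (w.ec c f) := fun x u hu => by
  have h1 : ∀ y ∈ U, (∀ g, Commute (w.ι g) y) → y ∈ Sb (w.ec c f) := fun y hy h =>
    (ec_com h).trans (congrArg _ (funext fun x => hf x y hy))
  obtain ⟨v, hv, y, hy, h2, rfl⟩ := a'.split hU' hu
  refine congrFun ((Sb (w.ec c f)).mul_mem ((sup_le ?_ fun g hg => ?_ :
    U3 V ⊔ Zl _ ≤ (Sb (w.ec c f)).comap w.ι) hv) (h1 y (le y hy h2) fun g => w.com g y h2)) x
  · rintro _ ⟨k, hk, rfl⟩
    exact (rt_ec a hf k).trans (by simp only [hc _ (inv_mem hk)])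
  · exact h1 _ (Tw.Z_le hU (w.cen g hg)) fun k => ok.com (w.cen g hg) _

theorem ec_B1 (h : ∀ f : G → B, Inv U f → Inv U' (w.ec c f)) (hz : z ∈ T.B1 ρ U) :
    (fun γ => w.ec c (z γ)) ∈ T.B1 ρ U' := by
  obtain ⟨f, h1, h2⟩ := hz
  exact ⟨_, h f h1, fun γ => by beta_reduce; rw [h2, ← ec_lt]; exact map_sub (ecL w c) _ f⟩

theorem ec_Z1 (h : ∀ f : G → B, Inv U f → Inv U' (w.ec c f)) (hz : z ∈ T.Z1 ρ U) :
    (fun γ => w.ec c (z γ)) ∈ T.Z1 ρ U' :=
  ⟨fun γ => h _ (hz.1 γ), fun γ δ => by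
    beta_reduce
    rw [hz.2.1, ← ec_lt]
    exact (ecL w c).map_add _ _, fun γ hγ => by
    beta_reduce
    rw [hz.2.2 γ hγ]
    exact (ecL w c).map_zero⟩

theorem B1_mono (le : U' ≤ U) (hz : z ∈ T.B1 ρ U) : z ∈ T.B1 ρ U' :=
  hz.imp fun _ h => ⟨fun x u hu => h.1 x u (le hu), h.2⟩

theorem B1_up (le : U' ≤ U) (fi : U'.relIndex U ≠ 0) (h : ∀ γ, Inv U (z γ))
    (hz : z ∈ T.B1 ρ U') : ∃ m : ℕ, m ≠ 0 ∧ m • z ∈ T.B1 ρ U := by
  obtain ⟨f, h1, h2⟩ := hz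
  have k := cor_tr le fi
  refine ⟨k.fin.toFinset.card, Finset.card_ne_zero.2 ⟨(1 : G), k.fin.mem_toFinset.2 (le ?_)⟩,
    hk U U' f, hk_inv k h1, fun γ => funext fun x => ?_⟩
  · simpa using out_mk_mem U' 1
  · rw [← T.hk_lt ρ k, Pi.sub_apply, hk_eq k, hk_eq k, ← Finset.sum_sub_distrib, Pi.smul_apply,
      Pi.smul_apply, ← Finset.sum_const]
    exact Finset.sum_congr rfl fun q hq =>
      (h γ x _ (k.fin.mem_toFinset.1 hq)).symm.trans (congrFun (h2 γ) _)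

end ec

end Vale.Agent.P022K.TH
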