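import Vale.Agent.P022K.TH.Sgi
import Vale.Agent.P022K.FI.Zeta

/-!
# P022K, block TH: Kummer classes on curves of compact type, without control of the reduction of
divisors (`keyn`); purely inseparable extensions keep the genus (`mon`)
-/

set_option autoImplicit false
set_option linter.unusedSectionVars false
set_option linter.style.haveILetI false

noncomputable section

open IntermediateField Vale.Agent.P019P P025H746 P025H492 P025H458 Module Polynomial
  Vale.Agent.P027M.I

namespace Vale.Agent.P022K.TH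

/-- **MON** -/
theorem mon {k K L : Type} [Field k] [Field K] [Field L] [Algebra k K] [Algebra k L] [Algebra K L]
    [IsScalarTower k K L] [CFF k K] [CFF k L] {p : ℕ} [Fact p.Prime] [CharP k p]
    (h : ∀ y : L, ∃ x : K, algebraMap K L x = y ^ p) : gen k K = gen k L := by
  obtain ⟨e, he⟩ := FI.pw_exists (p := p) (φ := IsScalarTower.toAlgHom k K L) fun y =>
    ⟨1, by simpa using h y⟩
  exact he.gen_eq.symm

namespace Kn

theorem exists_two {k K : Type} [Field k] [Field K] [Algebra k K] [CFF k K] {l : ℤ} {f : K}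
    {x : Plk k K} (h : ¬ l ∣ ord x f) : ∃ x', x' ≠ x ∧ ¬ l ∣ ord x' f := by
  classical
  by_contra hcon
  push Not at hcon
  have h1 := dg_dv (k := k) f
  have h2 : x ∈ (dv k f).support := Finsupp.mem_support_iff.2 fun e => h (by
    rw [← dv_apply, e]; exact dvd_zero _)
  rw [dg_apply, Finsupp.sum, ← Finset.add_sum_erase _ _ h2, dv_apply] at h1
  have h3 : l ∣ ∑ y ∈ (dv k f).support.erase x, dv k f y := Finset.dvd_sum fun y hy => by
    rw [dv_apply]; exact hcon y (Finset.ne_of_mem_erase hy)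
  exact h ((dvd_add_left h3).1 (h1 ▸ dvd_zero l))

theorem finrank_root {K L : Type} [Field K] [Field L] [Algebra K L] {l : ℕ} (hl : l.Prime) {f : K}
    (hf : ∀ b : K, b ^ l ≠ f) {y : L} (hy : y ^ l = algebraMap K L f) : finrank K K⟮y⟯ = l := by
  have h1 : IsIntegral K y := IsIntegral.of_pow hl.pos (hy ▸ isIntegral_algebraMap)
  rw [adjoin.finrank h1, ← minpoly.eq_of_irreducible_of_monic
    (X_pow_sub_C_irreducible_of_prime hl hf) (by simp [hy]) (monic_X_pow_sub_C f hl.ne_zero),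
    natDegree_X_pow_sub_C]

/-- a ramified Kummer cover of prime degree multiplies the genus -/
theorem kum_gen {k K L : Type} [Field k] [Field K] [Field L] [Algebra k K] [Algebra k L]
    [Algebra K L] [IsScalarTower k K L] [CFF k K] [CFF k L] [FiniteDimensional K L] {l : ℕ}
    (hl : l.Prime) (hk : (l : k) ≠ 0) (hd : finrank K L ≤ l) {f : K} {y : L}
    (hy : y ^ l = algebraMap K L f) {x : Plk k K} (hx : ¬ (l : ℤ) ∣ ord x f) :
    l * gen k K ≤ gen k L := by
  classical
  have h1 := finrank_root hl (fun b e => hx (by rw [← e, ord_pow]; exact dvd_mul_right _ _)) hy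
  have h2 : finrank K L = l := le_antisymm hd (h1 ▸ Submodule.finrank_le K⟮y⟯.toSubmodule)
  have h3 : K⟮y⟯ = ⊤ := eq_of_le_of_finrank_eq le_top (by rw [h1, finrank_top', h2])
  haveI : IsGalois K L := isGalois_radicals (k := k) h3 fun z hz => ⟨l, f, hk, by rw [hz, hy]⟩
  haveI := Fact.mk hl
  have h4 : ∀ z : Plk k K, ¬ (l : ℤ) ∣ ord z f → Set.ncard {P : Plk k L | down K P = z} ≤ 1 :=
    fun z hz => by
      have h5 := Finset.card_nsmul_le_sum (over_finite (L := L) z).toFinset (ram K) l fun P hP => by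
        have e : down K P = z := (over_finite (L := L) z).mem_toFinset.1 hP
        have h6 := P025H492.ord_algebraMap P f
        rw [← hy, ord_pow, e] at h6
        have h7 := ((Nat.prime_iff_prime_int.1 hl).dvd_mul.1 ⟨_, h6.symm⟩).resolve_right hz
        exact Nat.le_of_dvd (ram_pos P) (Int.natCast_dvd_natCast.1 h7)
      rw [sum_ram, h2, smul_eq_mul] at h5
      rw [Set.ncard_eq_toFinset_card _ (over_finite (L := L) z)]
      exact Nat.le_of_mul_le_mul_right (h5.trans_eq (one_mul l).symm) hl.pos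
  obtain ⟨x', ne, hx'⟩ := exists_two hx
  have h5 := rhc k K L {x', x}
    (isCyclic_of_prime_card ((IsGalois.card_aut_eq_finrank K L).trans h2)) (by rwa [h2])
  rw [Finset.sum_pair ne, h2] at h5
  have h6 := h4 x hx
  have h7 := h4 x' hx'
  have : (l : ℤ) * gen k K ≤ gen k L := by
    have : (l : ℤ) * (2 * gen k K - 2) = 2 * (l * gen k K) - 2 * l := by ring
    omega
  exact_mod_cast this

variable {C K : Type} [NontriviallyNormedField C] [IsUltrametricDist C] [IsAlgClosed C]
  [Field K] [Algebra C K] [CFF C K]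

/-- the reduction at `u` is trivial as soon as its divisor is divisible -/
def Hy (u : NV C K) [CFF (kC C) (kap u)] (m : ℕ) (f : K) : Prop :=
  ∀ c : C, u (algebraMap C K c * f) = 1 →
    (∀ x : Plk (kC C) (kap u), (m : ℤ) ∣ ord x (u.red (algebraMap C K c * f))) → Triv m u f

variable {L : Type} [Field L] [Algebra C L] [Algebra K L] [IsScalarTower C K L]
  [FiniteDimensional K L]

open Node in
theorem loc [IsGalois K L] (hn : ∀ r : ℝ, 0 ≤ r → ∃ x : C, ‖x‖ = r) {l : ℕ} (hl : l.Prime)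
    (hm : (l : kC C) ≠ 0) (hd : finrank K L = l) {y : L} (hY : K⟮y⟯ = ⊤) {f : K} (hf : f ≠ 0)
    (hy : y ^ l = algebraMap K L f) (u : NV C K) [CFF (kC C) (kap u)] (h : Hy u l f) :
    ∃ (J : Type) (_ : Fintype J) (v : J → NV C L) (_ : ∀ j, CFF (kC C) (kap (v j))),
      Function.Injective v ∧ (∀ j, NVExt u (v j)) ∧
        l * gen (kC C) (kap u) ≤ ∑ j, gen (kC C) (kap (v j)) := by
  classical
  have hval : ∀ x, ∃ c : C, ‖c‖ = u x := fun x => hn _ (u.av.nonneg x)
  have cf : ∀ (v : NV C L) [NVExt u v], CFF (kC C) (kap v) := fun v _ =>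
    haveI := finite_resdeg u hval v
    cff_of_finite (K := kap u)
  obtain ⟨v, hv⟩ := DecP.exists_ext' (L := L) u hval
  by_cases ht : Triv l u f
  · have inj : Function.Injective fun g : L ≃ₐ[K] L => v.twist g := fun g g' e =>
      mul_inv_eq_one.1 (Sg.free1 hm hY hy ht v _ fun x => by
        simpa [NV.twist_apply] using NV.congr e (g'⁻¹ x))
    have h1 := sum_resdeg_le u hval _ inj
    have h2 : ∀ g : L ≃ₐ[K] L, 1 ≤ finrank (kap u) (kap (v.twist g)) := fun g =>
      haveI := finite_resdeg u hval (v.twist g)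
      finrank_pos
    rw [← IsGalois.card_aut_eq_finrank, Nat.card_eq_fintype_card, ← Finset.card_univ,
      Finset.card_eq_sum_ones] at h1
    have one := (Finset.sum_eq_sum_iff_of_le fun g _ => h2 g).1
      (le_antisymm (Finset.sum_le_sum fun g _ => h2 g) h1)
    haveI := fun g : L ≃ₐ[K] L => cf (v.twist g)
    refine ⟨L ≃ₐ[K] L, inferInstance, _, this, inj, fun _ => inferInstance, le_of_eq ?_⟩
    rw [Finset.sum_congr rfl fun g hg => (Sg.gen_of_one (one g hg).symm).symm, Finset.sum_const,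
      Finset.card_univ, ← Nat.card_eq_fintype_card, IsGalois.card_aut_eq_finrank, smul_eq_mul, hd]
  · haveI := cf v
    haveI := finite_resdeg u hval v
    refine ⟨Unit, inferInstance, fun _ => v, fun _ => cf v, fun _ _ _ => rfl, fun _ => hv, ?_⟩
    obtain ⟨c, hc⟩ := hn (u f)⁻¹ (inv_nonneg.2 (u.av.nonneg f))
    have h1 : u (algebraMap C K c * f) = 1 := by
      rw [map_mul, u.ext', hc, inv_mul_cancel₀ (u.av.ne_zero hf)]
    obtain ⟨x, hx⟩ := not_forall.1 fun e => ht (h c h1 e)
    obtain ⟨a, rfl⟩ := IsAlgClosed.exists_pow_nat_eq c hl.pos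
    have h2 : (algebraMap C L a * y) ^ l = algebraMap K L (algebraMap C K (a ^ l) * f) := by
      rw [mul_pow, hy, map_mul, ← IsScalarTower.algebraMap_apply, map_pow]
    have h3 : v (algebraMap C L a * y) ≤ 1 := by
      have : v.av (algebraMap C L a * y) ^ l ≤ 1 := by rw [← map_pow, h2, hv.out, h1]
      exact (pow_le_one_iff_of_nonneg (v.av.nonneg _) hl.ne_zero).1 this
    simpa using kum_gen hl hm ((by simpa using sum_resdeg_le u hval (fun _ : Unit => v) fun _ _ _ =>
      rfl : finrank (kap u) (kap v) ≤ finrank K L).trans hd.le) (y := v.red (algebraMap C L a * y))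
      (by rw [← NV.red_pow h3, h2, red_algebraMap' h1.le]) hx

theorem Hy.root {u : NV C K} [CFF (kC C) (kap u)] {l m : ℕ} (hl : l ≠ 0) (hm : m ≠ 0) {z : K}
    (h : Hy u (l * m) (z ^ l)) : Hy u m z := fun c h1 h2 => by
  obtain ⟨y, hy⟩ := h (c ^ l) (by rw [map_pow, ← mul_pow, map_pow, h1, one_pow]) fun x => by
    rw [map_pow, ← mul_pow, NV.red_pow h1.le, ord_pow, Nat.cast_mul]
    exact mul_dvd_mul_left _ (h2 x)
  rw [mul_comm l m, pow_mul, ← mul_pow] at hy
  obtain ⟨h3, h4⟩ := Node.eq_one_of_sub hy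
  have h5 : u (z * y ^ m) ≤ 1 := by
    have : u.av (z * y ^ m) ^ l ≤ 1 := by rw [← map_pow]; exact h3
    exact (pow_le_one_iff_of_nonneg (u.av.nonneg _) hl).1 this
  rw [NV.red_pow h5] at h4
  haveI : IsAlgClosed (kC C) := CFF.ac (k := kC C) (F := kap u)
  obtain ⟨a, ha, ha1⟩ := Node.root_const (k := kC C) hl h4
  obtain ⟨b, hb⟩ := IsAlgClosed.exists_pow_nat_eq a⁻¹ (Nat.pos_of_ne_zero hm)
  obtain ⟨b, hb1, rfl⟩ := cred_surj b
  have h6 : u (algebraMap C K b) ≤ 1 := by rw [u.ext']; exact hb1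
  refine ⟨y * algebraMap C K b, ?_⟩
  rw [mul_pow, ← mul_assoc, ← red_eq_iff (NV.mul_le_one h5 (NV.pow_le_one' h6 m))
    (Node.nv_one u).le, NV.red_mul h5 (NV.pow_le_one' h6 m), NV.red_pow h6, NV.red_algebraMap hb1,
    ← ha, ← map_pow, hb, ← map_mul, mul_inv_cancel₀ (by rintro rfl; simp [hl] at ha1), map_one,
    NV.red_one]

variable {ι : Type} [Fintype ι] (w : ι → NV C K) [∀ i, CFF (kC C) (kap (w i))]

theorem prime [CharZero C] (hC : Sph C) (hn : ∀ r : ℝ, 0 ≤ r → ∃ x : C, ‖x‖ = r)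
    (hw : Function.Injective w) (hg : gen C K ≤ ∑ i, gen (kC C) (kap (w i))) {l : ℕ}
    (hl : l.Prime) (hm : (l : kC C) ≠ 0) {f : K} (hf : f ≠ 0)
    (hd : ∀ P : Plk C K, (l : ℤ) ∣ ord P f) (ht : ∀ i, Hy (w i) l f) : ∃ z : K, z ^ l = f := by
  by_contra hcon
  push Not at hcon
  obtain ⟨y, hy⟩ := IsAlgClosed.exists_pow_nat_eq (algebraMap K (AlgebraicClosure K) f) hl.pos
  haveI : FiniteDimensional K K⟮y⟯ := adjoin.finiteDimensional (Algebra.IsIntegral.isIntegral y)
  have h1 := finrank_root hl hcon hy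
  have hY : K⟮AdjoinSimple.gen K y⟯ = ⊤ :=
    lift_injective _ (by rw [lift_adjoin_simple, lift_top]; rfl)
  have hy' : AdjoinSimple.gen K y ^ l = algebraMap K K⟮y⟯ f := Subtype.ext hy
  haveI : CFF C K⟮y⟯ := cff_of_finite (K := K)
  haveI : IsGalois K K⟮y⟯ := isGalois_radicals (k := C) hY fun x hx =>
    ⟨l, f, Node.cast_ne_zero hm, by rw [hx, hy']⟩
  have hu : IsUnr C K K⟮y⟯ := isUnr_radicals hY fun x hx =>
    ⟨l, f, Node.cast_ne_zero hm, by rw [hx, hy'], hd⟩
  choose J fJ v cf inj ex le using fun i => loc hn hl hm h1 hY hf hy' (w i) (ht i)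
  have h2 := sgi (fun p : Σ i, J i => v p.1 p.2) hC hn (by
    rintro ⟨i, g⟩ ⟨j, g'⟩ e
    obtain rfl : i = j := hw ((nvExt_iff.1 (ex i g)).symm.trans
      ((congrArg (fun u : NV C K⟮y⟯ => u.comap K) e).trans (nvExt_iff.1 (ex j g'))))
    exact congrArg _ (inj i e))
  rw [Fintype.sum_sigma] at h2
  have h3 := (Finset.sum_le_sum fun i _ => le i).trans h2
  rw [← Finset.mul_sum] at h3
  have h4 := hu.genus
  have h5 : (l : ℤ) * gen C K ≤ gen C K⟮y⟯ := by
    exact_mod_cast (Nat.mul_le_mul_left _ hg).trans h3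
  have h6 := hl.two_le
  rw [h1] at h4
  have : (l : ℤ) * (2 * gen C K - 2) = 2 * (l * gen C K) - 2 * l := by ring
  omega

end Kn

variable {C K : Type} [NontriviallyNormedField C] [IsUltrametricDist C] [IsAlgClosed C]
  [Field K] [Algebra C K] [CFF C K] {ι : Type} [Fintype ι] (w : ι → NV C K)
  [∀ i, CFF (kC C) (kap (w i))]

/-- **KEYN** -/
theorem keyn [CharZero C] (hC : Sph C) (hn : ∀ r : ℝ, 0 ≤ r → ∃ x : C, ‖x‖ = r)
    (hw : Function.Injective w) (hg : gen C K ≤ ∑ i, gen (kC C) (kap (w i))) {n : ℕ}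
    (hm : (n : kC C) ≠ 0) {f : K} (hf : f ≠ 0) (hd : ∀ P : Plk C K, (n : ℤ) ∣ ord P f)
    (ht : ∀ (i : ι) (m : ℕ) (c : C), m ∣ n → w i (algebraMap C K c * f) = 1 →
      (∀ x : Plk (kC C) (kap (w i)), (m : ℤ) ∣ ord x ((w i).red (algebraMap C K c * f))) →
      Triv m (w i) f) : ∃ z : K, f = z ^ n := by
  induction n using induction_on_primes generalizing f with
  | zero => exact absurd Nat.cast_zero hm
  | one => exact ⟨f, (pow_one f).symm⟩
  | prime_mul l n hl ih =>
    rw [Nat.cast_mul, mul_ne_zero_iff] at hm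
    obtain ⟨z, rfl⟩ := Kn.prime w hC hn hw hg hl hm.1 hf
      (fun P => (Int.natCast_dvd_natCast.2 (dvd_mul_right l n)).trans (hd P))
      fun i c => ht i l c (dvd_mul_right l n)
    obtain ⟨y, rfl⟩ := ih hm.2 (f := z) (by rintro rfl; exact hf (zero_pow hl.ne_zero))
      (fun P => by
        have := hd P
        rwa [ord_pow, Nat.cast_mul, mul_dvd_mul_iff_left (by exact_mod_cast hl.ne_zero)] at this)
      fun i m c h => Kn.Hy.root hl.ne_zero
        (ne_zero_of_dvd_ne_zero (Node.ne_zero_of_cast hm.2) h)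
        (fun c => ht i (l * m) c (mul_dvd_mul_left l h)) c
    exact ⟨y, by rw [← pow_mul, mul_comm]⟩

end Vale.Agent.P022K.TH
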