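import Vale.Agent.P022K.FI.X0C
import Vale.Agent.P022K.FI.Defs
import Vale.Agent.P027M.G.Sp4
import Vale.Agent.P027M.G.Sp

/-!
# P022K, block TH: the tetrahedral cover of a curve with good reduction in characteristic three

`L / K` is unramified with group `A₄ = ⟨γ, ν⟩`, `K₀` is fixed by `γ` and `Y` by the Klein group.
-/

set_option autoImplicit false
set_option linter.unusedSectionVars false

noncomputable section

open IntermediateField Vale.Agent.P019P P025H746 P025H492 Module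

namespace Vale.Agent.P022K.TH

open Vale.Agent.P027M Vale.Agent.P027M.I Vale.Agent.P022K.FI

/-- **GIN**: the genus inequality -/
def GIN : Prop := ∀ (C F : Type) [NontriviallyNormedField C] [IsUltrametricDist C]
  [CompleteSpace C] [IsAlgClosed C] [Field F] [Algebra C F] [CFF C F], GF C →
  ∀ (ι : Type) [Fintype ι] (w : ι → NV C F) [∀ i, CFF (kC C) (kap (w i))],
    Function.Injective w → ∑ i, gen (kC C) (kap (w i)) ≤ gen C F

/-- **KEYN**: reduction of compact type -/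
def KEYN : Prop := ∀ (C F : Type) [NontriviallyNormedField C] [IsUltrametricDist C]
  [CompleteSpace C] [IsAlgClosed C] [CharZero C] [Field F] [Algebra C F] [CFF C F], GF C →
  ∀ (ι : Type) [Fintype ι] (w : ι → NV C F) [∀ i, CFF (kC C) (kap (w i))],
    Function.Injective w → gen C F ≤ ∑ i, gen (kC C) (kap (w i)) →
    ∀ (n : ℕ) (f : F), (n : kC C) ≠ 0 → f ≠ 0 → (∀ P : Plk C F, (n : ℤ) ∣ ord P f) →
    (∀ i (m : ℕ) (c : C), m ∣ n → w i (algebraMap C F c * f) = 1 →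
      (∀ x : Plk (kC C) (kap (w i)), (m : ℤ) ∣ ord x ((w i).red (algebraMap C F c * f))) →
      Triv m (w i) f) → ∃ z : F, f = z ^ n

/-- **MON**: inseparable extensions keep the genus -/
def MON : Prop := ∀ (k K L : Type) [Field k] [Field K] [Field L] [Algebra k K] [Algebra k L]
  [CFF k K] [CFF k L] (p : ℕ) [Fact p.Prime] [CharP k p] (φ : K →ₐ[k] L),
  (∀ y : L, ∃ a, y ^ p = φ a) → gen k K = gen k L

/-- **INV**: functions from a rational subfield of index two -/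
def INV : Prop := ∀ (k κ : Type) [Field k] [Field κ] [Algebra k κ] [CFF k κ] (R h : κ) (m : ℕ),
  (∀ a : k, R ≠ algebraMap k κ a) → finrank k⟮R⟯ κ = 2 → Odd m → h ∈ k⟮R⟯ → h ≠ 0 →
  (∀ x : Plk k κ, (m : ℤ) ∣ ord x h) → ∃ z : κ, h = z ^ m

section good

variable {C : Type} [NontriviallyNormedField C] [IsUltrametricDist C] [IsAlgClosed C]
  {K : Type} [Field K] [Algebra C K] [CFF C K] (u : NV C K) [CFF (kC C) (kap u)]
  (s : Plk C K → Plk (kC C) (kap u)) (z : Plk (kC C) (kap u))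

/-- regular on the residue class of `z` -/
def Rg (h : K) : Prop := ∀ Q, s Q = z → h ∈ Q.1

/-- `ξ` lies in the residue class of `z` -/
def Cl (ξ : NV C K) : Prop := ∀ h, Rg u s z h → u h ≤ 1 → ∃ a : C, ‖a‖ ≤ 1 ∧
  ξ (h - algebraMap C K a) < 1 ∧ cred a = vl z (u.red h)

end good

/-- **XI**: the boundary of a closed disc in a residue class -/
def XI : Prop := ∀ (C K : Type) [NontriviallyNormedField C] [IsUltrametricDist C]
  [CompleteSpace C] [IsAlgClosed C] [Field K] [Algebra C K] [CFF C K], GF C →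
  ∀ (u : NV C K) [CFF (kC C) (kap u)] s z, (∃ T, G.Good u T) → Gs.IsSp u s →
  ∀ (c : K) (m : C), Rg u s z c → u c = 1 → ord z (u.red c) = 1 → m ≠ 0 → ‖m‖ < 1 →
    ∃ ξ : NV C K, Cl u s z ξ ∧ ξ.OverG (c / algebraMap C K m) ∧
      (kC C)⟮ξ.red (c / algebraMap C K m)⟯ = ⊤ ∧
      ∀ w : NV C K, (∀ h, Rg u s z h → u h ≤ 1 → w h ≤ 1) → w.OverG (c / algebraMap C K m) → w = ξ

section node

variable {C : Type} [NontriviallyNormedField C] [IsUltrametricDist C] [IsAlgClosed C]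
  {K K' K₀ : Type} [Field K] [Algebra C K] [CFF C K] [Field K'] [Algebra C K'] [CFF C K']
  [Field K₀] [Algebra C K₀] [CFF C K₀] [Algebra K K₀] [IsScalarTower C K K₀]
  [FiniteDimensional K K₀]

/-- the curve of level `Γ₀(3)` -/
structure Two (p' : K' →ₐ[C] K₀) (u : NV C K) (u' : NV C K') (v v' : NV C K₀) : Prop where
  gf : GF C
  ch : ‖(3 : C)‖ < 1
  sd : X0.Sd (IsScalarTower.toAlgHom C K K₀) u v v' 3
  sd' : X0.Sd p' u' v' v 3
  pw : ∀ y, v' y ≤ 1 → ∃ a : K, v' (y ^ 3 - algebraMap K K₀ a) < 1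
  deg : finrank K K₀ = 4
  unr : IsUnr C K K₀

variable (u : NV C K) [CFF (kC C) (kap u)] (s : Plk C K → Plk (kC C) (kap u))
  (z : Plk (kC C) (kap u)) (v v' : NV C K₀)

/-- `y` is a parameter of the inseparable branch at a node over `z` -/
structure Nd (y : K₀) : Prop where
  lt : v y < 1
  reg : ∀ P : Plk C K₀, s (down K P) = z → y ∈ P.1 ∧ ‖vl P y‖ < 1
  uni : ∃ c : K, u c = 1 ∧ ord z (u.red c) = 1 ∧ v' (y ^ 3 - algebraMap K K₀ c) < 1
  glue : ∀ f : K₀, (∀ P : Plk C K₀, s (down K P) = z → f ∈ P.1) → v f < 1 → ¬ v' (f - 1) < 1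

end node

/-- **NOD2**: the nodes -/
def NOD2 : Prop := ∀ (C K K' K₀ : Type) [NontriviallyNormedField C] [IsUltrametricDist C]
  [CompleteSpace C] [IsAlgClosed C] [CharZero C] [Field K] [Algebra C K] [CFF C K] [Field K']
  [Algebra C K'] [CFF C K'] [Field K₀] [Algebra C K₀] [CFF C K₀] [Algebra K K₀]
  [IsScalarTower C K K₀] [FiniteDimensional K K₀] (p' : K' →ₐ[C] K₀) (u : NV C K) (u' : NV C K')
  (v v' : NV C K₀) [CFF (kC C) (kap u)] s, Two p' u u' v v' → Gs.IsSp u s →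
  ∃ Z : Finset (Plk (kC C) (kap u)), 2 * ((gen C K : ℤ) - 1) ≤ Z.card ∧ ∀ z ∈ Z,
    ∃ y, Nd u s z v v' y

section cover

variable {C : Type} [NontriviallyNormedField C] [IsUltrametricDist C] [IsAlgClosed C]
  {K K' K₀ L : Type} [Field K] [Algebra C K] [CFF C K] [Field K'] [Algebra C K'] [CFF C K']
  [Field K₀] [Algebra C K₀] [CFF C K₀] [Algebra K K₀] [IsScalarTower C K K₀]
  [FiniteDimensional K K₀] [Field L] [Algebra C L] [CFF C L] [Algebra K L] [Algebra K₀ L]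
  [IsScalarTower C K L] [IsScalarTower C K₀ L] [IsScalarTower K K₀ L] [FiniteDimensional K L]

/-- the curve of level `Γ(3)` -/
structure Geo (p' : K' →ₐ[C] K₀) (u : NV C K) (u' : NV C K') (v v' : NV C K₀) (V : NV C L)
    (γ ν : L ≃ₐ[K] L) : Prop extends Two p' u u' v v' where
  unrL : IsUnr C K L
  g3 : γ ^ 3 = 1
  n2 : ν ^ 2 = 1
  ng : (ν * γ) ^ 3 = 1
  fix0 : ∀ x : L, γ x = x ↔ x ∈ Set.range (algebraMap K₀ L)
  fix : ∀ x : L, γ x = x → ν x = x → x ∈ Set.range (algebraMap K L)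
  e0 : ∀ y : K₀, V (algebraMap K₀ L y) = v y
  e1 : ∀ y : K₀, V (ν (algebraMap K₀ L y)) = v' y
  ine : ∀ h : L, V h ≤ 1 → V (γ h - h) < 1

/-- `S` is an inertia element which normalises the group -/
structure Act (V : NV C L) (γ ν : L ≃ₐ[K] L) (S : L ≃+* L) (s : C ≃+* C) (ε : ℤ) : Prop where
  semi : Semi C S s
  res : ∀ c : C, ‖c‖ ≤ 1 → ‖s c - c‖ < 1
  sgn : ε = 1 ∨ ε = -1
  cg : ∀ x, S (γ x) = (γ ^ ε) (S x)
  cn : ∀ x, S (ν x) = ν (S x)
  triv : ∀ a : K, V (algebraMap K L a) ≤ 1 → V (S (algebraMap K L a) - algebraMap K L a) < 1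

end cover

/-- **GEO**: inertia on the part of type `cth` -/
def GEO : Prop := ∀ (C K K' K₀ L : Type) [NontriviallyNormedField C] [IsUltrametricDist C]
  [CompleteSpace C] [IsAlgClosed C] [CharZero C] [Field K] [Algebra C K] [CFF C K] [Field K']
  [Algebra C K'] [CFF C K'] [Field K₀] [Algebra C K₀] [CFF C K₀] [Algebra K K₀]
  [IsScalarTower C K K₀] [FiniteDimensional K K₀] [Field L] [Algebra C L] [CFF C L] [Algebra K L]
  [Algebra K₀ L] [IsScalarTower C K L] [IsScalarTower C K₀ L] [IsScalarTower K K₀ L]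
  [FiniteDimensional K L] (p' : K' →ₐ[C] K₀) (u : NV C K) (u' : NV C K') (v v' : NV C K₀)
  (V : NV C L) (γ ν : L ≃ₐ[K] L) (S : L ≃+* L) (s : C ≃+* C) (ε : ℤ),
  Geo p' u u' v v' V γ ν → Act V γ ν S s ε → ∀ (n : ℕ) (f z₀ : L), n.Coprime 6 → f ≠ 0 →
  (∀ P : Plk C L, (n : ℤ) ∣ ord P f) → ν f = f → ν (γ f) = γ f → f * γ f * γ (γ f) = z₀ ^ n →
  ∃ z : L, z ≠ 0 ∧ ν z = z ∧ ν (γ z) = γ z ∧ S (S f) = f ^ ε * z ^ n

end Vale.Agent.P022K.TH
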