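import Vale.Agent.P022K.FI.Res3
import Vale.Agent.P022K.TH.St

/-!
# P022K, block TH, row NOD2: the nodes of the curve of level `Γ₀(3)`
-/

set_option autoImplicit false
set_option linter.all false

noncomputable section

open IntermediateField Vale.Agent.P019P P025H746 P025H492 Module

namespace Vale.Agent.P022K.TH

open Vale.Agent.P027M Vale.Agent.P027M.I Vale.Agent.P022K.FI X0

namespace Nn

section sp

variable {C K : Type} [NontriviallyNormedField C] [IsUltrametricDist C] [IsAlgClosed C]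
  [Field K] [Algebra C K] [CFF C K] {u : NV C K} [CFF (kC C) (kap u)]
  {s : Plk C K → Plk (kC C) (kap u)} {z : Plk (kC C) (kap u)} {T : K} {Q : Plk C K}

theorem rel_inv (h : Gs.Gd u T) (hR : Gs.Rel u T⁻¹ Q z) (hz : u.red T ∉ z.1) {a : C}
    (h1 : P027M.K.Val Q T⁻¹ a) : ‖a‖ < 1 := by
  obtain ⟨⟨a', h2, h3⟩, -, h4⟩ := hR
  obtain rfl := h1.unique h3
  have h5 := h4 _ _ (fun _ e => e) h.inv.toFull.wT.le h1
  rw [NV.red_inv h.toFull.wT] at h5
  rw [← cred_eq_zero h2, ← vl_eq h5]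
  exact Res.vl_of_pos (Res.pos_iff.2 (by rwa [inv_inv]))

theorem rel_sp (hs : Gs.IsSp u s) (h : Gs.Gd u T) (hR : Gs.Rel u T Q z) : s Q = z := by
  refine (hs.char h Q z).2 fun x h1 h2 P hP => ?_
  by_cases e : u.red T ∈ P.1
  · exact h.mem_of_rel e h1 fun R h3 => h2 R (by rintro rfl; exact hP (h.rel_unique h3 hR))
  · refine h.inv.mem_of_rel ?_ h1 fun R h3 => h2 R ?_
    · rw [NV.red_inv h.toFull.wT]
      exact (P.1.mem_or_inv_mem _).resolve_left e
    · rintro rfl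
      obtain ⟨a, h4, h5⟩ := hR.1
      obtain ⟨a', -, h6⟩ := h3.1
      have h7 := h5.mul h6
      rw [mul_inv_cancel₀ (Gs.ne_of_w h.toFull.wT)] at h7
      have h8 := congrArg norm (h7.unique (P027M.K.Val.one R))
      rw [norm_mul, norm_one] at h8
      exact (mul_lt_one_of_nonneg_of_lt_one_right h4 (norm_nonneg _) (rel_inv h h3 e h6)).ne h8

theorem sp_fin (hs : Gs.IsSp u s) (h : Gs.Gd u T) (hz : u.red T ∈ (s Q).1) :
    T ∈ Q.1 ∧ ‖vl Q T‖ ≤ 1 := by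
  by_contra hc
  have h0 := Gs.ne_of_w h.toFull.wT
  obtain ⟨a, h1, h2⟩ : ∃ a : C, ‖a‖ < 1 ∧ P027M.K.Val Q T⁻¹ a := by
    by_cases e : T ∈ Q.1
    · have h1 : 1 < ‖vl Q T‖ := not_le.1 fun e' => hc ⟨e, e'⟩
      have h2 : vl Q T ≠ 0 := norm_pos_iff.1 (one_pos.trans h1)
      have h3 := inv_mem_of_vl e h2
      have h4 := Res.vl_mul e h3
      rw [mul_inv_cancel₀ h0, Res.vl_one] at h4
      refine ⟨_, ?_, Res.vl_mem h3⟩
      rw [eq_inv_of_mul_eq_one_right h4.symm, norm_inv]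
      exact inv_lt_one_of_one_lt₀ h1
    · exact ⟨0, by simp, P027M.K.Val.zero_iff.2 (Or.inr (Res.pos_iff.2 (by rwa [inv_inv])))⟩
  obtain ⟨P, hP⟩ := h.inv.exists_rel h1.le h2
  obtain rfl := rel_sp hs h.inv hP
  have h3 := hP.2.2 _ _ (fun _ e => e) h.inv.toFull.wT.le h2
  rw [NV.red_inv h.toFull.wT, (cred_eq_zero h1.le).2 h1, P027M.K.Val.zero_iff, mem_Mge_one_iff,
    inv_inv] at h3
  exact h3.elim (inv_ne_zero (NV.red_ne_zero h.toFull.wT)) fun e => e hz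

end sp

theorem char3 {C : Type} [NontriviallyNormedField C] [IsUltrametricDist C] (h : ‖(3 : C)‖ < 1) :
    CharP (kC C) 3 := by
  refine (CharP.charP_iff_prime_eq_zero Nat.prime_three).2 ?_
  have h1 : ‖(1 : C)‖ ≤ 1 := by simp
  have h2 : ‖(1 + 1 : C)‖ ≤ 1 := (IsUltrametricDist.norm_add_le_max _ _).trans (max_le h1 h1)
  have h3 := (cred_eq_zero h.le).2 h
  rw [show (3 : C) = 1 + 1 + 1 by norm_num, cred_add h2 h1, cred_add h1 h1, cred_one] at h3
  rw [← h3]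
  norm_num

variable {C : Type} [NontriviallyNormedField C] [IsUltrametricDist C] [CompleteSpace C]
  [IsAlgClosed C] [CharZero C]
  {K K' K₀ : Type} [Field K] [Algebra C K] [CFF C K] [Field K'] [Algebra C K'] [CFF C K']
  [Field K₀] [Algebra C K₀] [CFF C K₀] [Algebra K K₀] [IsScalarTower C K K₀]
  [FiniteDimensional K K₀] {p' : K' →ₐ[C] K₀} {u : NV C K} {u' : NV C K'} {v v' : NV C K₀}

theorem pw0 (H : Two p' u u' v v') :
    Pw (Res.rA (IsScalarTower.toAlgHom C K K₀) H.sd.e0) (3 ^ 0) :=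
  ⟨fun x => by
    obtain ⟨y, -, rfl⟩ := H.sd.surj x
    exact ⟨_, by rw [Res.rA_red, pow_zero, pow_one]⟩, fun y => ⟨_, by rw [pow_zero, pow_one]⟩⟩

theorem pw1 (H : Two p' u u' v v') :
    Pw (Res.rA (IsScalarTower.toAlgHom C K K₀) H.sd.e1) (3 ^ 1) := by
  refine ⟨fun x => ?_, fun y => ?_⟩
  · obtain ⟨y, h1, rfl⟩ := NV.red_surj x
    obtain ⟨a, h2⟩ := H.pw y h1
    have h3 := NV.pow_le_one' h1 3
    exact ⟨u.red a, by
      rw [Res.rA_red, pow_one, ← NV.red_pow h1]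
      exact ((red_eq_iff h3 (le_one_of_sub h3 h2)).2 h2).symm⟩
  · obtain ⟨a, h1, rfl⟩ := NV.red_surj y
    obtain ⟨x, h2, h3⟩ := H.sd.fro a h1
    exact ⟨v'.red x, by
      rw [Res.rA_red, pow_one, ← NV.red_pow h2,
        red_eq_iff (by rw [H.sd.e1]; exact h1) (NV.pow_le_one' h2 3)]
      exact h3⟩

variable [CFF (kC C) (kap u)] {s : Plk C K → Plk (kC C) (kap u)} {z : Plk (kC C) (kap u)} {T : K}
  [FiniteDimensional C⟮IsScalarTower.toAlgHom C K K₀ T⟯ K₀]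

/-- the place below a branch -/
def dn (H : Two p' u u' v v') (hT : G.Good u T) (b : Br C (IsScalarTower.toAlgHom C K K₀ T)) :
    Plk (kC C) (kap u) :=
  Res.pb (Res.rA (IsScalarTower.toAlgHom C K K₀) (H.sd.ext (H.sd.overG hT) b.w)) b.x

variable (H : Two p' u u' v v') (hT : G.Good u T)
  {b b' : Br C (IsScalarTower.toAlgHom C K K₀ T)}

theorem pw (w : WW C (IsScalarTower.toAlgHom C K K₀ T)) : ∃ m,
    Pw (Res.rA (IsScalarTower.toAlgHom C K K₀) (H.sd.ext (H.sd.overG hT) w)) (3 ^ m) := by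
  obtain ⟨w, hw⟩ := w
  rcases (H.sd.overG hT w).1 hw with rfl | rfl
  exacts [⟨0, pw0 H⟩, ⟨1, pw1 H⟩]

theorem mem_dn {y : K} :
    u.red y ∈ (dn H hT b).1 ↔ b.w.1.red (IsScalarTower.toAlgHom C K K₀ y) ∈ b.x.1 := by
  rw [dn, Res.mem_pb, Res.rA_red]

theorem dn_inj (e : b.w = b'.w) (e' : dn H hT b = dn H hT b') : b = b' := by
  haveI := char3 H.ch
  haveI := Fact.mk Nat.prime_three
  obtain ⟨w, x, hx⟩ := b
  obtain ⟨w', x', hx'⟩ := b'
  dsimp only at e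
  subst e
  obtain ⟨m, h⟩ := pw H hT w
  obtain rfl : x = x' := (h.existsUnique (dn H hT ⟨w, x, hx⟩)).unique (fun _ => Iff.rfl)
    fun y => by rw [e']; rfl
  rfl

theorem spc_dn (hs : Gs.IsSp u s) {P : Plk C K₀} (h : Spc P b) : s (down K P) = dn H hT b := by
  have e : ∀ x : K, x ∈ (down K P).1 →
      vl (down K P) x = vl P (IsScalarTower.toAlgHom C K K₀ x) := fun x hx =>
    Res.vl_pb (φ := IsScalarTower.toAlgHom C K K₀) hx
  haveI := fin_of_transc hT.og.transc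
  refine rel_sp hs hT.gd ⟨⟨_, (e T h.1).symm ▸ h.2.1, Res.vl_mem h.1⟩, (mem_dn H hT).2 b.fin,
    fun x c h1 h2 h3 => ?_⟩
  have h4 : BB C _ (IsScalarTower.toAlgHom C K K₀ x) :=
    bb_up _ ⟨fun w => by rwa [hT.full.uniq w.2], h1⟩
  have h5 := h4.red_mem b
  rw [← vl_eq h3, e x (h1 _ h.1), h.2.2 _ h4]
  have h6 := Res.vl_mem ((mem_dn H hT).2 h5)
  rw [← Res.rA_red _ (H.sd.ext (H.sd.overG hT) b.w)] at h5
  rwa [dn, Res.vl_pb h5, Res.rA_red] at h6

theorem dn_glue (hF : Full C (IsScalarTower.toAlgHom C K K₀ T)) (hg : Glue b b') :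
    dn H hT b = dn H hT b' :=
  Plk.eq_of_le fun y hy => by
    obtain ⟨y, h1, rfl⟩ := NV.red_surj y
    exact (mem_dn H hT).2 (H.sd.same hF (H.sd.overG hT) hg h1 ((mem_dn H hT).1 hy))

theorem nd (hs : Gs.IsSp u s) (hF : Full C (IsScalarTower.toAlgHom C K K₀ T)) (e : b.w.1 = v)
    (e' : b'.w.1 = v') (hg : Glue b b') : ∃ (a : K) (a' : K'), u a ≤ 1 ∧ u' a' ≤ 1 ∧
      Nd u s (dn H hT b) v v' (p' a' - algebraMap K K₀ a) := by
  haveI := char3 H.ch
  haveI := Fact.mk Nat.prime_three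
  have hW := H.sd.overG hT
  have hW' := fun w => (hW w).trans or_comm
  have cls : ∀ P : Plk C K₀, s (down K P) = dn H hT b → Spc P b := fun P hP => by
    obtain ⟨h1, h2⟩ := sp_fin hs hT.gd (Q := down K P) (hP ▸ (mem_dn H hT).2 b.fin)
    obtain ⟨c, hc⟩ := exists_spc b.w.2.transc (P := P) h1
      (Res.vl_pb (φ := IsScalarTower.toAlgHom C K K₀) h1 ▸ h2)
    have h3 := (spc_dn H hT hs hc).symm.trans hP
    rcases (hW _).1 c.w.2 with h4 | h4
    · rwa [← dn_inj H hT (Subtype.ext (h4.trans e.symm)) h3]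
    · rw [dn_inj H hT (Subtype.ext (h4.trans e'.symm)) (h3.trans (dn_glue H hT hF hg))] at hc
      exact hc.glue hg.symm
  obtain ⟨⟨w, hw⟩, x, hx⟩ := b
  obtain ⟨⟨w', hw'⟩, x', hx'⟩ := b'
  dsimp only at e e'
  subst e e'
  haveI := hw.cff
  haveI := hw'.cff
  obtain ⟨t, h1, h2, h3, h4⟩ := exists_gen (Φ := H.sd.mp.comp H.sd'.mp)
    (fun a => by rw [RingHom.comp_apply, H.sd'.mp_const, H.sd.mp_const]) (by norm_num : 1 < 3)
    (fun z => H.sd.mp_pow _) x'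
  obtain ⟨y', hy', rfl⟩ := H.sd'.surj t
  obtain ⟨y, hy, e⟩ := H.sd.surj (w.red (p' y'))
  rw [RingHom.comp_apply, H.sd'.mp_red, ← e, H.sd.mp_red] at h2 h3 h4
  obtain ⟨a', a1', a2', a3'⟩ := H.sd'.lock hF hW' ⟨⟨w', hw'⟩, x', hx'⟩ hy' h1
  obtain ⟨a, a1, a2, a3⟩ := H.sd.lock hF hW ⟨⟨w', hw'⟩, x', hx'⟩ hy h2
  have e1 : w'.red (p' a' - algebraMap K K₀ a) =
      w'.red (p' y') - w'.red (IsScalarTower.toAlgHom C K K₀ y) :=
    (NV.red_sub a3'.le a3.le).trans (by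
      rw [H.sd'.red_eq hW' ⟨w', hw'⟩ a1' hy' a2', H.sd.red_eq hW ⟨w', hw'⟩ a1 hy a2])
  have o : Ob (⟨⟨w', hw'⟩, x', hx'⟩ : Br C (IsScalarTower.toAlgHom C K K₀ T))
    (p' a' - algebraMap K K₀ a) := a3'.sub a3
  have l : w (p' a' - algebraMap K K₀ a) < 1 := by
    refine (red_eq_iff (by rw [H.sd'.e1]; exact a1') ((H.sd.e0 a).trans_le a1)).1 ?_
    rw [H.sd'.red_eq hW' ⟨w, hw⟩ a1' hy' a2', ← e]
    exact (H.sd.red_eq hW ⟨w, hw⟩ a1 hy a2).symm
  have z0 : ∀ f, w f < 1 → (⟨⟨w, hw⟩, x, hx⟩ : Br C (IsScalarTower.toAlgHom C K K₀ T)).ev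
      (redv C _ f) = 0 := fun f hf => by
    change vl x (w.red f) = 0
    rw [NV.red_of_lt hf, Res.vl_zero]
  refine ⟨a, a', a1, a1', l, fun P hP => ?_, ?_, fun f h5 h6 h7 => ?_⟩
  · obtain ⟨h5, h6, h7⟩ := (cls P hP).ob (o.glue hg.symm)
    exact ⟨h5, by rwa [z0 _ l, cred_eq_zero h6] at h7⟩
  · have h5 : vl x' (w'.red (p' a' - algebraMap K K₀ a)) = 0 :=
      (o.ev_eq hg.symm).trans (z0 _ l)
    rw [← e1] at h3 h4
    have h6 := Res.pos_of_vl h3 o.mem h5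
    obtain ⟨c, hc⟩ := (pw1 H).1 (w'.red (p' a' - algebraMap K K₀ a))
    obtain ⟨c, c1, rfl⟩ := NV.red_surj c
    have h7 := (pw1 H).ord (P := x') (R := dn H hT ⟨⟨w', hw'⟩, x', hx'⟩) (fun _ => Iff.rfl) (u.red c)
    rw [hc, ord_pow, (h4.resolve_left h6.ne').2, ← dn_glue H hT hF hg] at h7
    rw [Res.rA_red, pow_one, ← NV.red_pow o.le, eq_comm] at hc
    refine ⟨c, Gs.w_eq_one c1 fun e2 => ?_, by push_cast at h7; omega, (red_eq_iff
      (NV.pow_le_one' o.le 3) ((H.sd.e1 c).trans_le c1)).1 hc⟩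
    rw [e2, ord_zero] at h7
    omega
  · have h8 := le_one_of_sub (w := w') (x := 1) (y := f) (by simp)
      (by rwa [← NV.map_neg', neg_sub])
    have h9 : Ob (⟨⟨w, hw⟩, x, hx⟩ : Br C (IsScalarTower.toAlgHom C K K₀ T)) f :=
      ob_of_not_spc (fun c => by rcases (hW _).1 c.2 with e | e <;> rw [e] <;> linarith)
        fun P hP hc => hP (h5 P (spc_dn H hT hs hc))
    have h10 := (z0 f h6).symm.trans (h9.ev_eq hg)
    change 0 = vl x' (w'.red f) at h10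
    rw [(red_eq_iff h8 (by simp)).2 h7, NV.red_one, Res.vl_one] at h10
    exact zero_ne_one h10

end Nn

open Nn

/-- **NOD2** -/
theorem nod2 : NOD2 := by
  intro C K K' K₀ _ _ _ _ _ _ _ _ _ _ _ _ _ _ _ _ _ p' u u' v v' _ s H hs
  classical
  haveI := char3 H.ch
  haveI := Fact.mk Nat.prime_three
  have h := H.sd
  have h' := H.sd'
  have hq : 1 < 3 := by norm_num
  obtain ⟨T₀, hT₀⟩ := h.good
  have o0 := (overG_map _ h.e0).2 hT₀.og
  haveI := fin_of_transc o0.transc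
  haveI := o0.cff
  haveI := ((overG_map _ h.e1).2 hT₀.og).cff
  have f1 := fxd_finite' (k := kC C) (Φ := h'.mp.comp h.mp)
    (fun a => by rw [RingHom.comp_apply, h.mp_const, h'.mp_const]) hq fun z => h'.mp_pow _
  have f2 := fxd_finite' (k := kC C) (Φ := h.mp.comp h'.mp)
    (fun a => by rw [RingHom.comp_apply, h'.mp_const, h.mp_const]) hq fun z => h.mp_pow _
  obtain ⟨T, hT, h1⟩ := exists_par (F := K₀) hT₀
    ((f1.image fun x => vl x (v.red (IsScalarTower.toAlgHom C K K₀ T₀))).union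
      (f2.image fun x => vl x (v'.red (IsScalarTower.toAlgHom C K K₀ T₀))))
  have o1 := (overG_map _ h.e0).2 hT.og
  have o2 := (overG_map _ h.e1).2 hT.og
  haveI := fin_of_transc o1.transc
  haveI := fin_of_transc o1.inv.transc
  have hF : Full C (IsScalarTower.toAlgHom C K K₀ T) := (stab H.gf.sph H.gf.onto o1.transc).1
  obtain ⟨sep, S, hS⟩ := nodal (v := ⟨v, o1⟩) (v' := ⟨v', o2⟩) h h' hq hF
    (stab H.gf.sph H.gf.onto o1.inv.transc).1 (h.overG hT)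
    (fun x hx => h1 _ v h.e0 x (Or.inl ⟨x, hx, rfl⟩))
    fun x hx => h1 _ v' h.e1 x (Or.inr ⟨x, hx, rfl⟩)
  have c2 : Fintype.card (WW C (IsScalarTower.toAlgHom C K K₀ T)) ≤ 2 :=
    (Finset.card_le_card (t := {⟨v, o1⟩, ⟨v', o2⟩}) fun w _ => by
      rcases (h.overG hT _).1 w.2 with e | e
      exacts [Finset.mem_insert.2 (Or.inl (Subtype.ext e)),
        Finset.mem_insert_of_mem (Finset.mem_singleton.2 (Subtype.ext e))]).trans Finset.card_le_two
  refine ⟨S.image (dn H hT), ?_, fun z hz => ?_⟩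
  · have h2 := Finset.card_le_mul_card_image (f := dn H hT) S 2 fun z _ =>
      (Finset.card_le_card_of_injOn (t := Finset.univ) (fun b => b.w) (fun _ _ => Finset.mem_univ _)
        fun b hb b' hb' e => dn_inj H hT e ((Finset.mem_filter.1 hb).2.trans
          (Finset.mem_filter.1 hb').2.symm)).trans c2
    have h3 := hS.1
    have h4 := H.unr.genus
    rw [cd, Finset.sum_congr rfl fun w _ => by
      rw [(pw H hT w).choose_spec.gen_eq, hT.gd.gen_eq], Finset.sum_const, Finset.card_univ,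
      nsmul_eq_mul] at h3
    rw [H.deg] at h4
    rcases Nat.eq_zero_or_pos (gen C K) with e | e
    · rw [e]
      omega
    · have h5 : (Fintype.card (WW C (IsScalarTower.toAlgHom C K K₀ T)) : ℤ) * (gen C K - 1) ≤
          2 * (gen C K - 1) := mul_le_mul_of_nonneg_right (by exact_mod_cast c2) (by omega)
      omega
  · obtain ⟨b, hb, rfl⟩ := Finset.mem_image.1 hz
    obtain ⟨b', -, h2, hg⟩ := hS.2 b hb
    have h3 : b.w.1 ≠ b'.w.1 := fun e => h2 (sep b b' (Subtype.ext e) hg).symm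
    rcases (h.overG hT _).1 b.w.2 with e | e <;> rcases (h.overG hT _).1 b'.w.2 with e' | e'
    · exact absurd (e.trans e'.symm) h3
    · obtain ⟨_, _, -, -, h4⟩ := nd H hT hs hF e e' hg
      exact ⟨_, h4⟩
    · obtain ⟨_, _, -, -, h4⟩ := nd H hT hs hF e' e hg.symm
      exact ⟨_, dn_glue H hT hF hg ▸ h4⟩
    · exact absurd (e.trans e'.symm) h3

end Vale.Agent.P022K.TH
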