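import Vale.Agent.P022K.TH.Act
import Vale.Agent.P022K.TH.Deg
import Vale.Agent.P022K.TH.Keyn
import Vale.Agent.P022K.TH.Nod
import Vale.Agent.P027M.I.I2a

/-!
# P022K, block TH: assembly of `GEO` from the local analysis at the nodes
-/

set_option autoImplicit false
set_option linter.unusedSectionVars false
set_option linter.style.haveILetI false

noncomputable section

open IntermediateField Vale.Agent.P019P P025H746 P025H492 Module

namespace Vale.Agent.P022K.TH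

open Vale.Agent.P027M Vale.Agent.P027M.I Vale.Agent.P022K.FI

/-- **LOCP**: the quartic at a node -/
def LOCP : Prop := ∀ (C K K' K₀ L : Type) [NontriviallyNormedField C] [IsUltrametricDist C]
  [CompleteSpace C] [IsAlgClosed C] [CharZero C] [Field K] [Algebra C K] [CFF C K] [Field K']
  [Algebra C K'] [CFF C K'] [Field K₀] [Algebra C K₀] [CFF C K₀] [Algebra K K₀]
  [IsScalarTower C K K₀] [FiniteDimensional K K₀] [Field L] [Algebra C L] [CFF C L] [Algebra K L]
  [Algebra K₀ L] [IsScalarTower C K L] [IsScalarTower C K₀ L] [IsScalarTower K K₀ L]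
  [FiniteDimensional K L] (p' : K' →ₐ[C] K₀) (u : NV C K) (u' : NV C K') (v v' : NV C K₀)
  (V : NV C L) (γ ν : L ≃ₐ[K] L) [CFF (kC C) (kap u)] s z (y : K₀),
  Geo p' u u' v v' V γ ν → Gs.IsSp u s → Nd u s z v v' y →
  ∃ (ξ : NV C K) (y' : K₀) (X : K) (d : C), Cl u s z ξ ∧ ∀ (w : NV C L) [NVExt ξ w],
    Ac.Qu ξ w (algebraMap K₀ L y') (ν (algebraMap K₀ L y')) (γ (ν (algebraMap K₀ L y')))
      (γ (γ (ν (algebraMap K₀ L y')))) X d

namespace Ga

theorem exists_res {Y L : Type} [Field Y] [Field L] (S : L ≃+* L) (j : Y →+* L)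
    (h1 : ∀ f, ∃ g, j g = S (j f)) (h2 : ∀ f, ∃ g, j g = S.symm (j f)) :
    ∃ e : Y ≃+* Y, ∀ f, j (e f) = S (j f) := by
  choose a ha using h1
  choose b hb using h2
  exact ⟨{ toFun := a, invFun := b
           left_inv := fun f => j.injective (by rw [hb, ha, S.symm_apply_apply])
           right_inv := fun f => j.injective (by rw [ha, hb, S.apply_symm_apply])
           map_mul' := fun f g => j.injective (by simp [ha])
           map_add' := fun f g => j.injective (by simp [ha]) }, ha⟩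

variable {C : Type} [NontriviallyNormedField C] [IsUltrametricDist C] [IsAlgClosed C]
  {K : Type} [Field K] [Algebra C K]

theorem semi_res {L : Type} [Field L] [Algebra C L] [Algebra K L] [IsScalarTower C K L]
    {S : L ≃+* L} {σ : C ≃+* C} (h : Semi C S σ) {e : K ≃+* K}
    (he : ∀ f, algebraMap K L (e f) = S (algebraMap K L f)) : Semi C e σ :=
  ⟨fun c => (algebraMap K L).injective (by
    rw [he, ← IsScalarTower.algebraMap_apply, ← IsScalarTower.algebraMap_apply, h.1]), h.2⟩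

theorem scale {w : NV C K} (hn : ∀ r : ℝ, 0 ≤ r → ∃ x : C, ‖x‖ = r) {f : K} (hf : f ≠ 0) :
    ∃ (c : C) (g : K), c ≠ 0 ∧ w g = 1 ∧ f = algebraMap C K c * g := by
  obtain ⟨c, hc⟩ := hn _ (w.av.nonneg f)
  have c0 : c ≠ 0 := by
    rintro rfl
    exact hf (w.av.eq_zero.1 (by rw [← hc, norm_zero]))
  exact ⟨c, (algebraMap C K c)⁻¹ * f, c0, by
    rw [map_mul, map_inv₀, w.ext', hc, inv_mul_cancel₀ (w.av.ne_zero hf)],
    (mul_inv_cancel_left₀ ((map_ne_zero _).2 c0) f).symm⟩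

theorem cred_res {σ : C ≃+* C} (hr : ∀ c : C, ‖c‖ ≤ 1 → ‖σ c - c‖ < 1) {c : C} (hc : ‖c‖ ≤ 1) :
    cred (σ c) = cred c := by
  have := cred_add (hr c hc).le hc
  rwa [sub_add_cancel, (cred_eq_zero (hr c hc).le).2 (hr c hc), zero_add] at this

theorem iso_of {u : NV C K} (hn : ∀ r : ℝ, 0 ≤ r → ∃ x : C, ‖x‖ = r) {e : K ≃+* K} {σ : C ≃+* C}
    (h : Semi C e σ) (ht : ∀ a, u a ≤ 1 → u (e a - a) < 1) (a : K) : u (e a) = u a := by
  rcases eq_or_ne a 0 with rfl | h0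
  · rw [map_zero]
  obtain ⟨c, g, -, hg, rfl⟩ := scale (w := u) hn h0
  have h1 := ht g hg.le
  have h2 : u (e g) = 1 := by
    refine le_antisymm (by simpa using NV.add_le h1.le hg.le) (not_lt.1 fun h3 => ?_)
    have := NV.sub_lt h3 h1
    rw [sub_sub_cancel, hg] at this
    exact lt_irrefl _ this
  rw [map_mul, map_mul, map_mul, h.1, u.ext', u.ext', h.2, h2, hg]

theorem gen_pull {e : K ≃+* K} {σ : C ≃+* C} (h : Semi C e σ)
    (hr : ∀ c : C, ‖c‖ ≤ 1 → ‖σ c - c‖ < 1) (w : NV C K) [CFF (kC C) (kap w)]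
    [CFF (kC C) (kap (pullNV (e : K →+* K) h.1 h.2 w))] :
    gen (kC C) (kap (pullNV (e : K →+* K) h.1 h.2 w)) = gen (kC C) (kap w) := by
  have h1 : ∀ y, w ((e : K →+* K) y) = pullNV (e : K →+* K) h.1 h.2 w y := fun _ => rfl
  refine gen_eq (RingEquiv.ofBijective (rm _ h1) ⟨(rm _ h1).injective,
    rm_surj _ h1 fun y _ => ⟨e.symm y, by simp⟩⟩) (RingEquiv.refl _) fun a => ?_
  obtain ⟨c, hc, rfl⟩ := cred_surj a
  exact (rm_const _ h1 h.1 h.2 hc).trans (congrArg _ (cred_res hr hc))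

theorem triv_pw {w : NV C K} {m : ℕ} {z : K} (hz : z ≠ 0) : Triv m w (z ^ m) :=
  ⟨z⁻¹, by rw [← mul_pow, mul_inv_cancel₀ hz, one_pow, sub_self, map_zero]; exact one_pos⟩

theorem triv_pow {w : NV C K} {m : ℕ} {f : K} (h : Triv m w f) (j : ℕ) : Triv m w (f ^ j) := by
  induction j with
  | zero => simpa using triv_pw (w := w) (m := m) one_ne_zero
  | succ j ih => rw [pow_succ]; exact I2a.triv_mul ih h

theorem triv_cube {w : NV C K} {n : ℕ} (hn : ¬ 3 ∣ n) {g : K} (hg : g ≠ 0)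
    (h : Triv n w (g ^ 3)) : Triv n w g := by
  obtain ⟨j, hj⟩ : ∃ j, n * n = 3 * j + 1 := by
    have h1 : n % 3 = 1 ∨ n % 3 = 2 := by omega
    refine ⟨n * n / 3, ?_⟩
    have h2 : n * n % 3 = 1 := by rcases h1 with e | e <;> rw [Nat.mul_mod, e]
    omega
  have := I2a.triv_mul (triv_pw (w := w) (m := n) (pow_ne_zero n hg)) (I2a.triv_inv (triv_pow h j))
  rwa [← pow_mul, ← pow_mul, hj, pow_succ, mul_comm _ g, mul_inv_cancel_right₀ (pow_ne_zero _ hg)]
    at this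

theorem triv_dvd {w : NV C K} {m n : ℕ} (hm : m ∣ n) {f : K} (h : Triv n w f) : Triv m w f := by
  obtain ⟨j, rfl⟩ := hm
  obtain ⟨z, hz⟩ := h
  exact ⟨z ^ j, by rwa [← pow_mul, mul_comm j]⟩

section cl

variable [CFF C K] {u : NV C K} [CFF (kC C) (kap u)] {s : Plk C K → Plk (kC C) (kap u)}
  {z z' : Plk (kC C) (kap u)} {ξ : NV C K} {T : K} (hs : Gs.IsSp u s) (hT : Gs.Gd u T)
include hs hT

theorem cl_ne (h : Cl u s z ξ) : ξ ≠ u := by
  rintro rfl
  obtain ⟨Q, rfl⟩ := hs.surj z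
  obtain ⟨t, h1, h2, h3, -⟩ := hs.param hT Q
  obtain ⟨a, h4, h5, -⟩ := h t h3 h1.le
  rw [(red_eq_iff h1.le ((ξ.ext' a).trans_le h4)).2 h5, NV.red_algebraMap h4, ord_const] at h2
  exact zero_ne_one h2

theorem cl_inj (h : Cl u s z ξ) (h' : Cl u s z' ξ) : z = z' := by
  classical
  by_contra hne
  obtain ⟨P, hP⟩ := Gs.exists_notMem {z, z'}
  obtain ⟨Q, rfl⟩ := hs.surj P
  rw [Finset.mem_insert, Finset.mem_singleton, not_or] at hP
  obtain ⟨y, h0, h1, h2⟩ := exists_exact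
    (D := Finsupp.single (s Q) (2 * (gen C K : ℤ) + 1) - Finsupp.single z 1) z'
    (by rw [map_sub, dg_sgl, dg_sgl, hT.gen_eq]; omega)
  obtain ⟨x, h3, h4, rfl⟩ := hs.lift hT (D := Finsupp.single Q (2 * (gen C K : ℤ) + 1))
    (by rw [dg_sgl]; omega) (y := y) (Or.inr fun R => by
      refine le_trans ?_ (h1 R)
      rw [Finsupp.mapDomain_single, Finsupp.sub_apply, Finsupp.single_apply (a := z)]
      split_ifs <;> omega)
  have rg : ∀ b, s Q ≠ b → Rg u s b x := fun b hb R hR => by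
    have := mem_LL_iff.1 h3 R
    rw [Finsupp.single_eq_of_ne (fun e => hb (by rw [← hR, e])), neg_zero] at this
    exact mem_Mge0.1 this
  obtain ⟨a, a1, a2, a3⟩ := h x (rg z hP.1) h4
  obtain ⟨b, b1, b2, b3⟩ := h' x (rg z' hP.2) h4
  have h5 := NV.sub_lt b2 a2
  rw [sub_sub_sub_cancel_left, ← map_sub, ξ.ext'] at h5
  have h6 := cred_add h5.le b1
  rw [sub_add_cancel, (cred_eq_zero h5.le).2 h5, zero_add, a3, b3] at h6
  have h7 := h1 z
  rw [Finsupp.sub_apply, Finsupp.single_eq_of_ne (Ne.symm hP.1), Finsupp.single_eq_same] at h7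
  rw [Finsupp.sub_apply, Finsupp.single_eq_of_ne (Ne.symm hP.2),
    Finsupp.single_eq_of_ne (Ne.symm hne)] at h2
  rw [Res.vl_of_pos (by omega), eq_comm,
    vl_eq_zero_iff ((mem_iff_ord _ _).2 (Or.inr (by omega)))] at h6
  rcases h6 with e | e
  · exact h0 e
  · omega

theorem cl_pull {e : K ≃+* K} {σ : C ≃+* C} (he : Semi C e σ)
    (hr : ∀ c : C, ‖c‖ ≤ 1 → ‖σ c - c‖ < 1) (hi : ∀ a, u (e a) = u a)
    (ht : ∀ a, u a ≤ 1 → u (e a - a) < 1) (h : Cl u s z ξ) :
    Cl u s z (pullNV (e : K →+* K) he.1 he.2 ξ) := fun x hx h1 => by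
  have h2 : ∀ x, u x ≤ 1 → u.red (e x) = u.red x := fun x hx =>
    (red_eq_iff ((hi x).trans_le hx) hx).2 (ht x hx)
  obtain ⟨a, a1, a2, a3⟩ := h (e x) (fun Q hQ => by
    obtain ⟨R, rfl⟩ := (plEquiv e σ he.1).surjective Q
    have h3 := hs.equiv hs hT e σ he.1 (RingEquiv.refl _) (RingEquiv.refl _) (fun _ => rfl)
      (fun x hx => (hi x).symm.trans_le hx) h2 R
    rw [AuxFAct.mem_plEquiv, e.symm_apply_apply]
    exact hx R (hQ ▸ h3.symm ▸ rfl)) ((hi x).trans_le h1)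
  have a4 : ‖σ.symm a‖ ≤ 1 := (he.symm.2 a).trans_le a1
  refine ⟨σ.symm a, a4, ?_, by rw [← cred_res hr a4, σ.apply_symm_apply, a3, h2 x h1]⟩
  change ξ (e (x - algebraMap C K (σ.symm a))) < 1
  rwa [map_sub, he.1, σ.apply_symm_apply]

end cl

theorem sat [CFF C K] (hC : GF C) [∀ w : NV C K, CFF (kC C) (kap w)] {ι : Type} [Fintype ι]
    (w : ι → NV C K) (hw : Function.Injective w) (hg : gen C K ≤ ∑ i, gen (kC C) (kap (w i)))
    (w' : NV C K) (h : 1 ≤ gen (kC C) (kap w')) : ∃ i, w' = w i := by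
  by_contra hcon
  have h1 := sgi (fun o : Option ι => o.elim w' w) hC.sph hC.onto (by
    rintro (_ | i) (_ | j) e
    exacts [rfl, (hcon ⟨j, e⟩).elim, (hcon ⟨i, e.symm⟩).elim, congrArg some (hw e)])
  rw [Fintype.sum_option] at h1
  change gen (kC C) (kap w') + ∑ i, gen (kC C) (kap (w i)) ≤ _ at h1
  omega

theorem nrm_lt {L : Type} [Field L] [Algebra C L] {V : NV C L} {γ : L → L}
    (h : ∀ x, V x ≤ 1 → V (γ x - x) < 1) {y : L} (hy : V y ≤ 1) :
    V (y * γ y * γ (γ y) - y ^ 3) < 1 := by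
  have a1 := h y hy
  have b1 : V (γ y) ≤ 1 := by simpa using NV.add_le a1.le hy
  have a2 := h _ b1
  have b2 : V (γ (γ y)) ≤ 1 := by simpa using NV.add_le a2.le b1
  refine (red_eq_iff (NV.mul_le_one (NV.mul_le_one hy b1) b2)
    (pow_mem (NV.mem_ring.2 hy) 3)).1 ?_
  rw [NV.red_mul (NV.mul_le_one hy b1) b2, NV.red_mul hy b1, (red_eq_iff b2 b1).2 a2,
    (red_eq_iff b1 hy).2 a1, NV.red_pow hy, pow_three']

end Ga

open Ga

/-- **GEO** from the local analysis -/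
theorem geo_of (loc : LOCP) : GEO := by
  intro C K K' K₀ L _ _ _ _ _ _ _ _ _ _ _ _ _ _ _ _ _ _ _ _ _ _ _ _ _ _ p' u u' v v' V γ ν S σ ε H A
    n f₀ z₀ hn hf₀ hd f1 f2 hN
  classical
  have a4 := H.a4
  have hon := H.gf.onto
  let Y := YF γ ν
  haveI : CFF C Y := cffY Y
  haveI cf : ∀ w : NV C Y, CFF (kC C) (kap w) := Res.Dk.cff H.gf
  obtain ⟨T, hT'⟩ := H.sd.good
  haveI := hT'.cff
  have hT := hT'.gd
  obtain ⟨s, hs⟩ := hT.exists_sp
  obtain ⟨Z, hZ, hZ'⟩ := nod2 C K K' K₀ p' u u' v v' s H.toTwo hs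
  choose ξ y X d cl qu using fun z : Z => (hZ' z z.2).elim fun y hy =>
    loc C K K' K₀ L p' u u' v v' V γ ν s z y H hs hy
  choose W hW using fun z : Z =>
    DecP.exists_ext' (L := L) (ξ z) fun x => hon _ ((ξ z).av.nonneg x)
  haveI := Nn.char3 H.ch
  haveI : Fact (Nat.Prime 3) := ⟨Nat.prime_three⟩
  have n3 : ¬ 3 ∣ n := fun e => by
    have := Nat.eq_one_of_dvd_coprimes hn e (by norm_num); omega
  have n2 : Odd n := Nat.coprime_two_right.1 (hn.coprime_dvd_right (by norm_num))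
  have n0 : n ≠ 0 := n2.pos.ne'
  -- restriction of `S`
  obtain ⟨SK, hSK⟩ := exists_res S (algebraMap K L)
    (fun a => H.fix _ ((Ac.fixS A).2 (γ.commutes a)) (by rw [← A.cn, ν.commutes]))
    (fun a => H.fix _ ((Ac.fixS A).1 (by rw [S.apply_symm_apply, γ.commutes]))
      (S.injective (by rw [A.cn, S.apply_symm_apply, ν.commutes])))
  have gi : ∀ x, (γ ^ (-1 : ℤ)) x = γ (γ x) := fun x => by
    rw [zpow_neg_one, AlgEquiv.aut_inv, AlgEquiv.symm_apply_eq, a4.gam3]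
  obtain ⟨SY, hSY⟩ := exists_res S (algebraMap Y L)
    (fun a => ⟨⟨S a, by rw [← A.cn, a.2.1], by
      have e1 := A.cg a
      have e2 := A.cg (γ a)
      rcases A.sgn with c | c <;> rw [c] at e1 e2
      · rw [zpow_one] at e1
        rw [← e1, ← A.cn, a.2.2]
      · rw [e1, gi, gi, a4.gam3] at e2
        rw [← e2, ← A.cn, a4.nu2 a.2]⟩, rfl⟩)
    (fun a => ⟨⟨S.symm a, S.injective (by rw [A.cn, S.apply_symm_apply, a.2.1]), S.injective (by
      rw [A.cn, A.cg, S.apply_symm_apply]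
      rcases A.sgn with c | c <;> rw [c]
      · rw [zpow_one, a.2.2]
      · rw [gi, a4.nu2 a.2])⟩, rfl⟩)
  have sK := semi_res A.semi hSK
  have sY := semi_res A.semi hSY
  have hKY : ∀ a, SY (algebraMap K Y a) = algebraMap K Y (SK a) := fun a =>
    (algebraMap Y L).injective (by
      rw [hSY, ← IsScalarTower.algebraMap_apply, ← IsScalarTower.algebraMap_apply, hSK])
  have uV : ∀ a, V (algebraMap K L a) = u a := fun a => by
    rw [IsScalarTower.algebraMap_apply K K₀ L, H.e0]; exact H.sd.e0 a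
  have ht : ∀ a, u a ≤ 1 → u (SK a - a) < 1 := fun a ha => by
    rw [← uV, map_sub, hSK]; exact A.triv a ((uV a).trans_le ha)
  have hi := iso_of hon sK ht
  -- the family
  let η := V.comap Y
  haveI : NVExt u η := ⟨uV⟩
  let w : Option Z → NV C Y := fun o => o.elim η fun z => (W z).comap Y
  have wK : ∀ o, (w o).comap K = o.elim u ξ := by
    rintro (_ | z)
    · exact nvExt_iff.1 ⟨uV⟩
    · exact nvExt_iff.1 ⟨(hW z).out⟩
  have inj : ∀ o o' : Option Z, o.elim u ξ = o'.elim u ξ → o = o' := by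
    rintro (_ | z) (_ | z') e
    exacts [rfl, (cl_ne hs hT (cl z') e.symm).elim, (cl_ne hs hT (cl z) e).elim,
      congrArg some (Subtype.ext (cl_inj hs hT (cl z) ((show ξ z = ξ z' from e) ▸ cl z')))]
  have hw : Function.Injective w := fun o o' e => inj o o' (by rw [← wK, ← wK, e])
  have nK : ∀ a : Y, ∃ b : K, algebraMap K L b = a * γ a * γ (γ a) := fun a =>
    H.fix _ (by rw [map_mul, map_mul, a4.gam3]; ring)
      (by rw [map_mul, map_mul, a.2.1, a.2.2, a4.nu2 a.2])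
  have gη : gen (kC C) (kap η) = gen C K := by
    rw [← hT.gen_eq]
    refine (mon (p := 3) fun a => ?_).symm
    obtain ⟨a, ha, rfl⟩ := NV.red_surj a
    obtain ⟨b, hb⟩ := nK a
    have h1 := nrm_lt H.ine (y := (a : L)) ha
    rw [← hb] at h1
    have h2 : η (a ^ 3) ≤ 1 := pow_mem (NV.mem_ring.2 ha) 3
    have h3 : η (algebraMap K Y b - a ^ 3) < 1 := h1
    have h4 : η (algebraMap K Y b) ≤ 1 := by simpa using NV.add_le h3.le h2
    exact ⟨u.red b, by rw [← red_algebraMap' ((uV b).ge.trans h4), (red_eq_iff h4 h2).2 h3,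
      NV.red_pow ha]⟩
  have zY : ∀ z : Z, ∃ a : Y, algebraMap Y L a = algebraMap K₀ L (y z) * ν (algebraMap K₀ L (y z)) +
      γ (ν (algebraMap K₀ L (y z))) * γ (γ (ν (algebraMap K₀ L (y z)))) := fun z => by
    have p0 := (H.fix0 _).2 ⟨y z, rfl⟩
    generalize algebraMap K₀ L (y z) = p at p0 ⊢
    have h1 := a4.nug3 (γ (γ (ν p)))
    rw [a4.gam3, a4.nunu, p0] at h1
    have h2 : ν (γ (γ (ν p))) = γ (ν p) := by rw [← h1, a4.nunu]
    refine ⟨⟨p * ν p + γ (ν p) * γ (γ (ν p)), ?_, ?_⟩, rfl⟩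
    · simp only [map_add, map_mul, a4.nunu, h1, h2]; ring
    · simp only [map_add, map_mul, a4.nunu, a4.gam3, p0, h1, h2]; ring
  choose zz hzz using zY
  have gξ : ∀ z : Z, 1 ≤ gen (kC C) (kap (w (some z))) := fun z =>
    haveI := hW z
    (qu z (W z)).gen_pos ((W z).comap Y) a4.deg3 (hzz z)
  have hg : gen C Y ≤ ∑ o, gen (kC C) (kap (w o)) := by
    have h1 : ∑ _z : Z, 1 ≤ ∑ z : Z, gen (kC C) (kap (w (some z))) :=
      Finset.sum_le_sum fun z _ => gξ z
    rw [Finset.sum_const, Finset.card_univ, Fintype.card_coe, smul_eq_mul, mul_one] at h1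
    have h2 : (gen C Y : ℤ) ≤ _ := H.genY
    rw [Fintype.sum_option]
    change _ ≤ gen (kC C) (kap η) + _
    omega
  have fx : ∀ o a, w o (SY a) = w o a := fun o => by
    obtain ⟨o', ho⟩ := sat H.gf w hw hg (pullNV (SY : Y →+* Y) sY.1 sY.2 (w o)) (by
      rw [gen_pull sY A.res]
      rcases o with _ | z
      exacts [gη.ge.trans' H.toTwo.gen_pos, gξ z])
    have e : pullNV (SK : K →+* K) sK.1 sK.2 (o.elim u ξ) = o'.elim u ξ := by
      rw [← wK, ← wK, ← ho]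
      exact P025H992.nv_ext fun a => congrArg (w o) (hKY a).symm
    obtain rfl : o = o' := by
      rcases o with _ | z
      · exact inj _ _ ((P025H992.nv_ext hi).symm.trans e)
      · have c := cl_pull hs hT sK A.res hi ht (cl z)
        rcases o' with _ | z'
        · exact (cl_ne hs hT c e).elim
        · exact congrArg some (Subtype.ext (cl_inj hs hT c (e.symm ▸ cl z')))
    exact NV.congr ho
  -- the Kummer class
  let f : Y := ⟨f₀, f1, f2⟩
  have hf : f ≠ 0 := fun e => hf₀ (congrArg Subtype.val e)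
  have hφ : SY (SY f) * f ^ (-ε) ≠ 0 :=
    mul_ne_zero ((map_ne_zero _).2 ((map_ne_zero _).2 hf)) (zpow_ne_zero _ hf)
  have tη : Triv n η f := by
    obtain ⟨c, g, c0, g1, e⟩ := scale (w := η) hon hf
    have g0 : g ≠ 0 := right_ne_zero_of_mul (e ▸ hf)
    obtain ⟨z₁, hz₁, e₁⟩ := a4.root n2 f.2 hN
    let N : Y := g * a4.gY g * a4.gY (a4.gY g)
    have gc : a4.gY (algebraMap C Y c) = algebraMap C Y c := by
      rw [IsScalarTower.algebraMap_apply C K Y, AlgEquiv.commutes]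
    have e₂ : (⟨z₁, hz₁⟩ : Y) ^ n = algebraMap C Y (c ^ 3) * N := by
      rw [show (⟨z₁, hz₁⟩ : Y) ^ n = f * a4.gY f * a4.gY (a4.gY f) from Subtype.ext e₁.symm, e,
        map_mul, map_mul, gc, gc, map_pow]
      ring
    have N0 : N ≠ 0 := mul_ne_zero (mul_ne_zero g0 ((map_ne_zero _).2 g0))
      ((map_ne_zero _).2 ((map_ne_zero _).2 g0))
    have c3 : algebraMap C Y (c ^ 3) ≠ 0 := (map_ne_zero _).2 (pow_ne_zero 3 c0)
    have t1 := Ac.triv_const n0 (inv_ne_zero (pow_ne_zero 3 c0)) (triv_pw (w := η) (m := n)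
      (z := ⟨z₁, hz₁⟩) fun h0 => mul_ne_zero c3 N0 (by rw [← e₂, h0, zero_pow n0]))
    rw [e₂, map_inv₀, inv_mul_cancel_left₀ c3] at t1
    have h1 : η (N - g ^ 3) < 1 := nrm_lt H.ine (y := (g : L)) g1.le
    have h2 : η (g ^ 3) = 1 := by rw [map_pow, g1, one_pow]
    have t2 : Triv n η (N * (g ^ 3)⁻¹) := ⟨1, by
      rw [one_pow, mul_one, ← mul_inv_cancel₀ (pow_ne_zero 3 g0), ← sub_mul, map_mul, map_inv₀,
        h2, inv_one, mul_one]
      exact h1⟩
    have t3 := I2a.triv_mul t1 (I2a.triv_inv t2)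
    rw [mul_inv, inv_inv, mul_inv_cancel_left₀ N0] at t3
    rw [e]
    exact Ac.triv_const n0 c0 (triv_cube n3 g0 t3)
  have df : ∀ P : Plk C Y, (n : ℤ) ∣ ord P f := dvd_down H.unrL hd
  obtain ⟨z, hz⟩ := keyn w H.gf.sph hon hw hg (n := n)
    (fun e => n3 ((CharP.cast_eq_zero_iff _ 3 n).1 e)) hφ (fun P => by
      rw [ord_mul P ((map_ne_zero _).2 ((map_ne_zero _).2 hf)) (zpow_ne_zero _ hf), ord_zpow]
      exact dvd_add (sY.dvd_ord (sY.dvd_ord df) P) ((df P).mul_left _)) (by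
    rintro (_ | z) m c hm h1 h2
    · refine triv_dvd hm (I2a.triv_mul (I2a.triv_map SY (fx none) (I2a.triv_map SY (fx none) tη)) ?_)
      rcases A.sgn with c | c <;> rw [c]
      · rw [zpow_neg_one]; exact I2a.triv_inv tη
      · rw [neg_neg, zpow_one]; exact tη
    · haveI := hW z
      exact (qu z (W z)).act A H.g3 H.fix0 H.fix H.deg.le (fun a => by
        rw [IsScalarTower.algebraMap_apply K Y L, ← hSY]
        exact (fx (some z) _).trans ((hW z).out a)) ((W z).comap Y) a4.deg3 (hzz z)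
        ((SY : Y →+* Y).comp SY) (fun a => (hSY _).trans (congrArg S (hSY a))) hf
        (n2.of_dvd_nat hm) h1 h2)
  refine ⟨z, fun e => hφ (by rw [hz, show z = 0 from Subtype.ext e, zero_pow n0]), z.2.1, z.2.2, ?_⟩
  have e := congrArg (algebraMap Y L) hz
  rw [map_mul, hSY, hSY, map_zpow₀, map_pow] at e
  change S (S f₀) * f₀ ^ (-ε) = (z : L) ^ n at e
  rw [← e, mul_left_comm, ← zpow_add₀ hf₀, add_neg_cancel, zpow_zero, mul_one]

end Vale.Agent.P022K.TH
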