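import Vale.Agent.P022K.TH.St
import Vale.Agent.P022K.TH.Keyn
import Vale.Agent.P025.R2.H725.Genus

/-!
# P022K, block TH: the rows `GIN`, `KEYN`, `MON`, `INV`
-/

set_option autoImplicit false
set_option linter.style.haveILetI false

noncomputable section

open IntermediateField Vale.Agent.P019P P025H746 P025H492 Module

namespace Vale.Agent.P022K.TH

theorem gin : GIN := fun _ _ _ _ _ _ _ _ _ hC _ _ w _ hw => sgi w hC.sph hC.onto hw

theorem keynR : KEYN := fun _ _ _ _ _ _ _ _ _ _ hC _ _ w _ hw hg _ _ hn hf hd ht =>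
  keyn w hC.sph hC.onto hw hg hn hf hd ht

theorem monR : MON := fun _ _ _ _ _ _ _ _ _ _ p _ _ φ h => by
  obtain ⟨e, he⟩ := FI.pw_exists (p := p) (φ := φ) fun y =>
    ⟨1, (h y).imp fun a ha => by rw [pow_one, ha]⟩
  exact he.gen_eq.symm

/-- in genus zero a function with divisible divisor is a power -/
theorem pow_of_gen {k K : Type} [Field k] [Field K] [Algebra k K] [CFF k K] (hg : gen k K = 0)
    {m : ℕ} (hm : m ≠ 0) {h : K} (h0 : h ≠ 0) (hd : ∀ x : Plk k K, (m : ℤ) ∣ ord x h) :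
    ∃ z : K, h = z ^ m := by
  haveI : IsAlgClosed k := CFF.ac K
  obtain ⟨D, hD⟩ : ∃ D : Plk k K →₀ ℤ, m • D = dv k h :=
    ⟨(dv k h).mapRange (· / m) (Int.zero_ediv _), Finsupp.ext fun x => by
      rw [Finsupp.smul_apply, Finsupp.mapRange_apply, dv_apply, nsmul_eq_mul,
        Int.mul_ediv_cancel' (hd x)]⟩
  have h1 : dg D = 0 := by
    have := dg_dv (k := k) h
    rw [← hD, map_nsmul, nsmul_eq_mul] at this
    exact (mul_eq_zero.1 this).resolve_left (by exact_mod_cast hm)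
  have h2 := RR (k := k) (-D)
  rw [map_neg, h1, hg] at h2
  obtain ⟨z, hz, z0⟩ := Submodule.exists_mem_ne_zero_of_ne_bot (p := LL k (-D)) fun e => by
    rw [e, finrank_bot] at h2
    omega
  have h3 : D = dv k z := eq_of_le_of_dg_le (fun P => by
    have := hz.resolve_left z0 P
    rwa [Finsupp.neg_apply, neg_neg, ← dv_apply] at this) (by rw [dg_dv, h1])
  have h4 := pow_ne_zero m z0
  obtain ⟨a, ha⟩ := (dv_eq_zero_iff (k := k) (mul_ne_zero h0 (inv_ne_zero h4))).1 (by
    ext x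
    have := DFunLike.congr_fun hD x
    rw [h3, Finsupp.smul_apply, dv_apply, dv_apply, nsmul_eq_mul] at this
    rw [dv_apply, ord_mul x h0 (inv_ne_zero h4), ord_inv, ord_pow, this, add_neg_cancel,
      Finsupp.zero_apply])
  obtain ⟨b, rfl⟩ := IsAlgClosed.exists_pow_nat_eq a (Nat.pos_of_ne_zero hm)
  exact ⟨algebraMap k K b * z, by rw [mul_pow, ← map_pow, ← ha, inv_mul_cancel_right₀ h4]⟩

theorem inv : INV := fun k κ _ _ _ _ R h m hR h2 hm hh h0 hd => by
  haveI := cff_adjoin hR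
  haveI := (finite_of_notMem hR).2
  obtain ⟨z, hz⟩ := pow_of_gen (k := k) (h := (⟨h, hh⟩ : k⟮R⟯))
    (P025H725.gen_eq_zero_of_finrank_eq_one (gen_nc hR) (finrank_gen R)) hm.pos.ne'
    (fun e => h0 (congrArg Subtype.val e)) fun x => by
      have h3 := sum_ram (L := κ) x
      rw [h2] at h3
      obtain ⟨P, hP⟩ := Finset.nonempty_of_sum_ne_zero (h3.trans_ne two_ne_zero)
      have h4 := (Finset.single_le_sum (fun _ _ => Nat.zero_le _) hP).trans_eq h3
      have h5 := ram_pos (K := k⟮R⟯) P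
      have h6 := P025H492.ord_algebraMap P (⟨h, hh⟩ : k⟮R⟯)
      rw [(over_finite (L := κ) x).mem_toFinset.1 hP] at h6
      have h7 : (m : ℤ) ∣ _ := (h6 ▸ hd P :)
      refine Int.dvd_of_dvd_mul_right_of_gcd_one h7 ?_
      rw [Int.gcd_natCast_natCast]
      obtain e | e : ram k⟮R⟯ P = 1 ∨ ram k⟮R⟯ P = 2 := by omega
      · rw [e, Nat.gcd_one_right]
      · rw [e]; exact hm.coprime_two_right
  exact ⟨z, congrArg Subtype.val hz⟩

end Vale.Agent.P022K.TH
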