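import Vale.Agent.P022K.TH.LocD
import Vale.Agent.P022K.TH.Nod
import Vale.Agent.P022K.TH.Inv

/-!
# P022K, block TH: row GEO
-/

set_option autoImplicit false
set_option linter.all false

open Vale.Agent.P019P P025H746 P025H492 IntermediateField Module

noncomputable section

namespace Vale.Agent.P022K.TH

open Vale.Agent.P027M Vale.Agent.P027M.I Vale.Agent.P022K.FI

namespace Lo

variable {C K K' K₀ L : Type} [NontriviallyNormedField C] [IsUltrametricDist C] [CompleteSpace C]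
  [IsAlgClosed C] [CharZero C] [Field K] [Algebra C K] [CFF C K] [Field K'] [Algebra C K']
  [CFF C K'] [Field K₀] [Algebra C K₀] [CFF C K₀] [Algebra K K₀] [IsScalarTower C K K₀]
  [FiniteDimensional K K₀] [Field L] [Algebra C L] [CFF C L] [Algebra K L] [Algebra K₀ L]
  [IsScalarTower C K L] [IsScalarTower C K₀ L] [IsScalarTower K K₀ L] [FiniteDimensional K L]
  {p' : K' →ₐ[C] K₀} {u : NV C K} {u' : NV C K'} {v v' : NV C K₀} {V : NV C L} {γ ν : L ≃ₐ[K] L}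
  {S : L ≃+* L} {σ : C ≃+* C} {ε : ℤ} (G : Geo p' u u' v v' V γ ν) (A : Act V γ ν S σ ε)
include G

theorem ngx {x : L} (hx : γ x = x) : ν (γ (ν x)) = γ (γ (ν x)) := by
  have := congrArg (fun g : L ≃ₐ[K] L => g x) (rel G.g3 G.n2 G.ng)
  simpa only [AlgEquiv.mul_apply, hx] using this

theorem rat {x : L} (hx : x ≠ 0) : V (γ x / x - 1) < 1 := by
  obtain ⟨c, hc⟩ := G.gf.onto (V x) (V.av.nonneg x)
  have c0 : 0 < ‖c‖ := hc ▸ V.av.pos hx
  have c1 : algebraMap C L c ≠ 0 := (map_ne_zero _).2 (norm_pos_iff.1 c0)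
  have h1 : V (x / algebraMap C L c) = 1 := by rw [nv_div, hc, div_self (hc ▸ c0.ne')]
  have h2 := G.ine _ h1.le
  rw [map_div₀, fixC] at h2
  rw [show γ x / x - 1 = (γ x / algebraMap C L c - x / algebraMap C L c) *
    (x / algebraMap C L c)⁻¹ by field_simp, X0.nv_mul, X0.nv_inv, h1, inv_one, mul_one]
  exact h2

/-- functions whose norm is a power are trivial on the ordinary component -/
theorem triv0 {g t : YF γ ν} {m : ℕ} (hm : m.Coprime 3) (g0 : g ≠ 0)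
    (e : (g : L) * γ g * γ (γ g) = t ^ m) : Triv m (V.comap (YF γ ν)) g := by
  obtain ⟨a, b, h⟩ : ∃ a b, 3 * a = 1 + m * b := by
    have : m % 3 ≠ 0 := fun k =>
      Nat.prime_three.coprime_iff_not_dvd.1 hm.symm (Nat.dvd_of_mod_eq_zero k)
    rcases (by omega : m % 3 = 1 ∨ m % 3 = 2) with k | k
    · exact ⟨2 * (m / 3) + 1, 2, by omega⟩
    · exact ⟨m / 3 + 1, 1, by omega⟩
  have g1 : (g : L) ≠ 0 := fun k => g0 (Subtype.ext k)
  have g2 : γ g ≠ 0 := (map_ne_zero _).2 g1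
  have g3 : γ (γ g) ≠ 0 := (map_ne_zero _).2 g2
  have h1 := rat G g1
  have h2 := rat G g2
  have one : ∀ x, V (x - 1) < 1 → V x = 1 := fun x hx => eq_of_sub hx V.av.map_one
  let P : V.ring := ⟨_, (one _ h1).le⟩
  let Q : V.ring := ⟨_, (one _ h2).le⟩
  have h3 : V ((γ g / g * (γ (γ g) / γ g) * (γ g / g)) ^ a - 1) < 1 :=
    lt_of_rh (x := (P * Q * P) ^ a - 1) (by
      simp only [map_sub, map_pow, map_mul, rh_eq (x := P) (y := 1) h1, rh_eq (x := Q) (y := 1) h2,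
        map_one, mul_one, one_pow, sub_self])
  refine ⟨g ^ b / t ^ a, ?_⟩
  have k : (g : L) * (g ^ b / t ^ a) ^ m = ((γ g / g * (γ (γ g) / γ g) * (γ g / g)) ^ a)⁻¹ := by
    rw [div_pow, ← pow_mul, ← pow_mul, mul_comm a m, pow_mul (t : L), ← e, ← mul_div_assoc,
      ← pow_succ', mul_comm b m, add_comm, ← h, pow_mul, ← div_pow, ← inv_pow]
    congr 1
    field_simp
  change V ((g : L) * (g ^ b / t ^ a) ^ m - 1) < 1
  have h4 := one _ h3
  generalize (γ g / g * (γ (γ g) / γ g) * (γ g / g)) ^ a = U at h3 h4 k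
  have U0 : U ≠ 0 := fun k => by rw [k, show V 0 = 0 from V.av.map_zero] at h4; linarith
  rw [k, show U⁻¹ - 1 = -(U - 1) * U⁻¹ by field_simp; ring, X0.nv_mul, X0.nv_inv, h4, inv_one,
    mul_one, NV.map_neg']
  exact h3

/-- the genus of the ordinary component -/
theorem gen0 [CFF (kC C) (kap (V.comap (YF γ ν)))] :
    gen C K ≤ gen (kC C) (kap (V.comap (YF γ ν))) := by
  obtain ⟨T, hT⟩ := G.sd.good
  haveI := hT.cff
  haveI : NVExt u (V.comap (YF γ ν)) := ⟨fun a => extK G a⟩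
  haveI := Nn.char3 G.ch
  haveI : Fact (Nat.Prime 3) := ⟨Nat.prime_three⟩
  refine hT.gen.trans (mon (p := 3) fun y => ?_).le
  obtain ⟨f, hf, rfl⟩ := NV.red_surj y
  have m1 := G.a4.gam_mem f.2
  obtain ⟨a, e⟩ := G.fix (f * γ f * γ (γ f)) (by simp only [map_mul, G.a4.gam3]; ring)
    (mem_YF.1 (mul_mem (mul_mem f.2 m1) (G.a4.gam_mem m1))).1
  have h0 : V (f : L) ≤ 1 := hf
  have h1 := G.ine _ h0
  have h2 : V (γ f) ≤ 1 := by simpa using NV.add_le h1.le h0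
  have h3 := G.ine _ h2
  have h4 : V (γ (γ f)) ≤ 1 := by simpa using NV.add_le h3.le h2
  have h5 : u a ≤ 1 := by
    rw [← extK G, e]
    exact NV.mul_le_one (NV.mul_le_one h0 h2) h4
  refine ⟨u.red a, ?_⟩
  rw [← red_algebraMap' h5, ← NV.red_pow hf]
  refine (red_eq_iff (w := V.comap (YF γ ν)) ((extK G a).trans_le h5) (NV.pow_le_one' hf 3)).2 ?_
  change V (algebraMap K L a - (f : L) ^ 3) < 1
  have k1 := rh_eq (x := ⟨_, h2⟩) (y := ⟨_, h0⟩) h1
  have k2 := rh_eq (x := ⟨_, h4⟩) (y := ⟨_, h2⟩) h3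
  rw [e]
  exact lt_of_rh (x := (⟨_, h0⟩ : V.ring) * (⟨_, h2⟩ : V.ring) * (⟨_, h4⟩ : V.ring) -
    (⟨_, h0⟩ : V.ring) ^ 3) (by
    rw [map_sub, map_mul, map_mul, (rh V).map_pow, k2, k1]
    ring)

variable [CFF (kC C) (kap u)] {s : Plk C K → Plk (kC C) (kap u)} {z : Plk (kC C) (kap u)}
  (hs : Gs.IsSp u s) {y : K₀} (N : Nd u s z v v' y)
include hs N

theorem lc : Lc s z V γ ν ∧ Pt s z V γ ν (algebraMap K₀ L y) := by
  haveI : FiniteDimensional K₀ L := Module.Finite.right K K₀ L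
  refine ⟨⟨G.gf, G.ch, hs, G.unrL, G.a4.gam3, G.a4.nunu, fun _ => ngx G, G.fix, extK G, G.ine,
    fun f h1 h2 h3 h4 => ?_⟩, (G.fix0 _).2 ⟨y, rfl⟩, (G.e0 y).trans_lt N.lt, fun P hP => ?_, ?_⟩
  · obtain ⟨f, rfl⟩ := (G.fix0 f).1 h1
    refine N.glue f (fun P hP => ?_) (G.e0 f ▸ h3) ?_
    · obtain ⟨R, rfl⟩ := exists_over (L := L) P
      exact (h2 R (by rwa [down_down] at hP)).1
    · rwa [← G.e1, map_sub, map_sub, map_one, map_one]
  · have := N.reg (down K₀ P) (by rwa [down_down])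
    exact ⟨this.1, by rw [Pts.vl_down _ this.1]; exact this.2⟩
  · obtain ⟨c, c1, c2, c3⟩ := N.uni
    refine ⟨c, c1, c2, ?_⟩
    rwa [← G.e1, map_sub, map_sub, map_pow, map_pow, ← IsScalarTower.algebraMap_apply,
      ν.commutes] at c3

include A in
/-- the elliptic tail at a node -/
theorem loc : ∃ (ω : NV C L) (y : K₀) (X : K) (d : C), Xi.Cen s z (ω.comap K) ∧ ω.comap K ≠ u ∧
    Ac.Qu (ω.comap K) ω (algebraMap K₀ L y) (ν (algebraMap K₀ L y)) (γ (ν (algebraMap K₀ L y)))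
      (γ (γ (ν (algebraMap K₀ L y)))) X d ∧ ∀ a : K, ω (S (algebraMap K L a)) = ω.comap K a := by
  obtain ⟨H, hp⟩ := lc G hs N
  obtain ⟨x, b, c, d, q⟩ := H.qd hp
  obtain ⟨ω, l, d₀, o⟩ := q.om H
  have pr := q.par H
  have hS := fixw G A H q o
  obtain ⟨y₁, rfl⟩ := (G.fix0 x).1 q.fx
  have l0 : algebraMap C L l ≠ 0 := (map_ne_zero _).2 o.l0
  have w0 : ω 0 < 1 := by rw [show ω 0 = 0 from ω.av.map_zero]; exact one_pos
  refine ⟨ω, y₁ / algebraMap C K₀ l, c / algebraMap C K (l ^ 3), d₀, o.cen, fun e => ?_, ?_, hS⟩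
  · have := o.og.apply_T
    rw [e, nv_div, pr.one, norm_pow, div_eq_one_iff_eq (pow_ne_zero _ (norm_ne_zero_iff.2 o.l0))]
      at this
    exact (pow_lt_one₀ (norm_nonneg l) o.l1 three_ne_zero).ne' this
  simp only [map_div₀, ← IsScalarTower.algebraMap_apply, fixC]
  refine ⟨G.gf.onto, G.ch, G.a4.deg, o.d1, ?_, ?_, ?_, ?_, o.og, o.top⟩
  · rwa [← add_div, ← add_div, ← add_div, q.e1, zero_div]
  · have := (div_lt (pow_ne_zero 2 o.l0)).2 (norm_pow l 2 ▸ o.hb)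
    rw [q.e2, map_pow] at this
    convert this using 2
    field_simp
  · convert w0 using 2
    rw [map_div₀, ← IsScalarTower.algebraMap_apply, map_pow, q.e3]
    field_simp
    ring
  · have := (div_lt (pow_ne_zero 4 o.l0)).2 (norm_pow l 4 ▸ o.hd)
    rw [q.e4, map_mul, map_pow] at this
    convert this using 2
    field_simp

end Lo

open Lo in
/-- **GEO** -/
theorem geo : GEO := by
  intro C K K' K₀ L _ _ _ _ _ _ _ _ _ _ _ _ _ _ _ _ _ _ _ _ _ _ _ _ _ _ p' u u' v v' V γ ν S σ ε G A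
    n f z₀ hn f0 hd h1 h2 hz
  classical
  obtain ⟨T, hT⟩ := G.sd.good
  haveI := hT.cff
  obtain ⟨s, hs⟩ := hT.gd.exists_sp
  obtain ⟨Z, hZ, hN⟩ := nod2 C K K' K₀ p' u u' v v' s G.toTwo hs
  choose ω y X d c1 c2 c3 c4 using fun z : Z => (hN z.1 z.2).elim fun _ N => loc G A hs N
  haveI : CFF C (YF γ ν) := cffY _
  let w : Option Z → NV C (YF γ ν) := fun i => (i.elim V ω).comap _
  haveI hw : ∀ i, CFF (kC C) (kap (w i)) := fun i => Res.Dk.cff G.gf _
  haveI : CFF (kC C) (kap (V.comap (YF γ ν))) := hw none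
  haveI : ∀ z, NVExt (w (some z)) (ω z) := fun z => ⟨fun _ => rfl⟩
  have a4 := G.a4
  have n3 : n.Coprime 3 := hn.coprime_dvd_right (by norm_num)
  have n2 : Odd n := Nat.coprime_two_right.1 (hn.coprime_dvd_right (by norm_num))
  have mS : ∀ x ∈ YF γ ν, S x ∈ YF γ ν := fun x hx => mem_YF.2 ⟨by
    rw [← A.cn, (mem_YF.1 hx).1], by
      rcases perm G A x with ⟨p, -⟩ | ⟨-, p⟩
      · rw [← p, ← A.cn, (mem_YF.1 hx).2]
      · rw [← p, ← A.cn, a4.nu2 hx]⟩
  have cS : ∀ x, S (S (γ x)) = γ (S (S x)) := fun x => by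
    rw [A.cg]
    rcases A.sgn with e | e
    · rw [e, zpow_one, A.cg, e, zpow_one]
    · have k := A.cg ((γ ^ ε) (S x))
      rw [← AlgEquiv.mul_apply, e, zpow_neg_one, mul_inv_cancel, AlgEquiv.one_apply] at k
      rw [k, ← AlgEquiv.mul_apply, mul_inv_cancel, AlgEquiv.one_apply, e, zpow_neg_one]
  let S2 : YF γ ν →+* YF γ ν := ((S : L →+* L).comp ((S : L →+* L).comp
    (algebraMap (YF γ ν) L))).codRestrict (YF γ ν) fun x => mS _ (mS _ x.2)
  let F : YF γ ν := ⟨f, mem_YF.2 ⟨h1, h2⟩⟩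
  have F0 : F ≠ 0 := fun e => f0 (congrArg Subtype.val e)
  have eφ : ((S2 F * F ^ (-ε) : YF γ ν) : L) = S (S f) * f ^ (-ε) := by
    exact (map_mul (algebraMap (YF γ ν) L) _ _).trans
      (congrArg (S (S f) * ·) (map_zpow₀ (algebraMap (YF γ ν) L) F _))
  have S0 : S (S f) ≠ 0 := (map_ne_zero _).2 ((map_ne_zero _).2 f0)
  have φ0 : S2 F * F ^ (-ε) ≠ 0 := mul_ne_zero ((map_ne_zero _).2 F0) (zpow_ne_zero _ F0)
  have mZ : ∀ z, algebraMap K₀ L (y z) * ν (algebraMap K₀ L (y z)) + γ (ν (algebraMap K₀ L (y z))) *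
      γ (γ (ν (algebraMap K₀ L (y z)))) ∈ YF γ ν := fun z => by
    have e := (G.fix0 _).2 ⟨y z, rfl⟩
    have e1 := ngx G e
    have e2 := congrArg ν e1
    rw [a4.nunu] at e2
    refine mem_YF.2 ⟨?_, ?_⟩ <;> simp only [map_add, map_mul, a4.nunu, a4.gam3, e, e1, ← e2] <;> ring
  obtain ⟨t, ht⟩ := keynR C (YF γ ν) G.gf (Option Z) w (fun i j e => by
    have k : (i.elim V ω).comap K = (j.elim V ω).comap K := P025H992.nv_ext fun a =>
      congrArg (fun n : NV C (YF γ ν) => n (algebraMap K _ a)) e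
    have k0 : V.comap K = u := P025H992.nv_ext fun a => extK G a
    rcases i with _ | i <;> rcases j with _ | j
    · rfl
    · exact absurd (k.symm.trans k0) (c2 j)
    · exact absurd (k.trans k0) (c2 i)
    · exact congrArg some (Subtype.ext (cen_eq hs hT.gd (c1 i) ((show _ = (ω j).comap K from k) ▸
        c1 j)))) (by
    have k1 := G.genY
    have k2 : gen C K ≤ gen (kC C) (kap (w none)) := gen0 G
    have k3 : ∑ _z : Z, 1 ≤ ∑ z : Z, gen (kC C) (kap (w (some z))) := Finset.sum_le_sum fun z _ =>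
      (c3 z).gen_pos (w (some z)) a4.deg3 (Z := ⟨_, mZ z⟩) rfl
    rw [Finset.sum_const, Finset.card_univ, Fintype.card_coe, smul_eq_mul, mul_one] at k3
    rw [Fintype.sum_option]
    omega) n (S2 F * F ^ (-ε)) (by
    haveI := Nn.char3 G.ch
    rw [Ne, CharP.cast_eq_zero_iff (kC C) 3]
    exact Nat.prime_three.coprime_iff_not_dvd.1 n3.symm) φ0 (dvd_down G.unrL fun P => by
    obtain ⟨P', rfl, -⟩ := ex_pl (σ := S) (s := σ) A.semi.1 P
    rw [eφ, ord_mul _ S0 (zpow_ne_zero _ f0), ord_zpow, ord_plEquiv]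
    refine dvd_add ?_ (Dvd.dvd.mul_left (hd _) _)
    obtain ⟨P'', rfl, -⟩ := ex_pl (σ := S) (s := σ) A.semi.1 P'
    rw [ord_plEquiv]
    exact hd _) fun i m c hm k1 k2 => by
    rcases i with _ | i
    · obtain ⟨k, rfl⟩ := hm
      obtain ⟨t, t1, t2⟩ := a4.root (z₀ := S (S z₀) * z₀ ^ (-ε)) n2 (S2 F * F ^ (-ε)).2 (by
        rw [eφ, mul_pow, ← map_pow, ← map_pow, ← zpow_natCast (z₀ ^ (-ε)), ← zpow_mul, mul_comm (-ε),
          zpow_mul, zpow_natCast, ← hz]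
        simp only [map_mul, map_zpow₀, cS, mul_zpow]
        ring)
      exact triv0 G (t := ⟨t, t1⟩ ^ k) (n3.coprime_dvd_left (dvd_mul_right _ _)) φ0 (by
        rw [t2, mul_comm, pow_mul]; rfl)
    · exact Ac.Qu.act A G.g3 G.fix0 G.fix G.deg.le (c3 i) (c4 i) (w (some i)) a4.deg3
        (Z := ⟨_, mZ i⟩) rfl S2 (fun _ => rfl) F0 (n2.of_dvd_nat hm) k1 k2
  have e := congrArg Subtype.val ht
  rw [eφ] at e
  refine ⟨t, fun k => φ0 ?_, (mem_YF.1 t.2).1, (mem_YF.1 t.2).2, ?_⟩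
  · rw [ht, show t = 0 from Subtype.ext k, zero_pow n2.pos.ne']
  · rw [show (t : L) ^ n = S (S f) * f ^ (-ε) from e.symm, zpow_neg, mul_comm,
      inv_mul_cancel_right₀ (zpow_ne_zero _ f0)]

end Vale.Agent.P022K.TH
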