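import Vale.Agent.P022K.TH.Alg
import Vale.Agent.P022K.TH.Ec
import Vale.Agent.P022K.QT.If

/-!
# P022K, block TH: row THE from the action of inertia in the level of the quaternion group
-/

set_option autoImplicit false
set_option linter.unusedSectionVars false

open Filter Topology NumberField IsDedekindDomain
open scoped MatrixGroups

noncomputable section

namespace Vale.Agent.P022K.TH

open Vale.Agent.P022 CH Sh
open Vale.Agent.P022.H218.L3 (Mer)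
open Vale.Agent.P022.C (FrI)
open Vale.Agent.P022.H443 (inP)
open Vale.Agent.P022D.W (dec)
open Vale.Agent.P022E.GW (Ov Fb)

/-- the unipotent element -/
abbrev nl (l : ℕ) [Fact l.Prime] : GL (Fin 2) ℚ_[l] := gK ℚ_[l] (nO (1 : ℤ_[l]))

section abstract

variable {G0 G : Type} [Group G0] [Group G] {T : Tw G0 G} {U : Subgroup G}

/-- `θ ^ 2 = ε` on the classes of level `Q8` which are killed by `1 + n + n ^ 2` -/
def Thw (w : T.Lc ℤ_[3] ℚ_[3]) (θ : (G → Mer) → G → Mer) (ε : ℤ) : Prop :=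
  ∀ U₀ ∈ T.Lev, T.Neat U₀ → w.At (KK ℤ_[3] ℚ_[3]) U₀ → ∀ U ∈ T.Lev, U ≤ U₀ → w.At (U3 Q8) U →
    ∀ (d : Cor U {y | (w.ι (nl 3))⁻¹ * y ∈ U} U) (n : ℕ), 0 < n → n.Coprime 6 →
      ∀ a a₁ a₂ : T.Hn n U, T.Ga θ n U a a₁ → T.Ga θ n U a₁ a₂ →
        a + T.hN n d a + T.hN n d (T.hN n d a) = 0 → a₂ = ε • a

theorem nrm {l : ℕ} [Fact l.Prime] {w : T.Lc ℤ_[l] ℚ_[l]} {V : Subgroup (GL (Fin 2) (ZMod l))}
    [hV : V.Normal] (hU : U ∈ T.Lev) (a : w.At (U3 V) U) (k : GL (Fin 2) ℤ_[l]) {u : G}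
    (hu : u ∈ U) : (w.ι (gK ℚ_[l] k))⁻¹ * u * w.ι (gK ℚ_[l] k) ∈ U := by
  obtain ⟨v, hv, y, hy, h, rfl⟩ := a.split hU hu
  rw [mul_assoc, mul_assoc, ← (w.com _ y h).eq, ← mul_assoc, ← mul_assoc, ← map_inv, ← map_mul,
    ← map_mul]
  refine mul_mem ((a.iff hU).2 (mem_cj.1 ((sup_le ?_ fun g hg => mem_cj.2 ?_ :
    U3 V ⊔ Zl _ ≤ cj (gK ℚ_[l] k) (U3 V ⊔ Zl _)) hv))) hy
  · rintro _ ⟨q, hq, rfl⟩
    refine mem_cj.2 (Subgroup.mem_sup_left ⟨k⁻¹ * q * k, Subgroup.mem_comap.2 ?_, by simp⟩)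
    rw [map_mul, map_mul, map_inv]
    exact hV.conj_mem' _ hq _
  · rw [mul_assoc, ← Subgroup.mem_center_iff.1 hg, inv_mul_cancel_left]
    exact Subgroup.mem_sup_right hg

theorem cor_one {u : G} (h : ∀ v ∈ U, u⁻¹ * v * u ∈ U) : Cor U {y | u⁻¹ * y ∈ U} U :=
  ⟨fun v hv y hy => by simpa [mul_assoc] using mul_mem (h v hv) hy, (rep_one u).right,
    (rep_one u).fin⟩

theorem inv_rt {B : Type} {f : G → B} {u : G} (h : ∀ v ∈ U, u⁻¹ * v * u ∈ U) (hf : Inv U f) :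
    Inv U (rt u f) := fun x v hv => by
  rw [rt, rt, ← hf (x * u) _ (h v hv)]
  simp [mul_assoc]

/-- `1 + u + u ^ 2` -/
def fN (R : Type) [CommRing R] (u : G) : G →₀ R :=
  Finsupp.single 1 1 + Finsupp.single u 1 + Finsupp.single (u * u) 1

theorem fN_map {R R' : Type} [CommRing R] [CommRing R'] (f : R →+* R') (u g : G) :
    f (fN R u g) = fN R' u g := by
  classical
  simp only [fN, Finsupp.add_apply, Finsupp.single_apply, map_add, apply_ite f, map_one, map_zero]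

theorem fN_sup {R : Type} [CommRing R] {u g : G} (h : g ∈ (fN R u).support) :
    g = 1 ∨ g = u ∨ g = u * u := by
  by_contra e
  push Not at e
  exact Finsupp.mem_support_iff.1 h (by simp [fN, Finsupp.single_eq_of_ne, e])

theorem op_fN {R B : Type} [CommRing R] [AddCommGroup B] [Module R B] (u : G) (φ : G → B) :
    op (fN R u) φ = φ + rt u φ + rt u (rt u φ) := by
  show Finsupp.linearCombination R (fun g => rt g φ) _ = _
  simp only [fN, map_add, Finsupp.linearCombination_single, one_smul]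
  funext x
  simp [rt, mul_assoc]

theorem op_ec {l : ℕ} [Fact l.Prime] {w : T.Lc ℤ_[l] ℚ_[l]} {R B : Type} [CommRing R]
    [AddCommGroup B] [Module R B] {c : GL (Fin 2) (ZMod l) → R} {f : G →₀ R}
    (h : ∀ y ∈ f.support, ∀ g, Commute (w.ι g) y) (φ : G → B) :
    op f (w.ec c φ) = w.ec c (op f φ) := by
  refine Eq.trans (Finset.sum_congr rfl fun y hy => ?_) (map_sum (ecL w c) _ _).symm
  rw [map_smul]
  exact congrArg _ (ec_com (h y hy))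

theorem eig_ec {l : ℕ} [Fact l.Prime] {w : T.Lc ℤ_[l] ℚ_[l]} {R B : Type} [CommRing R]
    [AddCommGroup B] [Module R B] {c : GL (Fin 2) (ZMod l) → R} {f : G →₀ R} {U' : Subgroup G}
    {ρ : Representation R G0 B} (iv : ∀ φ : G → B, Inv U φ → Inv U' (w.ec c φ))
    (h : ∀ y ∈ f.support, ∀ g, Commute (w.ι g) y) {z : G0 → G → B} {b : R}
    (e : T.Eig ρ U z (op f) b) : T.Eig ρ U' (fun γ => w.ec c (z γ)) (op f) b :=
  (congrArg (· ∈ T.B1 ρ U') (funext fun _ => (map_sub (ecL w c) _ _).trans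
    (congrArg₂ _ (op_ec h _).symm (map_smul (ecL w c) _ _)))).mp (ec_B1 iv e)

theorem fN_cls {Λ B : Type} [CommRing Λ] [AddCommGroup B] [Module Λ B] {u : G}
    (hu : ∀ v ∈ U, u⁻¹ * v * u ∈ U) (z : T.Z1 (Representation.trivial Λ G0 B) U)
    (hd : T.Eig (Representation.trivial Λ G0 B) U z (op (fN Λ u)) 0) :
    Submodule.Quotient.mk z + T.hC Λ B (cor_one hu) (Submodule.Quotient.mk z) +
      T.hC Λ B (cor_one hu) (T.hC Λ B (cor_one hu) (Submodule.Quotient.mk z)) = 0 := by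
  refine (Tw.mk_eq_mk (a := z + T.hZ _ (cor_one hu) z + T.hZ _ (cor_one hu) (T.hZ _ (cor_one hu) z))
    (b := (0 : Λ) • z)).2 ?_ |>.trans (congrArg _ (zero_smul _ _))
  refine (congrArg (· - (0 : Λ) • z.1 ∈ T.B1 _ U) (funext fun γ => ?_)).mpr hd
  show z.1 γ + hk _ U (z.1 γ) + hk _ U (hk _ U (z.1 γ)) = _
  rw [op_fN, hk_one u (z.2.1 γ), hk_one u (inv_rt hu (z.2.1 γ))]

theorem gact_aps {Λ B : Type} [CommRing Λ] [AddCommGroup B] [Module Λ B] {n : ℕ}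
    [Module (ZMod n) B] [Module.Free (ZMod n) B] [Module.Finite (ZMod n) B] {io : Qb →+* ℂ}
    {H : Subgroup GQ} {ρ : H →* (T.Hc Λ B U ≃ₗ[Λ] T.Hc Λ B U)}
    (o : T.GAct io H n U ρ) (ok : T.Ok) (hU : U ∈ T.Lev) (hn : 0 < n)
    (ex : ∀ g : H, ∃ σ θ, Tw.Ext io g σ ∧ T.Sl σ θ) {e : H →* Λˣ}
    (he : ∀ᶠ u in 𝓝 (1 : H), (n : Λ) ∣ e u - 1) {z : G0 → G → B}
    (hz : z ∈ T.Z1 (Representation.trivial Λ G0 B) U) {C : Type} [NormedField C] {i : Λ →+* C}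
    {r : ℝ} (ann : ∀ a : Λ, a • z ∈ T.B1 (Representation.trivial Λ G0 B) U → ‖i a‖ ≤ r)
    (J : Set G → Λ → Prop) (hJ : ∀ Q τ, J Q τ → Cor U Q U ∧
      T.Eig (Representation.trivial Λ G0 B) U z (hk Q U) τ) {R : H → Λ → Prop}
    (hR : ∀ g τ, R g τ → ∃ (Q : Set G) (q : ℕ), J Q τ ∧ (e g : Λ) = q ∧ ∀ (c : Cor U Q U) σ θ,
      Tw.Ext io g σ → T.Sl σ θ → ∀ a a₁ a₂ : T.Hc Λ B U, T.IsGal θ n U a a₁ →
        T.IsGal θ n U a₁ a₂ → a₂ - T.hC Λ B c a₁ + q • a = 0)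
    {u : G} (hu : ∀ v ∈ U, u⁻¹ * v * u ∈ U)
    (hd : T.Eig (Representation.trivial Λ G0 B) U z (op (fN Λ u)) 0) {s : H} {ε : ℤ}
    (hs : ∀ σ θ, Tw.Ext io s σ → T.Sl σ θ → ∀ a a₁ a₂ : T.Hn n U, T.Ga θ n U a a₁ →
      T.Ga θ n U a₁ a₂ → a + T.hN n (cor_one hu) a +
        T.hN n (cor_one hu) (T.hN n (cor_one hu) a) = 0 → a₂ = ε • a) :
    Aps e i R (s ^ 2) ε r := by
  have com : ∀ {Q} (c : Cor U Q U) g a, T.hC Λ B c (ρ g a) = ρ g (T.hC Λ B c a) :=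
    fun c g a => by
      obtain ⟨σ, θ, x, s⟩ := ex g
      exact ((o.2 g σ θ x s a).hC s hU hn ok _).unique s hU hn (o.2 g σ θ x s _)
  let d := T.hC Λ B (cor_one hu)
  refine aps_of (ρ := LinearEquiv.automorphismGroup.toLinearMapMonoidHom.comp ρ)
    (fun A τ => (∃ Q, ∃ k : J Q τ, T.hC Λ B (hJ Q τ k).1 = A) ∨
      1 + d + d * d = A ∧ τ = 0) ?_ (Submodule.Quotient.mk ⟨z, hz⟩) ?_
    (fun a h => ann a (Tw.smul_cls hz h)) ?_ (fun g τ k => ?_) fun v hv => ?_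
  · rintro _ c (⟨Q, k, rfl⟩ | ⟨rfl, -⟩) g a
    · exact com _ g a
    · show ρ g a + d (ρ g a) + d (d (ρ g a)) = ρ g (a + d a + d (d a))
      rw [com, com, map_add, map_add]
  · rintro _ c (⟨Q, k, rfl⟩ | ⟨rfl, rfl⟩)
    · exact (Tw.eig_iff _ ⟨z, hz⟩ c).1 (hJ Q c k).2
    · exact (fN_cls hu ⟨z, hz⟩ hd).trans (zero_smul _ _).symm
  · filter_upwards [he, o.ev] with u ⟨c, hc⟩ h
    refine ⟨LinearMap.ext fun v => DFunLike.congr_fun h v, fun v => ?_⟩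
    rw [eq_add_of_sub_eq hc, add_smul, one_smul, mul_smul, Tw.char_smul, zero_add]
  · obtain ⟨σ, θ, x, s⟩ := ex g
    obtain ⟨Q, q, a, b, c⟩ := hR g τ k
    refine ⟨_, Or.inl ⟨Q, a, rfl⟩, fun v => ?_⟩
    rw [b, Nat.cast_smul_eq_nsmul]
    exact c _ σ θ x s _ _ _ (o.2 g σ θ x s v) (o.2 g σ θ x s _)
  · obtain ⟨σ, θ, x, t⟩ := ex s
    have h0 : v + d v + d (d v) = 0 := (hv _ 0 (Or.inr ⟨rfl, rfl⟩)).trans (zero_smul _ _)
    rw [Int.cast_smul_eq_zsmul, sq, map_mul]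
    refine sub_eq_zero.1 (Tw.cH_inj (n := n) fun l => ?_)
    rw [map_sub, map_zsmul, sub_eq_zero]
    exact hs σ θ x t _ _ _ ((o.2 s σ θ x t v).cH l) ((o.2 s σ θ x t _).cH l) (by
      rw [← Tw.cH_hC, ← Tw.cH_hC, ← map_add, ← map_add, h0, map_zero])

end abstract

variable {F : Type} [Field F] [NumberField F] {Y : QD F} {j : F →+* Qb} {io : Qb →+* ℂ}

variable (Y) in
/-- **THX**: inertia at a place over `3` in the level of the quaternion group -/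
def THX : Prop := ∀ (L : Y.tw.Lc ℤ_[3] ℚ_[3]) w, Y.IsPl w L → ∀ j io, Y.Emb j io →
  ∀ P : Ideal (𝓞 Qb), P.IsPrime → below j P = w.asIdeal → ∃ ε : GQ → ℤˣ,
    (∀ g ∈ GK j, g ∈ inP P → ∀ σ θ, Tw.Ext io g σ → Y.tw.Sl σ θ → Thw L θ (ε g)) ∧
    ∃ g ∈ GK j, g ∈ inP P ∧ ε g = -1

section lev

variable {O K : Type} [CommRing O] [IsDomain O] [IsDiscreteValuationRing O] [Field K] [Algebra O K]
  {L : Y.tw.Lc O K} {w : Pl F} {V V' : ∀ w, Subgroup (Y.Dw w)ˣ} {A B : Subgroup (GL (Fin 2) K)}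

theorem mem_PU {x : Y.G} : x ∈ Y.PU V ↔ ∀ v, Y.cu v x ∈ V v := Subgroup.mem_iInf

theorem cu_io (h : Y.IsPl w L) (g : GL (Fin 2) K) {v : Pl F} (hv : v ≠ w) :
    Y.cu v (L.ι g) = 1 := by
  obtain ⟨-, -, -, -, -, h2⟩ := h
  exact Units.ext (h2 g v hv)

theorem cu_pi (h : Y.IsPl w L) (x : Y.G) : Y.cu w (L.ι (L.π x)) = Y.cu w x := by
  have : Y.cu w ((L.ι (L.π x))⁻¹ * x) = 1 :=
    Units.ext (h.pi_eq_one.1 (by rw [map_mul, map_inv, L.πι, inv_mul_cancel]))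
  rwa [map_mul, map_inv, inv_mul_eq_one] at this

theorem at_congr (h : Y.IsPl w L) (e : V' w = V w) (a : L.At A (Y.PU V)) : L.At A (Y.PU V') := by
  have key : ∀ V V' : ∀ w, Subgroup (Y.Dw w)ˣ, ∀ g, Y.cu w (L.ι g) ∈ V w → L.ι g ∈ Y.PU V :=
    fun V V' g k => mem_PU.2 fun v => by
      by_cases hv : v = w
      · exact hv ▸ k
      · exact cu_io h g hv ▸ one_mem _
  refine ⟨fun g hg => key V' V g (e ▸ mem_PU.1 (a.1 g hg) w), fun u hu => ?_⟩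
  have := a.2 _ (key V V' (L.π u) (by rw [cu_pi h, ← e]; exact mem_PU.1 hu w))
  rwa [L.πι] at this

/-- a larger level at `w`, a smaller level at another place -/
theorem ex_lev (h : Y.IsPl w L) (lev : Y.PU V ∈ Y.tw.Lev) (a : L.At A (Y.PU V)) (h1 : A ≤ B)
    (h2 : B ≤ KK O K) : ∃ V' v, Y.PU V' ∈ Y.tw.Lev ∧ L.At B (Y.PU V') ∧
      (∀ y ∈ Y.PU V', L.π y = 1 → y ∈ Y.PU V) ∧ (∀ u, u ≠ w → u ≠ v → V' u = V u) ∧
      ∃ U₀ ∈ Y.tw.Lev, Y.tw.Neat U₀ ∧ L.At (KK O K) U₀ ∧ Y.PU V' ≤ U₀ := by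
  classical
  obtain ⟨v, hv⟩ := exists_ne_pl w
  obtain ⟨N, N0, hN⟩ := Y.ntw v
  obtain ⟨s, hs⟩ : ∃ s : (Y.Dw w)ˣ →* GL (Fin 2) K, ∀ x, L.π x = s (Y.cu w x) := by
    obtain ⟨-, s, -, -, h1, -⟩ := h
    exact ⟨Units.map s.toMonoidHom, fun x => Units.ext (h1 x)⟩
  let V' := Function.update (Function.update V v (V v ⊓ Y.U1 v N)) w ((B ⊔ Zl K).comap s)
  have mem : ∀ x, x ∈ Y.PU V' ↔ L.π x ∈ B ⊔ Zl K ∧ Y.cu v x ∈ Y.U1 v N ∧
      ∀ u, u ≠ w → Y.cu u x ∈ V u := fun x => by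
    rw [mem_PU, Function.forall_update_iff _ fun u S => Y.cu u x ∈ S, hs]
    refine and_congr Iff.rfl ⟨fun k => ⟨?_, fun u hu => ?_⟩, fun k u hu => ?_⟩
    · have := k v hv
      rw [Function.update_self] at this
      exact this.2
    · have := k u hu
      by_cases e : u = v
      · subst e
        rw [Function.update_self] at this
        exact this.1
      · rwa [Function.update_of_ne e] at this
    · by_cases e : u = v
      · subst e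
        rw [Function.update_self]
        exact ⟨k.2 u hu, k.1⟩
      · rw [Function.update_of_ne e]
        exact k.2 u hu
  have aw : ∀ y ∈ Y.PU V', L.π y = 1 → y ∈ Y.PU V := fun y hy e => mem_PU.2 fun u => by
    by_cases hu : u = w
    · subst hu
      exact (Units.ext (h.pi_eq_one.1 e) : Y.cu u y = 1) ▸ one_mem _
    · exact ((mem y).1 hy).2.2 u hu
  have at' : L.At B (Y.PU V') := ⟨fun g hg => (mem _).2 ⟨by
    rw [L.πι]; exact Subgroup.mem_sup_left hg, cu_io h g hv ▸ one_mem _,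
    fun u hu => cu_io h g hu ▸ one_mem _⟩, fun u hu => ((mem u).1 hu).1⟩
  have up : ∀ W : Subgroup Y.G, (∀ y ∈ Y.PU V', L.π y = 1 → y ∈ W) →
      Y.PU V' ≤ L.set (KK O K) W := fun W k x hx => by
    have e : L.π ((L.ι (L.π x))⁻¹ * x) = 1 := by rw [map_mul, map_inv, L.πι, inv_mul_cancel]
    obtain ⟨m1, m2, m3⟩ := (mem x).1 hx
    rw [← mul_inv_cancel_left (L.ι (L.π x)) x]
    refine mul_mem ((sup_le (fun g hg => Subgroup.mem_sup_right ⟨g, h2 hg, rfl⟩) fun g hg =>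
      Subgroup.mem_sup_left (Subgroup.mem_sup_right (L.cen g hg)) :
        B ⊔ Zl K ≤ (L.set (KK O K) W).comap L.ι) m1)
      (Subgroup.mem_sup_left (Subgroup.mem_sup_left ⟨k _ ((mem _).2 ⟨e ▸ one_mem _, ?_,
        fun u hu => ?_⟩) e, e⟩))
    · rwa [map_mul, map_inv, cu_io h _ hv, inv_one, one_mul]
    · rw [map_mul, map_inv, cu_io h _ hu, inv_one, one_mul]
      exact m3 u hu
  have sl : ∀ W ∈ Y.tw.Lev, L.set (KK O K) W ∈ Y.tw.Lev := fun W hW =>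
    QD.Km_zero (O := O) (K := K) ▸ L.lev _ hW 0
  have l1 := Y.ok.inf _ lev _ (Y.UN_mem N0)
  have lev' : Y.PU V' ∈ Y.tw.Lev := Y.ok.up _ l1 _ (fun x hx => (mem x).2
    ⟨sup_le_sup_right h1 _ (a.2 x hx.1), ⟨x, hx.2, rfl⟩, fun u _ => mem_PU.1 hx.1 u⟩) fun e =>
      Y.ok.fi _ l1 _ (sl _ lev) (Subgroup.relIndex_eq_zero_of_le_right (up _ aw) e)
  refine ⟨V', v, lev', at', aw, fun u b c => by
    simp only [V', Function.update_of_ne b, Function.update_of_ne c], _, sl _ lev',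
    hN _ (sl _ lev') fun u hu => ?_, ⟨fun g hg => Subgroup.mem_sup_right ⟨g, hg, rfl⟩,
    fun u hu => ?_⟩, up _ fun _ hy _ => hy⟩
  · refine (sup_le (sup_le ?_ ?_) ?_ :
      L.set (KK O K) (Y.PU V') ≤ (Y.U1 v N).comap (Y.cu v)) hu
    · exact fun y hy => ((mem y).1 hy.1).2.1
    · exact fun y hy => ⟨y, Y.Z_le_UN N hy, rfl⟩
    · rintro _ ⟨g, -, rfl⟩
      exact Subgroup.mem_comap.2 (cu_io h g hv ▸ one_mem _)
  · refine (sup_le (sup_le ?_ ?_) ?_ :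
      L.set (KK O K) (Y.PU V') ≤ (KK O K ⊔ Zl K).comap L.π) hu
    · exact fun y hy => Subgroup.mem_comap.2 ((show L.π y = 1 from hy.2) ▸ one_mem _)
    · exact fun y hy => Subgroup.mem_sup_right (L.cen' y hy)
    · rintro _ ⟨g, hg, rfl⟩
      exact Subgroup.mem_comap.2 ((L.πι g).symm ▸ Subgroup.mem_sup_left hg)

end lev

/-- one level of the approximation -/
theorem aps_lev (good : Y.GOOD) (can : Y.CAN) (emb : Y.Emb j io) {U : Subgroup Y.G}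
    (hU : U ∈ Y.tw.Lev) (ne : Y.tw.Neat U) {Λ B : Type} [CommRing Λ] [AddCommGroup B] [Module Λ B]
    {n : ℕ} (hn : 0 < n) [Module (ZMod n) B] [Module.Free (ZMod n) B] [Module.Finite (ZMod n) B]
    {e : GK j →* Λˣ} (he : ∀ᶠ u in 𝓝 (1 : GK j), (n : Λ) ∣ e u - 1)
    {W : ∀ w : Pl F, Y.tw.Lc (Oc w) (Fw w) → Ideal (𝓞 Qb) → Λ → Prop} {z : Y.G0 → Y.G → B}
    (hz : z ∈ Y.tw.Z1 (Representation.trivial Λ Y.G0 B) U)
    (hW : ∀ w L P c, W w L P c → Y.IsPl w L ∧ L.At (KK (Oc w) (Fw w)) U ∧ n.Coprime (qw w) ∧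
      Y.tw.Eig (Representation.trivial Λ Y.G0 B) U z (hk (L.To U) U) c)
    {C : Type} [NormedField C] {i : Λ →+* C} {r : ℝ}
    (ann : ∀ a : Λ, a • z ∈ Y.tw.B1 (Representation.trivial Λ Y.G0 B) U → ‖i a‖ ≤ r)
    {u : Y.G} (hu : ∀ v ∈ U, u⁻¹ * v * u ∈ U)
    (hd : Y.tw.Eig (Representation.trivial Λ Y.G0 B) U z (op (fN Λ u)) 0) {s : GK j} {ε : ℤ}
    (hs : ∀ σ θ, Tw.Ext io s σ → Y.tw.Sl σ θ → ∀ a a₁ a₂ : Y.tw.Hn n U, Y.tw.Ga θ n U a a₁ →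
      Y.tw.Ga θ n U a₁ a₂ → a + Y.tw.hN n (cor_one hu) a +
        Y.tw.hN n (cor_one hu) (Y.tw.hN n (cor_one hu) a) = 0 → a₂ = ε • a) :
    Aps e i (fun g τ => ∃ w L P, W w L P τ ∧ FrI j w P g ∧ (e g : Λ) = qw w) (s ^ 2) ε r := by
  obtain ⟨ρ, o⟩ := (Tw.galh_of Y.ok Y.tw.cf Y.tw.poi Λ B n hn).2.2 F j io (emb ▸ can) U hU ne
  refine gact_aps o Y.ok hU hn (can.ex_sl emb) he hz ann
    (fun Q τ => ∃ w L P, W w L P τ ∧ L.To U = Q) ?_ ?_ hu hd hs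
  · rintro _ τ ⟨w, L, P, k, rfl⟩
    exact ⟨QD.cor_To L hU, (hW w L P τ k).2.2.2⟩
  · rintro g τ ⟨w, L, P, k, fr, eq⟩
    obtain ⟨k1, k2, k3, -⟩ := hW w L P τ k
    have q : qw w = qq (Oc w) := k1.qq_eq.symm
    exact ⟨_, _, ⟨w, L, P, k, rfl⟩, q ▸ eq, fun c σ θ x s _ _ _ =>
      (((good _ _ L w k1).2 U hU ne k2 j io emb P fr.1 fr.2.1 g g.2 σ x).2
        (q ▸ fr.2.2)).gen s hn (q ▸ k3) c⟩

/-- **the sign on the traces of an eigenclass** -/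
theorem sgn_core (ape : APE) (bndk : BNDK) (bndi : BNDI) (good : Y.GOOD) (can : Y.CAN)
    (emb : Y.Emb j io) {m : ℕ} {s : Y.Sp Qb} (sp : Y.IsSp s) {V : ∀ w, Subgroup (Y.Dw w)ˣ}
    (lev : Y.PU V ∈ Y.tw.Lev) (ne : Y.tw.Neat (Y.PU V)) {z : Y.G0 → Y.G → Vw Qb (F →+* Qb) m}
    (coc : z ∈ Y.tw.Z1 (Y.rw m s) (Y.PU V)) (nz : z ∉ Y.tw.B1 (Y.rw m s) (Y.PU V)) (p : ℕ)
    [hp : Fact p.Prime] (ι : Qb →+* Cp p) (aux : ∃ w c, p.Coprime (qw w) ∧
      Y.Gw m s (Y.PU V) z w c ∧ c ^ 2 ≠ (qw w + 1) ^ 2) (S : Finset ℕ)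
    {ρ : GK j →* GL (Fin 2) (Cp p)} (ct : Continuous ρ)
    (den : ∀ l ∉ S, l ≠ p → ∀ P w, Ov l P → below j P = w.asIdeal → qw w = l →
      ∃ c, Y.Gw m s (Y.PU V) z w c ∧ ∀ φ, FrI j w P φ → tr ρ φ = ι c)
    {w : Pl F} {L : Y.tw.Lc ℤ_[3] ℚ_[3]} (hw : Y.IsPl w L) (h3 : p.Coprime 6)
    (hp' : (p : 𝓞 F) ∉ w.asIdeal) (a : L.At (U3 Q8) (Y.PU V)) {U₀ : Subgroup Y.G}
    (l0 : U₀ ∈ Y.tw.Lev) (n0 : Y.tw.Neat U₀) (a0 : L.At (KK ℤ_[3] ℚ_[3]) U₀) (le : Y.PU V ≤ U₀)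
    (tz : ∀ γ, op (fN Qb (L.ι (nl 3))) (z γ) = 0) {t : GK j} (et : eps p t = 1) {ε : ℤˣ}
    (ht : ∀ σ θ, Tw.Ext io t σ → Y.tw.Sl σ θ → Thw L θ ε) (g : GK j) :
    tr ρ (t ^ 2 * g) = (ε : ℤ) * tr ρ g := by
  classical
  obtain ⟨K, fK, hK⟩ := bndk F Y m s sp _ lev z coc nz
  obtain ⟨w0, c0, a1, ⟨L0, a2, a3, a4⟩, a5⟩ := aux
  obtain ⟨E, fE, k, hE, H⟩ := ape F Y m s sp V lev z coc nz p ι
    ⟨w0, L0, c0, QD.not_mem a1, a2, a3, (good _ _ L0 w0 a2).1, a5, a4⟩ K fK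
  have int : ∀ w c, p.Coprime (qw w) → Y.Gw m s (Y.PU V) z w c → ι c ∈ OE E := by
    rintro w c h ⟨L, b1, b2, b3⟩
    refine mem_OE.2 ⟨?_, hE c (hK _ (QD.cor_To L lev) c b3)⟩
    have := norm_of_int ((bndi F Y m s sp _ lev z coc nz _ _ L w b1 b2 c b3).map ι.toIntAlgHom)
    rwa [map_mul, map_pow, map_natCast, norm_mul, _root_.norm_pow,
      norm_nat (hp.out.coprime_iff_not_dvd.1 h), one_pow, one_mul] at this
  obtain ⟨d, ⟨co⟩⟩ := ex_coord (E := E)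
  let e : GK j →* (OE E)ˣ := (Units.map (zE E).toMonoidHom).comp ((ez p).comp (GK j).subtype)
  let W : ∀ w : Pl F, Y.tw.Lc (Oc w) (Fw w) → Ideal (𝓞 Qb) → OE E → Prop := fun w L P τ =>
    p.Coprime (qw w) ∧ Y.IsPl w L ∧ L.At (KK (Oc w) (Fw w)) (Y.PU V) ∧ ∃ c, (τ : Cp p) = ι c ∧
      Y.tw.Eig (Y.rw m s) (Y.PU V) z (hk (L.To (Y.PU V)) (Y.PU V)) c ∧
      ∀ φ, FrI j w P φ → tr ρ φ = ι c
  have p0 : 0 < ‖(p : Cp p)‖ := norm_pos_iff.2 (Nat.cast_ne_zero.2 hp.out.ne_zero)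
  have := tr_aps (e := e) (i := (OE E).subtype) (t := tr ρ) (s := t ^ 2) (ε := (ε : ℤ))
    (R := fun g τ => ∃ w L P, W w L P τ ∧ FrI j w P g ∧ (e g : OE E) = qw w)
    (r := fun n => ‖(p : Cp p)‖ ^ n / ‖(p : Cp p)‖ ^ k)
    (Units.continuous_val.comp ct).matrix_trace
    (by
      rintro g τ ⟨w, L, P, ⟨-, -, -, c, b1, -, b2⟩, b3, -⟩
      exact (b2 g b3).trans b1.symm)
    (((Cheb.dense_fr (insert p S)).preimage (Tw.isOpen_GK j).isOpenMap_subtype_val).mono (by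
      rintro φ ⟨l, l1, l2, P, h1, h2, h3⟩
      have o : Ov l P := ⟨l1, h1, h2⟩
      have lp : l ≠ p := fun a => l2 (a ▸ Finset.mem_insert_self _ _)
      obtain ⟨w, hw⟩ := exists_below j o
      obtain ⟨f, -, f1, f2⟩ := CH.norm_pow o hw
      rw [Nat.dvd_one.1 (f2 φ φ.2 1 (by rw [pow_one]; exact h3)), pow_one] at f1
      obtain ⟨c, hc, hc'⟩ := den l (fun a => l2 (Finset.mem_insert_of_mem a)) lp P w o hw f1
      have cp := QD.cop_of_ov hp.out o lp hw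
      have fr : FrI j w P φ := ⟨h1, hw, f1 ▸ h3⟩
      refine ⟨⟨_, int w c cp hc⟩, ?_⟩
      obtain ⟨L, b1, b2, b3⟩ := hc
      exact ⟨w, L, P, ⟨cp, b1, b2, c, rfl, b3, hc'⟩, fr, Subtype.ext (eps_of_pow o lp fr.2.2)⟩))
    (by rw [← Int.cast_mul, ← Units.val_mul, Int.units_mul_self, Units.val_one, Int.cast_one])
    (by rw [map_pow, show e t = 1 from Units.ext (Subtype.ext et), one_pow])
    (by simpa using (tendsto_pow_atTop_nhds_zero_of_lt_one p0.le norm_p_lt).div_const _)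
    (fun n => by
      obtain ⟨V', v1, v2, v3, z', z1, z2, z3⟩ := H n
      obtain ⟨_, _, _⟩ := ex_mod co n
      have le' : Y.PU V' ≤ Y.PU V := iInf_mono fun v => Subgroup.comap_mono (v1 v)
      have a' := at_congr hw (v2 w hp') a
      refine aps_lev good can emb v3 (ne.mono le') (pow_pos hp.out.pos n) ?_ z1 ?_
        (fun a ha => ?_) (fun _ => nrm v3 a' _)
        (z3 (fN Qb _) _ 0 0 (fun g => (fN_map (OE E).subtype _ g).trans (fN_map ι _ g).symm)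
          (map_zero ι).symm (fun g hg v hv => ?_) (fun φ hφ => ?_) ?_)
        fun σ θ x s => ht σ θ x s U₀ l0 n0 a0 _ v3 (le'.trans le) a' _ _ (pow_pos hp.out.pos n)
          (h3.pow_left n)
      · filter_upwards [((Gz_open (p ^ n)).preimage continuous_subtype_val).mem_nhds
          (x := (1 : GK j)) (Gz (p ^ n)).one_mem] with u hu
        have := mem_Gz_pow.1 hu
        rw [eps_eq, ← map_one (zc p), ← map_sub, norm_zc, PadicInt.norm_le_pow_iff_mem_span_pow,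
          Ideal.mem_span_singleton] at this
        have := map_dvd (zE E) this
        rwa [map_sub, map_one, map_pow, map_natCast, ← Nat.cast_pow] at this
      · rintro w L P τ ⟨b0, b1, b2, c, b3, b4, -⟩
        have b5 := at_congr b1 (v2 w (QD.not_mem b0)) b2
        refine ⟨b1, b5, b0.pow_left n, (b5.eig_fT v3 z1).1 (z3 (L.fT Qb) _ c τ (fun g => ?_) b3
          (fun g hg v hv => ?_)
          (fun φ hφ => b2.op_fT (R := Qb) lev hφ ▸ hk_inv (QD.cor_To L lev) hφ)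
          ((b2.eig_fT lev coc).2 b4))⟩
        · exact (L.fT_map (OE E).subtype g).trans (L.fT_map ι g).symm
        · obtain ⟨x, rfl⟩ := L.fT_sup hg
          exact congrArg Units.val (cu_io b1 x fun a => QD.not_mem b0 (a ▸ hv))
      · obtain ⟨c, hc⟩ := z2 a ha
        have := congrArg (fun x : OE E => ‖(x : Cp p)‖) hc
        simp only [Subring.coe_mul, SubmonoidClass.coe_pow, Subring.coe_natCast, norm_mul,
          _root_.norm_pow] at this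
        rw [le_div_iff₀ (pow_pos p0 k)]
        exact this.trans_le (mul_le_of_le_one_right (pow_pos p0 n).le (mem_OE.1 c.2).1)
      · obtain ⟨x, rfl⟩ : ∃ x, g = L.ι x := by
          rcases fN_sup hg with h | h | h
          exacts [⟨1, h.trans (map_one _).symm⟩, ⟨_, h⟩, ⟨_, h.trans (map_mul _ _ _).symm⟩]
        exact congrArg Units.val (cu_io hw x fun a => hp' (a ▸ hv))
      · have h1 := inv_rt (fun _ => nrm lev a (nO 1)) hφ
        have h2 := inv_rt (fun _ => nrm lev a (nO 1)) h1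
        rw [op_fN]
        exact fun x u hu => by rw [Pi.add_apply, Pi.add_apply, hφ x u hu, h1 x u hu, h2 x u hu]; rfl
      · rw [Tw.Eig, funext tz, zero_smul, sub_zero]
        exact zero_mem _) g
  rwa [map_intCast] at this

/-- **THE** from the action of inertia -/
theorem the_of_thx (ape : APE) (bndk : BNDK) (bndi : BNDI) (good : AllQ fun X => X.GOOD)
    (can : AllQ fun X => X.CAN) (thx : AllQ fun X => THX X) (A : Thy) (hA : A.Aut = Aut) :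
    A.THE := by
  intro X m S L b h h3 hL p hp ι ρ h5 lg P o hd hv
  classical
  obtain ⟨Y, io, s, V, z, h⟩ := hA ▸ h
  have p3 : 3 ≠ p := by omega
  obtain ⟨w, hw⟩ := exists_below X.j o
  obtain ⟨Lw, k1, k2, e, e0, k3⟩ := h.ty 3 cth w ⟨h3, fun a => hv (a ▸ hw), P, o, hw, hd⟩ hL
  obtain ⟨V', v, l1, a1, aw, ag, U₀, l0, n0, a0, le⟩ := ex_lev k1 h.lev k2 (Km_le Q8) (U3_le Q8)
  have iv : ∀ f : Y.G → Vw Qb (X.F →+* Qb) m, Inv (Y.PU V) f → Inv (Y.PU V') (Lw.ec cth f) :=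
    fun f => ec_inv Y.ok h.lev l1 k2 a1 aw fun q hq => cth_q hq
  have coc := ec_Z1 iv h.coc
  have nz : (fun γ => Lw.ec cth (z γ)) ∉ Y.tw.B1 (Y.rw m s) (Y.PU V') := fun k => by
    have b1 := sub_mem (B1_mono (U' := Y.PU V ⊓ Y.PU V') inf_le_right k) (B1_mono inf_le_left k3)
    rw [sub_sub_cancel] at b1
    have b2 := Submodule.smul_mem _ e⁻¹ b1
    rw [inv_smul_smul₀ e0] at b2
    obtain ⟨n, n0, b3⟩ := B1_up inf_le_left (Y.ok.fi _ (Y.ok.inf _ h.lev _ l1) _ h.lev) h.coc.1 b2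
    have b4 := Submodule.smul_mem _ (n : Qb)⁻¹ b3
    rw [← Nat.cast_smul_eq_nsmul Qb, inv_smul_smul₀ (Nat.cast_ne_zero.2 n0)] at b4
    exact h.ne b4
  have gw : ∀ u, SphW X S u → u ≠ w → u ≠ v →
      Y.Gw m s (Y.PU V') (fun γ => Lw.ec cth (z γ)) u (b u) := fun u sp c1 c2 => by
    obtain ⟨Lu, b1, b2, b3⟩ := h.sph u sp
    have b4 := at_congr b1 (ag u c1 c2) b2
    refine ⟨Lu, b1, b4, (b4.eig_fT l1 coc).1 ?_⟩
    refine eig_ec iv (fun y hy g => ?_) ((b2.eig_fT h.lev h.coc).2 b3)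
    obtain ⟨x, rfl⟩ := Lu.fT_sup hy
    exact Lw.com g _ (k1.pi_io b1 c1.symm x)
  obtain ⟨u, u1, u2, u3⟩ := h.nE (insert w (insert v (Ideal.finite_factors
    (I := Ideal.span {(p : 𝓞 X.F)}) (by simpa using hp.out.ne_zero)).toFinset))
  simp only [Finset.mem_insert, not_or] at u1
  have cp : p.Coprime (qw u) := by
    obtain ⟨l, P, a1, a2, a3⟩ := u2
    exact QD.cop_of_ov hp.out a1 (fun e => u1.2.2 (by
      simpa [← e, ← a2] using H20.l_mem_below X.j a1.2.2)) a2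
  obtain ⟨ε, t1, t, t2, t3, t4⟩ := thx _ Y Lw w k1 X.j io h.emb P o.2.1 hw
  have key : ∀ t : X.H, t.1 ∈ inP P → ∀ g, tr ρ (t ^ 2 * g) = (ε t : ℤ) * tr ρ g := fun t ht =>
    sgn_core ape bndk bndi (good _ Y) (can _ Y) h.emb h.sp l1 (n0.mono le) coc nz p ι
      ⟨u, b u, cp, gw u u2 u1.1 u1.2.1, u3⟩ (insert (qw X.v0) (insert (qw w) (insert (qw v) S)))
      lg.1 (fun l hl lp P' w' o' hw' e => by
        simp only [Finset.mem_insert, not_or] at hl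
        have sp : X.Sph S l P' := ⟨fun a => hl.1 (by
          rw [← e, HeightOneSpectrum.ext (hw'.symm.trans a)]), Or.inl hl.2.2.2⟩
        exact ⟨_, gw w' ⟨l, P', o', hw', sp⟩ (fun a => hl.2.1 (a ▸ e.symm))
          fun a => hl.2.2.1 (a ▸ e.symm), (lg.2.2 l P' w' o' lp hw' sp).2⟩) k1
      (Nat.Coprime.mul_right ((Nat.coprime_primes hp.out Nat.prime_two).2 (by omega))
        ((Nat.coprime_primes hp.out Nat.prime_three).2 p3.symm))
      (QD.not_mem (QD.cop_of_ov hp.out o p3 hw)) a1 l0 n0 a0 le (fun γ => by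
        have r := rt_ec (c := cth) k2 (h.coc.1 γ) (nO 1)
        rw [op_fN, r, rt_ec k2 (h.coc.1 γ)]
        funext x
        simp only [Pi.add_apply, ec_apply, ← Finset.sum_add_distrib, ← add_smul]
        refine Finset.sum_eq_zero fun g _ => ?_
        rw [cth_sum (by ext i j; fin_cases i <;> fin_cases j <;> simp [nO]), zero_smul])
      (eps_inert o p3 ht) (t1 t t.2 ht)
  refine the_of (by omega) (Tw.isOpen_GK X.j) lg.1
    (fun t ht => (lg.2.1 t).trans (eps_inert o p3 ht)) (fun t ht => ?_) ⟨⟨t, t2⟩, t3, fun g => ?_⟩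
  · rcases Int.units_eq_one_or (ε t) with a | a
    · exact Or.inl fun g => by simp [key t ht, a]
    · exact Or.inr fun g => by simp [key t ht, a]
  · rw [key ⟨t, t2⟩ t3, t4]
    simp

end Vale.Agent.P022K.TH
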