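import Vale.Agent.P022K.TH.Glue

/-!
# P022K, block TH: from functions to classes
-/

set_option autoImplicit false

open scoped MatrixGroups

noncomputable section

namespace Vale.Agent.P022K.TH

open Vale.Agent.P022 Sh
open Vale.Agent.P022.H218.L3 (Mer)

variable {G0 G : Type} [Group G0] [Group G] {T : Tw G0 G} {U : Subgroup G}
  {θ : (G → Mer) → G → Mer} {σ : ℂ ≃+* ℂ} {n : ℕ} {u : G}

variable (T U θ n u) in
/-- the relation for the functions of level `U` which are `n`-th powers -/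
def ThF (ε : ℤ) : Prop := ∀ f ∈ T.RU U, ∀ g : G → Mer, (∀ x, g x ≠ 0) → f = g ^ n →
  (∃ χ ∈ T.RU U, f * rt u f * rt u (rt u f) = χ ^ n) → ∃ ψ ∈ T.RU U, θ (θ f) = f ^ ε * ψ ^ n

theorem ThF.cls {ε : ℤˣ} (h : ThF T U θ n u ε) (s : T.Sl σ θ) (hU : U ∈ T.Lev) (hn : 0 < n)
    (hu : ∀ v ∈ U, u⁻¹ * v * u ∈ U) (d : Cor U {y | u⁻¹ * y ∈ U} U) {a a₁ a₂ : T.Hn n U}
    (k : T.Ga θ n U a a₁) (k' : T.Ga θ n U a₁ a₂)
    (e : a + T.hN n d a + T.hN n d (T.hN n d a) = 0) : a₂ = (ε : ℤ) • a := by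
  obtain ⟨z, z₂, rfl, rfl, k⟩ := k.comp s hU hn k'
  obtain ⟨g, g₂, k, k₂, r⟩ := k (AddMonoidHom.id _)
  have le : U ≤ cj u U := fun v hv => mem_cj.2 (hu v hv)
  have k1 := (k.rt u).mono le
  have k0 : T.Kum n U 1 0 := Tw.kum_RU (one_mem _) fun _ => one_ne_zero
  have b : z.1 + (fun γ => rt u (z.1 γ)) + (fun γ => rt u (rt u (z.1 γ))) - 0 ∈
      T.B1 (Representation.trivial (ZMod n) G0 (ZMod n)) U := by
    refine (congrArg (· - 0 ∈ T.B1 _ U) (funext fun γ => ?_)).mp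
      ((Tw.mk_eq_mk (a := z + T.hZ _ d z + T.hZ _ d (T.hZ _ d z)) (b := 0)).1 e)
    show z.1 γ + hk _ U (z.1 γ) + hk _ U (hk _ U (z.1 γ)) = _
    rw [hk_one u (z.2.1 γ), hk_one u (inv_rt hu (z.2.1 γ))]
    rfl
  obtain ⟨χ, c1, c2⟩ := (((k.mul hn k1).mul hn ((k1.rt u).mono le)).cob hn k0).1 b
  obtain ⟨ψ, c3, c4⟩ := h _ (k.pow_mem hn) g k.1 rfl ⟨χ, c1, by
    rw [one_pow, one_mul, mul_pow, mul_pow] at c2
    exact c2⟩
  rw [show θ (θ (g ^ n)) = _ from r] at c4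
  rcases Int.units_eq_one_or ε with rfl | rfl
  · rw [Units.val_one, one_smul]
    exact Tw.mk_eq_mk.2 ((k₂.cob hn k).2 ⟨ψ, c3, by simpa using c4⟩)
  · rw [Units.val_neg, Units.val_one, neg_smul, one_smul, ← add_eq_zero_iff_eq_neg]
    refine (Tw.mk_eq_mk (a := z₂ + z) (b := 0)).2 (((k₂.mul hn k).cob hn k0).2 ⟨ψ, c3, ?_⟩)
    rw [mul_pow, c4]
    funext x
    simp [mul_right_comm, k.1 x]

theorem thw_of {w : T.Lc ℤ_[3] ℚ_[3]} {ε : ℤˣ} (s : T.Sl σ θ)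
    (h : ∀ U₀ ∈ T.Lev, T.Neat U₀ → w.At (KK ℤ_[3] ℚ_[3]) U₀ → ∀ U ∈ T.Lev, U ≤ U₀ →
      w.At (U3 Q8) U → ∀ n, 0 < n → n.Coprime 6 → ThF T U θ n (w.ι (nl 3)) ε) : Thw w θ ε :=
  fun U₀ l0 n0 a0 U l le a d n hn hc _ _ _ k k' =>
    (h U₀ l0 n0 a0 U l le a n hn hc).cls s l hn (fun _ => nrm l a _) d k k'

end Vale.Agent.P022K.TH
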