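import Vale.Agent.P022K.TH.Xi
import Vale.Agent.P022K.FI.Good2

/-!
# P022K, block TH: tools for the computation at a node
-/

set_option autoImplicit false
set_option linter.all false

open Vale.Agent.P019P P025H746 P025H492 IntermediateField

noncomputable section

namespace Vale.Agent.P022K.TH.Lo

open Vale.Agent.P027M Vale.Agent.P027M.I Vale.Agent.P022K.FI

section place

variable {k F : Type} [Field k] [Field F] [Algebra k F] [CFF k F]

/-- evaluation at a place -/
def ev (P : Plk k F) : P.1 →+* k where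
  toFun x := vl P x
  map_one' := vl_one'
  map_mul' x y := vl_mul' x.2 y.2
  map_zero' := vl_zero'
  map_add' x y := vl_add' x.2 y.2

theorem vl_coe (P : Plk k F) (x : P.1) : vl P (x : F) = ev P x := rfl

theorem vl_cst (P : Plk k F) (a : k) : vl P (algebraMap k F a) = a := vl_eq (by simp)

/-- `1, t, t ^ 2` are independent over the cubes -/
theorem ind3 {z : Plk k F} {t a b e : F} (ht : ord z t = 1)
    (h : a ^ 3 + t * b ^ 3 + t ^ 2 * e ^ 3 = 0) : a = 0 ∧ b = 0 ∧ e = 0 := by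
  have t0 : t ≠ 0 := fun e => by rw [e, ord_zero] at ht; omega
  have key : ∀ x y w : F, x + y + w = 0 → x ≠ 0 → (y = 0 ∨ ord z x < ord z y) →
      (w = 0 ∨ ord z x < ord z w) → False := fun x y w e x0 h1 h2 =>
    (ord_add_of_lt (P := z) x0 (w := y + w) (add_mem (h1.imp_right fun k => by omega)
      (h2.imp_right fun k => by omega))).1 (by rw [← add_assoc, e])
  have o1 : ord z (a ^ 3) = 3 * ord z a := by rw [ord_pow]; rfl
  have o2 : b ≠ 0 → ord z (t * b ^ 3) = 1 + 3 * ord z b := fun h => by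
    rw [ord_mul _ t0 (pow_ne_zero _ h), ord_pow, ht]; rfl
  have o3 : e ≠ 0 → ord z (t ^ 2 * e ^ 3) = 2 + 3 * ord z e := fun h => by
    rw [ord_mul _ (pow_ne_zero _ t0) (pow_ne_zero _ h), ord_pow, ord_pow, ht]; rfl
  have k1 := key _ _ _ h
  have k2 := key (t * b ^ 3) (a ^ 3) (t ^ 2 * e ^ 3) (by rw [← h]; ring)
  have k3 := key (t ^ 2 * e ^ 3) (a ^ 3) (t * b ^ 3) (by rw [← h]; ring)
  by_cases ha : a = 0 <;> by_cases hb : b = 0 <;> by_cases he : e = 0 <;>
    simp only [ha, hb, he, ne_eq, not_true, not_false_iff, mul_eq_zero, pow_eq_zero_iff,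
      OfNat.ofNat_ne_zero, t0, or_true, true_or, false_or, or_false, forall_true_left, and_self,
      zero_pow, mul_zero, not_lt, imp_false, or_self, false_imp_iff] at * <;> omega

variable {σ : F ≃+* F} {s : k ≃+* k} (h : ∀ a, σ (algebraMap k F a) = algebraMap k F (s a))

include h in
/-- the pull back of a place -/
theorem ex_pl (P : Plk k F) : ∃ P' : Plk k F, plEquiv σ s h P' = P ∧ (∀ x, x ∈ P'.1 ↔ σ x ∈ P.1) ∧
    ∀ x ∈ P'.1, vl P (σ x) = s (vl P' x) := by
  obtain ⟨P', rfl⟩ := (plEquiv σ s h).surjective P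
  refine ⟨P', rfl, fun x => by rw [AuxFAct.mem_plEquiv, σ.symm_apply_apply], fun x hx => vl_eq ?_⟩
  rw [← h, ← map_sub, mem_Mge, ord_plEquiv, map_eq_zero]
  exact sub_vl hx

end place

section norm

variable {C F : Type} [NontriviallyNormedField C] [IsUltrametricDist C] [IsAlgClosed C] [Field F]
  [Algebra C F] {w : NV C F} {x y : F}

/-- reduction -/
abbrev rh (w : NV C F) : w.ring →+* kap w := IsLocalRing.residue w.ring

theorem red_coe (x : w.ring) : w.red (x : F) = rh w x := NV.red_of x.2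

theorem lt_of_rh {x : w.ring} (h : rh w x = 0) : w (x : F) < 1 :=
  (NV.red_eq_zero x.2).1 ((red_coe x).trans h)

theorem rh_of_lt {x : w.ring} (h : w (x : F) < 1) : rh w x = 0 :=
  (red_coe x).symm.trans (NV.red_of_lt h)

theorem rh_eq {x y : w.ring} (h : w ((x : F) - y) < 1) : rh w x = rh w y :=
  sub_eq_zero.1 ((map_sub _ _ _).symm.trans (rh_of_lt (x := x - y) h))

theorem three (h : ‖(3 : C)‖ < 1) (w : NV C F) : (3 : kap w) = 0 := by
  have e : w ((3 : w.ring) : F) < 1 := by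
    rw [show ((3 : w.ring) : F) = algebraMap C F 3 by rw [map_ofNat]; rfl, w.ext']
    exact h
  simpa only [map_ofNat] using rh_of_lt e

theorem cube_inj {M : Type} [Field M] (h : (3 : M) = 0) {a b : M} (e : a ^ 3 = b ^ 3) : a = b :=
  sub_eq_zero.1 (pow_eq_zero_iff (n := 3) (by norm_num) |>.1 (by
    linear_combination e + (a * b ^ 2 - a ^ 2 * b) * h))

theorem norm_four (h : ‖(3 : C)‖ < 1) : ‖(4 : C)‖ = 1 := by
  rw [show (4 : C) = 1 + 3 by norm_num, IsUltrametricDist.norm_add_eq_max_of_norm_ne_norm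
    (by rw [norm_one]; exact h.ne'), norm_one, max_eq_left h.le]

theorem nv_div (w : NV C F) (x : F) (c : C) : w (x / algebraMap C F c) = w x / ‖c‖ := by
  rw [← w.ext']
  exact map_div₀ w.av _ _

theorem div_le {c : C} (hc : c ≠ 0) : w (x / algebraMap C F c) ≤ 1 ↔ w x ≤ ‖c‖ := by
  rw [nv_div, div_le_one (norm_pos_iff.2 hc)]

theorem div_lt {c : C} (hc : c ≠ 0) : w (x / algebraMap C F c) < 1 ↔ w x < ‖c‖ := by
  rw [nv_div, div_lt_one (norm_pos_iff.2 hc)]

theorem nv_pow (w : NV C F) (x : F) (n : ℕ) : w (x ^ n) = w x ^ n := map_pow w.av x n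

theorem eq_of_sub {r : ℝ} (h : w (x - y) < r) (e : w y = r) : w x = r := by
  refine le_antisymm ?_ (not_lt.1 fun k => ?_)
  · simpa using NV.add_le h.le e.le
  · have := NV.sub_lt k h
    rw [sub_sub_cancel, e] at this
    exact this.false

/-- maps which are trivial on the residue field are isometries -/
theorem iso_of (hn : ∀ r : ℝ, 0 ≤ r → ∃ x : C, ‖x‖ = r) {σ : F →+* F} {s : C ≃+* C}
    (h : ∀ a, σ (algebraMap C F a) = algebraMap C F (s a)) (hs : ∀ c, ‖s c‖ = ‖c‖)
    (t : ∀ x, w x ≤ 1 → w (σ x - x) < 1) (x : F) : w (σ x) = w x := by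
  by_cases e : x = 0
  · rw [e, map_zero]
  obtain ⟨c, hc⟩ := hn (w x) (w.av.nonneg x)
  have c0 : 0 < ‖c‖ := hc ▸ w.av.pos e
  have h1 : w (x / algebraMap C F c) = 1 := by rw [nv_div, hc, div_self (hc ▸ c0.ne')]
  have h2 := eq_of_sub (t _ h1.le) h1
  rw [map_div₀, h, nv_div, hs, div_eq_one_iff_eq c0.ne'] at h2
  rw [h2, hc]

/-- the roots of a quartic -/
theorem root_le {b c d : F} (hb : w b ≤ 1) (hc : w c ≤ 1) (hd : w d ≤ 1)
    (e : x ^ 4 + b * x ^ 2 + c * x + d = 0) : w x ≤ 1 := by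
  by_contra h
  have h := not_le.1 h
  have x0 : x ≠ 0 := fun e => by rw [e, show w 0 = 0 from w.av.map_zero] at h; linarith
  have h1 : w x⁻¹ < 1 := by rw [X0.nv_inv]; exact inv_lt_one_of_one_lt₀ h
  have h2 : ∀ a, w a ≤ 1 → w (a * x⁻¹) < 1 := fun a ha => by
    rw [X0.nv_mul]
    exact mul_lt_one_of_nonneg_of_lt_one_right ha (w.av.nonneg _) h1
  have h3 : (-1 : F) = (b * x⁻¹ + (c + d * x⁻¹) * x⁻¹ * x⁻¹) * x⁻¹ := by
    field_simp
    linear_combination -e
  have h4 := h2 _ (NV.add_le (h2 b hb).le (h2 _ (h2 _ (NV.add_le hc (h2 d hd).le)).le).le)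
  rw [← h3, NV.map_neg', show w 1 = 1 from w.av.map_one] at h4
  exact h4.false

end norm

/-- the relations of the tetrahedral group -/
theorem rel {G : Type} [Group G] {γ ν : G} (g3 : γ ^ 3 = 1) (n2 : ν ^ 2 = 1)
    (ng : (ν * γ) ^ 3 = 1) : ν * γ * ν = γ * γ * ν * γ * γ := by
  have a : γ * γ * γ = 1 := by rw [← g3, pow_three']
  have b : ν * ν = 1 := by rw [← n2, pow_two]
  have c : ν * γ * ν * (γ * ν * γ) = 1 := by rw [← ng, pow_three']; group
  refine mul_right_cancel (b := γ * ν * γ) (c.trans ?_)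
  calc 1 = γ * γ * (ν * (γ * γ * γ) * ν) * γ := by rw [a, mul_one, b, mul_one, a]
    _ = _ := by group

/-- two embeddings with the same image -/
theorem ex_equiv {A M : Type} [Field A] [Field M] (f g : A →+* M) (h : ∀ a, ∃ b, g b = f a)
    (h' : ∀ b, ∃ a, f a = g b) : ∃ β : A ≃+* A, ∀ a, g (β a) = f a := by
  choose β hβ using h
  let φ : A →+* A :=
    { toFun := β
      map_one' := g.injective (by rw [hβ, map_one, map_one])
      map_mul' := fun x y => g.injective (by rw [hβ, map_mul, map_mul, hβ, hβ])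
      map_zero' := g.injective (by rw [hβ, map_zero, map_zero])
      map_add' := fun x y => g.injective (by rw [hβ, map_add, map_add, hβ, hβ]) }
  exact ⟨RingEquiv.ofBijective φ ⟨φ.injective, fun b => (h' b).imp fun a e =>
    g.injective ((hβ a).trans e)⟩, hβ⟩

end Vale.Agent.P022K.TH.Lo
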