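import Vale.Agent.P022K.TH.LocA

/-!
# P022K, block TH: the quartic equation at a node
-/

set_option autoImplicit false
set_option linter.all false

open Vale.Agent.P019P P025H746 P025H492 IntermediateField

noncomputable section

namespace Vale.Agent.P022K.TH.Lo

open Vale.Agent.P027M Vale.Agent.P027M.I Vale.Agent.P022K.FI

variable {C K L : Type} [NontriviallyNormedField C] [IsUltrametricDist C] [CompleteSpace C]
  [IsAlgClosed C] [CharZero C] [Field K] [Algebra C K] [CFF C K] [Field L] [Algebra C L] [CFF C L]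
  [Algebra K L] [IsScalarTower C K L] [FiniteDimensional K L] {u : NV C K} [CFF (kC C) (kap u)]
  (s : Plk C K → Plk (kC C) (kap u)) (z : Plk (kC C) (kap u))

/-- regular over the class, with values in `A` -/
def Rv (A : C → Prop) (x : L) : Prop := ∀ P : Plk C L, s (down K P) = z → x ∈ P.1 ∧ A (vl P x)

/-- regular over the class -/
abbrev Rl (x : L) : Prop := Rv s z (fun _ => True) x

/-- the data in the big field -/
structure Lc (V : NV C L) (γ ν : L ≃ₐ[K] L) : Prop where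
  gf : GF C
  ch : ‖(3 : C)‖ < 1
  sp : Gs.IsSp u s
  unr : IsUnr C K L
  g3 : ∀ x, γ (γ (γ x)) = x
  n2 : ∀ x, ν (ν x) = x
  ng : ∀ x, γ x = x → ν (γ (ν x)) = γ (γ (ν x))
  fix : ∀ x : L, γ x = x → ν x = x → x ∈ Set.range (algebraMap K L)
  ext : ∀ a, V (algebraMap K L a) = u a
  ine : ∀ h : L, V h ≤ 1 → V (γ h - h) < 1
  glue : ∀ f, γ f = f → Rl s z f → V f < 1 → ¬ V (ν f - 1) < 1

/-- a parameter of the inseparable branch -/
structure Pt (V : NV C L) (γ ν : L ≃ₐ[K] L) (x : L) : Prop where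
  fx : γ x = x
  lt : V x < 1
  reg : Rv s z (‖·‖ < 1) x
  uni : ∃ c : K, u c = 1 ∧ ord z (u.red c) = 1 ∧ V (ν x ^ 3 - algebraMap K L c) < 1

variable {s z} {V : NV C L} {γ ν : L ≃ₐ[K] L} {x h : L} {A : C → Prop} {a b c d : K}

theorem Rv.map (H : Rv s z A x) (g : L ≃ₐ[K] L) : Rv s z A (g x) := fun P hP => by
  obtain ⟨P', -, h1, h2⟩ := ex_pl (σ := g.toRingEquiv) (s := RingEquiv.refl C) (fun a => by
    rw [RingEquiv.refl_apply, IsScalarTower.algebraMap_apply C K L]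
    exact g.commutes _) P
  have e : down K P' = down K P := Subtype.ext (ValuationSubring.ext _ _ fun a => by
    rw [mem_down, mem_down, h1]
    exact Iff.of_eq (congrArg (· ∈ P.1) (g.commutes a)))
  have h3 := H P' (e ▸ hP)
  exact ⟨(h1 x).1 h3.1, (h2 x h3.1).symm ▸ h3.2⟩

theorem Rv.rl (H : Rv s z A x) : Rl s z x := fun P hP => ⟨(H P hP).1, trivial⟩

theorem Rv.rg (H : Rv s z A (algebraMap K L a)) : Rg u s z a := fun Q hQ => by
  obtain ⟨P, rfl⟩ := exists_over (L := L) Q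
  exact (H P hQ).1

theorem rl_of (H : Rg u s z a) : Rl s z (algebraMap K L a) := fun P hP => ⟨H _ hP, trivial⟩

theorem Rl.add {y : L} (H : Rl s z x) (H' : Rl s z y) : Rl s z (x + y) := fun P hP =>
  ⟨add_mem (H P hP).1 (H' P hP).1, trivial⟩

theorem Rl.sub {y : L} (H : Rl s z x) (H' : Rl s z y) : Rl s z (x - y) := fun P hP =>
  ⟨sub_mem (H P hP).1 (H' P hP).1, trivial⟩

theorem Rl.mul {y : L} (H : Rl s z x) (H' : Rl s z y) : Rl s z (x * y) := fun P hP =>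
  ⟨mul_mem (H P hP).1 (H' P hP).1, trivial⟩

theorem Rv.inv (H : Rv s z (· ≠ 0) x) : Rl s z x⁻¹ := fun P hP =>
  ⟨X0.inv_mem_of_vl (H P hP).1 (H P hP).2, trivial⟩

theorem fixC (g : L ≃ₐ[K] L) (e : C) : g (algebraMap C L e) = algebraMap C L e := by
  rw [IsScalarTower.algebraMap_apply C K L, g.commutes]

namespace Lc

variable (H : Lc s z V γ ν)
include H

theorem ng' (hx : γ x = x) : ν (γ (γ (ν x))) = γ (ν x) := by rw [← H.ng x hx, H.n2]

/-- the trace -/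
theorem tr (hx : γ x = x) : ∃ a : K, algebraMap K L a = x + ν x + γ (ν x) + γ (γ (ν x)) :=
  H.fix _ (by simp only [map_add, hx, H.g3]; ring)
    (by simp only [map_add, H.n2, H.ng x hx, H.ng' hx]; ring)

theorem tr_rg (hx : γ x = x) (hr : Rl s z x) :
    ∃ a : K, algebraMap K L a = x + ν x + γ (ν x) + γ (γ (ν x)) ∧ Rg u s z a := by
  obtain ⟨a, e⟩ := H.tr hx
  exact ⟨a, e, Rv.rg (e ▸ ((hr.add (hr.map ν)).add ((hr.map ν).map γ)).add
    (((hr.map ν).map γ).map γ))⟩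

theorem vg (hh : V h ≤ 1) : V (γ h) ≤ 1 := by simpa using NV.add_le (H.ine h hh).le hh

/-- the conjugates as elements of the valuation ring -/
theorem lift (hp : Pt s z V γ ν x) : ∃ (y₀ y₁ y₂ y₃ : V.ring), x = y₀ ∧ ν x = y₁ ∧ γ (ν x) = y₂ ∧
    γ (γ (ν x)) = y₃ ∧ rh V y₀ = 0 ∧ rh V y₂ = rh V y₁ ∧ rh V y₃ = rh V y₁ := by
  obtain ⟨c, c1, -, c2⟩ := hp.uni
  have h1 : V (ν x) ≤ 1 := by
    have := eq_of_sub c2 ((H.ext c).trans c1)
    rw [nv_pow] at this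
    exact ((pow_eq_one_iff_of_nonneg (V.av.nonneg _) three_ne_zero).1 this).le
  have h2 := rh_eq (w := V) (x := ⟨_, H.vg h1⟩) (y := ⟨_, h1⟩) (H.ine _ h1)
  exact ⟨⟨x, hp.lt.le⟩, ⟨_, h1⟩, ⟨_, H.vg h1⟩, ⟨_, H.vg (H.vg h1)⟩, rfl, rfl, rfl, rfl,
    rh_of_lt hp.lt, h2, (rh_eq (H.ine _ (H.vg h1))).trans h2⟩

/-- trace zero -/
theorem shift (hp : Pt s z V γ ν x) :
    ∃ y, Pt s z V γ ν y ∧ y + ν y + γ (ν y) + γ (γ (ν y)) = 0 := by
  obtain ⟨a, e⟩ := H.tr hp.fx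
  obtain ⟨y₀, y₁, y₂, y₃, e0, e1, e2, e3, r0, r2, r3⟩ := H.lift hp
  obtain ⟨c, c1, c2, c3⟩ := hp.uni
  have n4 := norm_four H.ch
  have f0 : (4 : C) ≠ 0 := by norm_num
  let t := algebraMap K L a / algebraMap C L 4
  have ft : ∀ g : L ≃ₐ[K] L, g t = t := fun g => by rw [map_div₀, g.commutes, fixC]
  have vt : V t < 1 := by
    rw [div_lt f0, n4, e, e3, e2, e1, e0]
    exact lt_of_rh (x := y₀ + y₁ + y₂ + y₃) (by
      simp only [map_add, r0, r2, r3]
      linear_combination rh V y₁ * three H.ch V)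
  refine ⟨x - t, ⟨by rw [map_sub, hp.fx, ft], NV.sub_lt hp.lt vt, fun P hP => ?_, c, c1, c2, ?_⟩, ?_⟩
  · have h0 := hp.reg P hP
    have h1 := hp.reg.map ν P hP
    have h2 := (hp.reg.map ν).map γ P hP
    have h3 := ((hp.reg.map ν).map γ).map γ P hP
    have m := add_mem (add_mem (add_mem h0.1 h1.1) h2.1) h3.1
    have et : t = algebraMap C L 4⁻¹ * algebraMap K L a := by
      rw [map_inv₀, mul_comm]; exact div_eq_mul_inv _ _
    have mt : t ∈ P.1 := et ▸ mul_mem (P.2.1 _) (e ▸ m)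
    refine ⟨sub_mem h0.1 mt, ?_⟩
    have nt : ‖vl P t‖ < 1 := by
      rw [et, vl_mul' (P.2.1 _) (e ▸ m), vl_cst, norm_mul, norm_inv, n4, inv_one, one_mul, e,
        vl_add' (add_mem (add_mem h0.1 h1.1) h2.1) h3.1, vl_add' (add_mem h0.1 h1.1) h2.1,
        vl_add' h0.1 h1.1]
      have ad := fun p q : C => IsUltrametricDist.norm_add_le_max p q
      exact (ad _ _).trans_lt (max_lt ((ad _ _).trans_lt (max_lt ((ad _ _).trans_lt
        (max_lt h0.2 h1.2)) h2.2)) h3.2)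
    rw [vl_sub' h0.1 mt, sub_eq_add_neg]
    exact (IsUltrametricDist.norm_add_le_max _ _).trans_lt (max_lt h0.2 (by rwa [norm_neg]))
  · rw [map_sub ν, ft, e1]
    rw [e1] at c3
    let c' : V.ring := ⟨algebraMap K L c, ((H.ext c).trans c1).le⟩
    have h1 := rh_eq (x := y₁ ^ 3) (y := c') c3
    have h2 := rh_of_lt (x := ⟨t, vt.le⟩) vt
    exact lt_of_rh (x := (y₁ - ⟨t, vt.le⟩) ^ 3 - c') (by
      rw [map_sub, map_pow, map_sub, h2, sub_zero, ← h1, map_pow, sub_self])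
  · simp only [map_sub, ft]
    have : 4 * t = algebraMap K L a := by
      rw [← map_ofNat (algebraMap C L) 4, mul_div_cancel₀ _ (by simpa using f0)]
    linear_combination -this - e

end Lc

variable (s z V γ ν) in
/-- the quartic equation -/
structure Qd (x : L) (b c d : K) : Prop extends Pt s z V γ ν x where
  e1 : x + ν x + γ (ν x) + γ (γ (ν x)) = 0
  e2 : algebraMap K L b = x * ν x + x * γ (ν x) + x * γ (γ (ν x)) + ν x * γ (ν x) +
    ν x * γ (γ (ν x)) + γ (ν x) * γ (γ (ν x))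
  e3 : algebraMap K L c = -(x * ν x * γ (ν x) + x * ν x * γ (γ (ν x)) +
    x * γ (ν x) * γ (γ (ν x)) + ν x * γ (ν x) * γ (γ (ν x)))
  e4 : algebraMap K L d = x * ν x * γ (ν x) * γ (γ (ν x))

theorem Lc.qd (H : Lc s z V γ ν) (hp : Pt s z V γ ν x) : ∃ y b c d, Qd s z V γ ν y b c d := by
  obtain ⟨y, h1, h2⟩ := H.shift hp
  have f := h1.fx
  obtain ⟨b, hb⟩ := H.fix (y * ν y + y * γ (ν y) + y * γ (γ (ν y)) + ν y * γ (ν y) +
    ν y * γ (γ (ν y)) + γ (ν y) * γ (γ (ν y))) (by simp only [map_add, map_mul, f, H.g3]; ring)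
    (by simp only [map_add, map_mul, H.n2, H.ng y f, H.ng' f]; ring)
  obtain ⟨c, hc⟩ := H.fix (-(y * ν y * γ (ν y) + y * ν y * γ (γ (ν y)) +
    y * γ (ν y) * γ (γ (ν y)) + ν y * γ (ν y) * γ (γ (ν y))))
    (by simp only [map_add, map_mul, map_neg, f, H.g3]; ring)
    (by simp only [map_add, map_mul, map_neg, H.n2, H.ng y f, H.ng' f]; ring)
  obtain ⟨d, hd⟩ := H.fix (y * ν y * γ (ν y) * γ (γ (ν y)))
    (by simp only [map_mul, f, H.g3]; ring) (by simp only [map_mul, H.n2, H.ng y f, H.ng' f]; ring)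
  exact ⟨y, b, c, d, h1, h2, hb, hc, hd⟩

namespace Qd

variable (H : Lc s z V γ ν) (q : Qd s z V γ ν x b c d)
include q

theorem fac (t : L) : (t - x) * (t - ν x) * (t - γ (ν x)) * (t - γ (γ (ν x))) =
    t ^ 4 + algebraMap K L b * t ^ 2 + algebraMap K L c * t + algebraMap K L d := by
  rw [q.e2, q.e3, q.e4]
  linear_combination -t ^ 3 * q.e1

theorem rgs : Rg u s z b ∧ Rg u s z c ∧ Rg u s z d := by
  have h0 := q.reg.rl
  have h1 : Rl s z _ := h0.map ν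
  have h2 : Rl s z _ := h1.map γ
  have h3 : Rl s z _ := h2.map γ
  refine ⟨Rv.rg (q.e2 ▸ (((((h0.mul h1).add (h0.mul h2)).add (h0.mul h3)).add (h1.mul h2)).add
    (h1.mul h3)).add (h2.mul h3)), Rv.rg (L := L) (A := fun _ => True) fun P hP => ⟨?_, trivial⟩,
    Rv.rg (q.e4 ▸ ((h0.mul h1).mul h2).mul h3)⟩
  rw [q.e3]
  exact neg_mem (((((h0.mul h1).mul h2).add ((h0.mul h1).mul h3)).add ((h0.mul h2).mul h3)).add
    ((h1.mul h2).mul h3) P hP).1

include H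

theorem nrm : u b < 1 ∧ u d < 1 ∧ V (ν x ^ 3 + algebraMap K L c) < 1 := by
  obtain ⟨y₀, y₁, y₂, y₃, e0, e1, e2, e3, r0, r2, r3⟩ := H.lift q.toPt
  rw [← H.ext, ← H.ext, q.e2, q.e3, q.e4, e3, e2, e1, e0]
  exact ⟨lt_of_rh (x := y₀ * y₁ + y₀ * y₂ + y₀ * y₃ + y₁ * y₂ + y₁ * y₃ + y₂ * y₃) (by
    simp only [map_add, map_mul, r0, r2, r3]
    linear_combination rh V y₁ ^ 2 * three H.ch V), lt_of_rh (x := y₀ * y₁ * y₂ * y₃) (by
    simp only [map_mul, r0, zero_mul]), lt_of_rh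
    (x := y₁ ^ 3 + -(y₀ * y₁ * y₂ + y₀ * y₁ * y₃ + y₀ * y₂ * y₃ + y₁ * y₂ * y₃)) (by
    simp only [map_add, map_mul, map_neg, map_pow, r0, r2, r3]
    ring)⟩

theorem par : Xi.Par s z c := by
  obtain ⟨c₀, c1, c2, c3⟩ := q.uni
  have h1 : u (c - -c₀) < 1 := by
    rw [← H.ext, map_sub, map_neg]
    have := NV.sub_lt (q.nrm H).2.2 c3
    rwa [show ∀ a b c : L, a + b - (a - c) = b - -c from fun a b c => by ring] at this
  have h2 : u (-c₀) = 1 := (NV.map_neg' c₀).trans c1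
  have h3 := eq_of_sub h1 h2
  exact ⟨H.sp, fun h => H.gf.onto _ (u.av.nonneg h), h3, q.rgs.2.1, by
    rw [(red_eq_iff h3.le h2.le).2 h1, NV.red_neg c1.le, ord_neg, c2]⟩

/-- **the roots are distinct at all points of the class** -/
theorem sep : Rv s z (· ≠ 0) ((x - ν x) * (x - γ (ν x)) * (x - γ (γ (ν x)))) := fun P hP => by
  classical
  have h0 := q.reg P hP
  have h1 := q.reg.map ν P hP
  have h2 := (q.reg.map ν).map γ P hP
  have h3 := ((q.reg.map ν).map γ).map γ P hP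
  have pr := q.par H
  refine ⟨mul_mem (mul_mem (sub_mem h0.1 h1.1) (sub_mem h0.1 h2.1)) (sub_mem h0.1 h3.1),
    fun e => ?_⟩
  rw [vl_mul' (mul_mem (sub_mem h0.1 h1.1) (sub_mem h0.1 h2.1)) (sub_mem h0.1 h3.1),
    vl_mul' (sub_mem h0.1 h1.1) (sub_mem h0.1 h2.1), vl_sub' h0.1 h1.1, vl_sub' h0.1 h2.1,
    vl_sub' h0.1 h3.1] at e
  have eq : ∀ (R : Plk C L) (hR : s (down K R) = z) (t : C), (t - vl R x) * (t - vl R (ν x)) *
      (t - vl R (γ (ν x))) * (t - vl R (γ (γ (ν x)))) =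
      t ^ 4 + vl (down K R) b * t ^ 2 + vl (down K R) c * t + vl (down K R) d := fun R hR t => by
    let T : R.1 := ⟨algebraMap C L t, R.2.1 t⟩
    have k : (T - ⟨_, (q.reg R hR).1⟩) * (T - ⟨_, (q.reg.map ν R hR).1⟩) *
        (T - ⟨_, ((q.reg.map ν).map γ R hR).1⟩) * (T - ⟨_, (((q.reg.map ν).map γ).map γ R hR).1⟩) =
        T ^ 4 + ⟨algebraMap K L b, q.rgs.1 _ hR⟩ * T ^ 2 + ⟨algebraMap K L c, q.rgs.2.1 _ hR⟩ * T +
          ⟨algebraMap K L d, q.rgs.2.2 _ hR⟩ := Subtype.ext (q.fac _)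
    have k' := congrArg (ev R) k
    simp only [map_mul, map_sub, map_add, map_pow, ← vl_coe, T, vl_cst] at k'
    rwa [Pts.vl_down _ (q.rgs.1 _ hR), Pts.vl_down _ (q.rgs.2.1 _ hR), Pts.vl_down _ (q.rgs.2.2 _ hR)] at k'
  set α₁ := vl P (ν x)
  set α₂ := vl P (γ (ν x))
  set α₃ := vl P (γ (γ (ν x)))
  set β := vl (down K P) c
  have β1 : ‖β‖ < 1 := pr.lt hP
  let r := fun t : L => (t - algebraMap C L α₁) * (t - algebraMap C L α₂) * (t - algebraMap C L α₃)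
  let n := algebraMap K L (c - algebraMap C K β)
  have n0 : n ≠ 0 := (map_ne_zero _).2 (pr.ne β1)
  have en : n = algebraMap K L c - algebraMap C L β := by
    rw [IsScalarTower.algebraMap_apply C K L, ← map_sub]
  have sm : ∀ e : C, ‖e‖ < 1 → V (algebraMap C L e) < 1 := fun e he => by rwa [V.ext']
  have vn : V n = 1 := by
    refine eq_of_sub (y := algebraMap K L c) ?_ ((H.ext c).trans pr.one)
    rw [en, sub_sub_cancel_left, NV.map_neg']
    exact sm _ β1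
  refine H.glue (-r x * n⁻¹) (by
    simp only [r, n, map_mul, map_neg, map_sub, map_inv₀, fixC, AlgEquiv.commutes, q.fx])
    (fun R hR => ⟨?_, trivial⟩) ?_ ?_
  · have m0 := (q.reg R hR).1
    have mr : r x ∈ R.1 := mul_mem (mul_mem (sub_mem m0 (R.2.1 _)) (sub_mem m0 (R.2.1 _)))
      (sub_mem m0 (R.2.1 _))
    have o : ord R n = if down K R = down K P then 1 else 0 := by
      rw [ord_algebraMap, H.unr R, Nat.cast_one, one_mul, pr.ord_eq hP hR]
    rw [← mem_Mge0, mul_comm, mul_mem_Mge_iff (inv_ne_zero n0), ord_inv, o]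
    refine neg_mem ?_
    split_ifs with k
    · have k1 := eq R hR (vl R x)
      rw [k, ← eq P hP, sub_self, zero_mul, zero_mul, zero_mul] at k1
      have k2 : (vl R x - α₁) * (vl R x - α₂) * (vl R x - α₃) = 0 := by
        by_cases k3 : vl R x - vl P x = 0
        · rwa [sub_eq_zero.1 k3]
        · exact (mul_eq_zero.1 (by linear_combination -k1)).resolve_left k3
      refine (vl_eq_zero_iff mr).1 ?_
      rw [vl_mul' (mul_mem (sub_mem m0 (R.2.1 _)) (sub_mem m0 (R.2.1 _))) (sub_mem m0 (R.2.1 _)),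
        vl_mul' (sub_mem m0 (R.2.1 _)) (sub_mem m0 (R.2.1 _)), vl_sub' m0 (R.2.1 _),
        vl_sub' m0 (R.2.1 _), vl_sub' m0 (R.2.1 _), vl_cst, vl_cst, vl_cst, k2]
    · exact mem_Mge0.2 mr
  · rw [X0.nv_mul, X0.nv_inv, vn, inv_one, mul_one, NV.map_neg', X0.nv_mul]
    exact mul_lt_one_of_nonneg_of_lt_one_right (NV.mul_le_one (NV.sub_lt q.lt (sm _ h1.2)).le
      (NV.sub_lt q.lt (sm _ h2.2)).le) (V.av.nonneg _) (NV.sub_lt q.lt (sm _ h3.2))
  · obtain ⟨y₀, y₁, y₂, y₃, e0, e1, -⟩ := H.lift q.toPt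
    have k : ν (-r x * n⁻¹) - 1 = -(r (ν x) + n) * n⁻¹ := by
      simp only [r, n, map_mul, map_neg, map_sub, map_inv₀, fixC, AlgEquiv.commutes]
      rw [← map_sub]
      linear_combination (mul_inv_cancel₀ n0 : n * n⁻¹ = 1)
    rw [k, X0.nv_mul, X0.nv_inv, vn, inv_one, mul_one, NV.map_neg', en]
    have k1 := (q.nrm H).2.2
    rw [e1] at k1 ⊢
    let c' : V.ring := ⟨algebraMap K L c, ((H.ext c).trans pr.one).le⟩
    have k2 := rh_of_lt (x := y₁ ^ 3 + c') k1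
    let ct := fun (e : C) (he : ‖e‖ < 1) => (⟨algebraMap C L e, (sm e he).le⟩ : V.ring)
    have k3 : ∀ e he, rh V (ct e he) = 0 := fun e he => rh_of_lt (sm e he)
    exact lt_of_rh (x := (y₁ - ct _ h1.2) * (y₁ - ct _ h2.2) * (y₁ - ct _ h3.2) + (c' - ct _ β1)) (by
      simp only [map_add, map_mul, map_sub, map_pow, k3] at k2 ⊢
      linear_combination k2)

end Qd

end Vale.Agent.P022K.TH.Lo
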