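import Vale.Agent.P022K.TH.LocB

/-!
# P022K, block TH: the small disc at a node
-/

set_option autoImplicit false
set_option linter.all false

open Vale.Agent.P019P P025H746 P025H492 IntermediateField

noncomputable section

namespace Vale.Agent.P022K.TH.Lo

open Vale.Agent.P027M Vale.Agent.P027M.I Vale.Agent.P022K.FI

variable {C K L : Type} [NontriviallyNormedField C] [IsUltrametricDist C] [CompleteSpace C]
  [IsAlgClosed C] [CharZero C] [Field K] [Algebra C K] [CFF C K] [Field L] [Algebra C L] [CFF C L]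
  [Algebra K L] [IsScalarTower C K L] [FiniteDimensional K L] {u : NV C K} [CFF (kC C) (kap u)]
  {s : Plk C K → Plk (kC C) (kap u)} {z : Plk (kC C) (kap u)}
  {V : NV C L} {γ ν : L ≃ₐ[K] L} {x h : L} {A : C → Prop} {a b c d : K}

theorem Rv.mul {y : L} (H : Rv s z (· ≠ 0) x) (H' : Rv s z (· ≠ 0) y) : Rv s z (· ≠ 0) (x * y) :=
  fun P hP => ⟨mul_mem (H P hP).1 (H' P hP).1, by
    rw [vl_mul' (H P hP).1 (H' P hP).1]
    exact mul_ne_zero (H P hP).2 (H' P hP).2⟩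

theorem rg_div (H : Rg u s z a) (e : C) : Rg u s z (a / algebraMap C K e) := by
  rw [div_eq_mul_inv, ← map_inv₀]
  exact Xi.rg_mul H (Xi.rg_const _)

theorem rh_cst {F : Type} [Field F] [Algebra C F] (w : NV C F) {e : C} (he : ‖e‖ ≤ 1) :
    ∃ E : w.ring, (E : F) = algebraMap C F e ∧ rh w E = algebraMap (kC C) (kap w) (cred e) :=
  ⟨⟨_, (w.ext' e).trans_le he⟩, rfl, (red_coe _).symm.trans (NV.red_algebraMap he)⟩

namespace Qd

variable (H : Lc s z V γ ν) (q : Qd s z V γ ν x b c d)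
include q

theorem del (t : L) (ht : t = x ∨ t = ν x ∨ t = γ (ν x) ∨ t = γ (γ (ν x))) :
    t ^ 4 + algebraMap K L b * t ^ 2 + algebraMap K L c * t + algebraMap K L d = 0 := by
  rw [← q.fac]
  rcases ht with rfl | rfl | rfl | rfl <;> simp only [sub_self, mul_zero, zero_mul]

theorem der : (x - ν x) * (x - γ (ν x)) * (x - γ (γ (ν x))) =
    4 * x ^ 3 + 2 * algebraMap K L b * x + algebraMap K L c := by
  rw [q.e2, q.e3]
  linear_combination -3 * x ^ 2 * q.e1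

include H

/-- the constant term is dominant -/
theorem disc : ∃ M : C, M ≠ 0 ∧ ‖M‖ < 1 ∧ u b ≤ ‖M‖ ∧ u d ≤ ‖M‖ ∧
    vl z (u.red (d / algebraMap C K M)) ≠ 0 := by
  obtain ⟨n1, n2, -⟩ := q.nrm H
  have pr := q.par H
  obtain ⟨M, hM⟩ := H.gf.onto (max (max (u b) (u d)) ‖(3 : C)‖) (le_max_of_le_right (norm_nonneg _))
  have m3 : ‖(3 : C)‖ ≤ ‖M‖ := hM ▸ le_max_right _ _
  have m0 : M ≠ 0 := norm_pos_iff.1 ((norm_pos_iff.2 (by norm_num)).trans_le m3)
  have m1 : ‖M‖ < 1 := hM ▸ max_lt (max_lt n1 n2) H.ch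
  have mb : u b ≤ ‖M‖ := hM ▸ le_max_of_le_left (le_max_left _ _)
  have md : u d ≤ ‖M‖ := hM ▸ le_max_of_le_left (le_max_right _ _)
  refine ⟨M, m0, m1, mb, md, fun e => ?_⟩
  have M0 : algebraMap C K M ≠ 0 := (map_ne_zero _).2 m0
  let B : u.ring := ⟨b / algebraMap C K M, (div_le m0).2 mb⟩
  let D : u.ring := ⟨d / algebraMap C K M, (div_le m0).2 md⟩
  let E : u.ring := ⟨algebraMap C K 3 / algebraMap C K M, (div_le m0).2 ((u.ext' 3).trans_le m3)⟩
  let N : u.ring := ⟨algebraMap C K M, (u.ext' M).trans_le m1.le⟩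
  let T : u.ring := ⟨c, pr.one.le⟩
  have hN : rh u N = 0 := rh_of_lt ((u.ext' M).trans_lt m1)
  let W : u.ring := 256 * D ^ 3 - 128 * N * B ^ 2 * D ^ 2 + 16 * N * E ^ 2 * B * T ^ 2 * D -
    E ^ 3 * T ^ 4 + 16 * N ^ 2 * B ^ 4 * D - 4 * B ^ 3 * T ^ 2
  have t3 := three H.ch u
  have hW : rh u W = rh u D ^ 3 - rh u T * (rh u E * rh u T) ^ 3 - rh u T ^ 2 * rh u B ^ 3 := by
    simp only [W, map_sub, map_add, map_mul, map_pow, map_ofNat, hN]
    linear_combination (85 * rh u D ^ 3 - rh u B ^ 3 * rh u T ^ 2) * t3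
  have oT : ord z (rh u T) = 1 := (red_coe T) ▸ pr.uni
  have T0 : rh u T ≠ 0 := fun e => by rw [e, ord_zero] at oT; omega
  have W0 : rh u W ≠ 0 := fun k => by
    obtain ⟨k1, k2, k3⟩ := ind3 (a := rh u D) (b := -(rh u E * rh u T)) (e := -rh u B) oT
      (by rw [← k, hW]; ring)
    have l1 := (div_lt m0).1 (lt_of_rh k1)
    have l2 := (div_lt m0).1 (lt_of_rh ((mul_eq_zero.1 (neg_eq_zero.1 k2)).resolve_right T0))
    have l3 := (div_lt m0).1 (lt_of_rh (neg_eq_zero.1 k3))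
    rw [u.ext'] at l2
    exact (hM.trans_lt (max_lt (max_lt l3 l1) l2)).false
  have W1 : u (W : K) = 1 := X0.nv_one_of W.2 ((red_coe W).symm ▸ W0)
  have f := q.fx
  let δ := (x - ν x) * (x - γ (ν x)) * (x - γ (γ (ν x)))
  have eW : algebraMap K L (W : K) = δ * ν δ * γ (ν δ) * γ (γ (ν δ)) * algebraMap C L (M ^ 3)⁻¹ := by
    have e0 : (W : K) = (256 * d ^ 3 - 128 * b ^ 2 * d ^ 2 + 144 * b * c ^ 2 * d - 27 * c ^ 4 +
        16 * b ^ 4 * d - 4 * b ^ 3 * c ^ 2) * algebraMap C K (M ^ 3)⁻¹ := by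
      change 256 * (d / _) ^ 3 - 128 * algebraMap C K M * (b / _) ^ 2 * (d / _) ^ 2 +
        16 * algebraMap C K M * (algebraMap C K 3 / _) ^ 2 * (b / _) * c ^ 2 * (d / _) -
        (algebraMap C K 3 / _) ^ 3 * c ^ 4 + 16 * algebraMap C K M ^ 2 * (b / _) ^ 4 * (d / _) -
        4 * (b / _) ^ 3 * c ^ 2 = _
      rw [map_inv₀, map_pow, map_ofNat]
      field_simp
      ring
    rw [e0, map_mul, ← IsScalarTower.algebraMap_apply]
    congr 1
    simp only [δ, map_mul, map_sub, map_add, map_pow, map_ofNat, q.e2, q.e3, q.e4, H.n2, H.g3, f,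
      H.ng x f, H.ng' f]
    have e1 : x = -(ν x + γ (ν x) + γ (γ (ν x))) := by linear_combination q.e1
    generalize ν x = y₁ at e1 ⊢
    generalize γ y₁ = y₂ at e1 ⊢
    generalize γ y₂ = y₃ at e1 ⊢
    subst e1
    ring
  have un : Rv s z (· ≠ 0) (algebraMap K L (W : K)) := by
    have s0 := q.sep H
    rw [eW]
    exact (((s0.mul (s0.map ν)).mul ((s0.map ν).map γ)).mul (((s0.map ν).map γ).map γ)).mul
      fun P _ => ⟨P.2.1 _, by rw [vl_cst]; exact inv_ne_zero (pow_ne_zero _ m0)⟩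
  have wi : u (W : K)⁻¹ = 1 := by rw [X0.nv_inv, W1, inv_one]
  have i1 := H.sp.mem wi.le (Rv.rg (map_inv₀ (algebraMap K L) _ ▸ un.inv))
  rw [NV.red_inv W1, red_coe] at i1
  have mem : ∀ y : u.ring, Rg u s z y → rh u y ∈ z.1 := fun y hy => red_coe y ▸ H.sp.mem y.2 hy
  have mD := mem D (rg_div q.rgs.2.2 M)
  have mB := mem B (rg_div q.rgs.1 M)
  have mE := mem E (rg_div (Xi.rg_const 3) M)
  have mT := mem T pr.rg
  have zD : rh u D ∈ Mge z 1 := (vl_eq_zero_iff mD).1 (red_coe D ▸ e)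
  have zT : rh u T ∈ Mge z 1 := Or.inr oT.ge
  have mu : ∀ {p r : kap u}, p ∈ Mge z 1 → r ∈ z.1 → p * r ∈ Mge z 1 := fun h1 h2 => by
    simpa using mul_mem_Mge h1 (mem_Mge0.2 h2)
  have zW : rh u W ∈ Mge z 1 := by
    rw [hW, pow_succ' _ 2, pow_two (rh u T), mul_assoc]
    exact sub_mem (sub_mem (mu zD (pow_mem mD 2)) (mu zT (pow_mem (mul_mem mE mT) 3)))
      (mu zT (mul_mem mT (pow_mem mB 3)))
  exact (mem_Mge_one_iff.1 zW).elim W0 fun k => k i1

end Qd

variable (s z) in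
/-- a norm over the boundary of the small disc -/
structure Om (b c d : K) (ω : NV C L) (l d₀ : C) : Prop where
  l0 : l ≠ 0
  l1 : ‖l‖ < 1
  d1 : ‖d₀‖ = 1
  cen : Xi.Cen s z (ω.comap K)
  og : (ω.comap K).OverG (c / algebraMap C K (l ^ 3))
  top : (kC C)⟮(ω.comap K).red (c / algebraMap C K (l ^ 3))⟯ = ⊤
  hb : ω (algebraMap K L b) < ‖l‖ ^ 2
  hd : ω (algebraMap K L d - algebraMap C L (d₀ * l ^ 4)) < ‖l‖ ^ 4

namespace Qd

variable (H : Lc s z V γ ν) (q : Qd s z V γ ν x b c d)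
include H q

theorem om : ∃ (ω : NV C L) (l d₀ : C), Om s z b c d ω l d₀ := by
  obtain ⟨M, m0, m1, mb, md, h⟩ := q.disc H
  obtain ⟨l, rfl⟩ := IsAlgClosed.exists_pow_nat_eq M (n := 4) (by norm_num)
  have l0 : l ≠ 0 := fun e => m0 (by rw [e]; norm_num)
  have l1 : ‖l‖ < 1 := by
    rw [norm_pow] at m1
    exact lt_of_pow_lt_pow_left₀ 4 zero_le_one (by rwa [one_pow])
  have lp := norm_pos_iff.2 l0
  obtain ⟨ξ, x1, x2, x3, x4⟩ := (q.par H).xi (pow_ne_zero 3 l0)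
    (by rw [norm_pow]; exact pow_lt_one₀ lp.le l1 three_ne_zero)
  obtain ⟨ω, hω⟩ := DecP.exists_ext' (L := L) ξ fun y => H.gf.onto _ (ξ.av.nonneg y)
  obtain rfl := nvExt_iff.1 hω
  obtain ⟨d₀, d1, d2⟩ := cred_surj (vl z (u.red (d / algebraMap C K (l ^ 4))))
  have h1 := x1 _ ((div_le m0).2 md) (rg_div q.rgs.2.2 _) d₀ d1 d2
  refine ⟨ω, l, d₀, l0, l1, le_antisymm d1 (not_lt.1 fun k => h (d2 ▸ (cred_eq_zero d1).2 k)), x1,
    G.overG_of_transc ((div_le (pow_ne_zero 3 l0)).2 x2.le) x3, x4, ?_, ?_⟩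
  · refine (x1.le' mb m0 q.rgs.1).trans_lt ?_
    rw [norm_pow]
    exact pow_lt_pow_right_of_lt_one₀ lp l1 (by norm_num)
  · rw [← norm_pow, ← div_lt m0, sub_div, map_mul, mul_div_cancel_right₀ _ ((map_ne_zero _).2 m0)]
    rwa [NV.comap_apply, map_sub, map_div₀, ← IsScalarTower.algebraMap_apply,
      ← IsScalarTower.algebraMap_apply] at h1

variable {ω : NV C L} {l d₀ : C} (o : Om s z b c d ω l d₀)
include o

omit H in
theorem root {t : L} (ht : t = x ∨ t = ν x ∨ t = γ (ν x) ∨ t = γ (γ (ν x))) : ω t ≤ ‖l‖ := by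
  have L0 : algebraMap C L l ≠ 0 := (map_ne_zero _).2 o.l0
  rw [← div_le o.l0]
  refine root_le (b := algebraMap K L b / algebraMap C L (l ^ 2))
    (c := algebraMap K L c / algebraMap C L (l ^ 3)) (d := algebraMap K L d / algebraMap C L (l ^ 4))
    ((div_le (pow_ne_zero _ o.l0)).2 (norm_pow l 2 ▸ o.hb.le)) ?_
    ((div_le (pow_ne_zero _ o.l0)).2 ?_) ?_
  · have := o.og.apply_T.le
    rwa [NV.comap_apply, map_div₀, ← IsScalarTower.algebraMap_apply] at this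
  · refine (eq_of_sub (norm_pow l 4 ▸ o.hd) ?_).le
    rw [ω.ext', norm_mul, o.d1, one_mul]
  · simp only [map_pow]
    field_simp
    linear_combination q.del t ht

/-- **functions which vanish in the reduction and have trace zero are small** -/
theorem small (hf : γ h = h) (hr : Rl s z h) (h0 : V h < 1) (h1 : V (ν h) < 1)
    (tr : h + ν h + γ (ν h) + γ (γ (ν h)) = 0) :
    ω h < ‖l‖ ∧ ω (ν h) < ‖l‖ ∧ ω (γ (ν h)) < ‖l‖ ∧ ω (γ (γ (ν h))) < ‖l‖ := by
  have f := q.fx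
  have s0 := q.sep H
  rw [q.der] at s0
  obtain ⟨δ, eδ⟩ : ∃ δ, δ = 4 * x ^ 3 + 2 * algebraMap K L b * x + algebraMap K L c := ⟨_, rfl⟩
  rw [← eδ] at s0
  have δ0 : δ ≠ 0 := by
    obtain ⟨Q, hQ⟩ := H.sp.surj z
    obtain ⟨P, rfl⟩ := exists_over (L := L) Q
    exact X0.ne_zero_of_vl (s0 P hQ).2
  obtain ⟨w, ew⟩ : ∃ w, w = h * δ⁻¹ := ⟨_, rfl⟩
  have eh : h = w * δ := by rw [ew, inv_mul_cancel_right₀ δ0]
  have fw : γ w = w := by
    rw [ew, eδ]
    simp only [map_mul, map_inv₀, map_add, map_pow, map_ofNat, AlgEquiv.commutes, hf, f]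
  have rw' : Rl s z w := ew ▸ hr.mul s0.inv
  have rx := q.reg.rl
  have rb := rl_of (L := L) q.rgs.1
  have rc := rl_of (L := L) q.rgs.2.1
  obtain ⟨a₃, e3, g3⟩ := H.tr_rg fw rw'
  obtain ⟨a₂, e2, g2⟩ := H.tr_rg (x := w * x) (by rw [map_mul, fw, f]) (rw'.mul rx)
  obtain ⟨a₁, e1, g1⟩ := H.tr_rg (x := w * (x * x + algebraMap K L b))
    (by simp only [map_mul, map_add, fw, f, AlgEquiv.commutes]) (rw'.mul ((rx.mul rx).add rb))
  obtain ⟨a₀, e0, -⟩ := H.tr_rg (x := w * (x * x * x + algebraMap K L b * x + algebraMap K L c))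
    (by simp only [map_mul, map_add, fw, f, AlgEquiv.commutes])
    (rw'.mul ((((rx.mul rx).mul rx).add (rb.mul rx)).add rc))
  have k0 : h = algebraMap K L a₀ + algebraMap K L a₁ * x + algebraMap K L a₂ * x ^ 2 +
      algebraMap K L a₃ * x ^ 3 := by
    rw [eh, e0, e1, e2, e3, eδ]
    simp only [map_mul, map_add, AlgEquiv.commutes]
    rw [q.e2, q.e3]
    have e1 : x = -(ν x + γ (ν x) + γ (γ (ν x))) := by linear_combination q.e1
    generalize ν x = y₁ at e1 ⊢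
    generalize γ y₁ = y₂ at e1 ⊢
    generalize γ y₂ = y₃ at e1 ⊢
    subst e1
    ring
  have k : ∀ g : L ≃ₐ[K] L, g h = algebraMap K L a₀ + algebraMap K L a₁ * g x +
      algebraMap K L a₂ * g x ^ 2 + algebraMap K L a₃ * g x ^ 3 := fun g => by
    rw [k0]
    simp only [map_mul, map_add, map_pow, AlgEquiv.commutes]
  have lt : u a₁ < 1 ∧ u a₂ < 1 ∧ u a₃ < 1 := by
    obtain ⟨N, hN⟩ := H.gf.onto (max (max (max (u a₀) (u a₁)) (u a₂)) (u a₃))
      (le_max_of_le_right (u.av.nonneg _))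
    have b3 : u a₃ ≤ ‖N‖ := hN ▸ le_max_right _ _
    have b2 : u a₂ ≤ ‖N‖ := hN ▸ le_max_of_le_left (le_max_right _ _)
    have b1 : u a₁ ≤ ‖N‖ := hN ▸ le_max_of_le_left (le_max_of_le_left (le_max_right _ _))
    have b0 : u a₀ ≤ ‖N‖ := hN ▸ le_max_of_le_left (le_max_of_le_left (le_max_left _ _))
    rcases lt_or_ge ‖N‖ 1 with n1 | n1
    · exact ⟨b1.trans_lt n1, b2.trans_lt n1, b3.trans_lt n1⟩
    exfalso
    have n0 : N ≠ 0 := norm_pos_iff.1 (zero_lt_one.trans_le n1)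
    haveI : NVExt u V := ⟨H.ext⟩
    obtain ⟨y₀, y₁, y₂, y₃, f0, f1, -, -, r0, -⟩ := H.lift q.toPt
    have pr := q.par H
    let A := fun (a : K) (ha : u a ≤ ‖N‖) => (⟨algebraMap K L (a / algebraMap C K N),
      (H.ext _).trans_le ((div_le n0).2 ha)⟩ : V.ring)
    have hA : ∀ a ha, rh V (A a ha) =
        algebraMap (kap u) (kap V) (u.red (a / algebraMap C K N)) := fun a ha =>
      (red_coe _).symm.trans (red_algebraMap' ((div_le n0).2 ha))
    have z0 : ∀ (y : V.ring) (t : L), V t < 1 → t = algebraMap K L a₀ + algebraMap K L a₁ * y +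
        algebraMap K L a₂ * y ^ 2 + algebraMap K L a₃ * y ^ 3 → rh V (A _ b0) + rh V (A _ b1) *
        rh V y + rh V (A _ b2) * rh V y ^ 2 + rh V (A _ b3) * rh V y ^ 3 = 0 := fun y t ht e => by
      have : V ((A _ b0 + A _ b1 * y + A _ b2 * y ^ 2 + A _ b3 * y ^ 3 : V.ring) : L) < 1 := by
        have e' : ((A _ b0 + A _ b1 * y + A _ b2 * y ^ 2 + A _ b3 * y ^ 3 : V.ring) : L) =
            t / algebraMap C L N := by
          change algebraMap K L _ + algebraMap K L _ * (y : L) + algebraMap K L _ * (y : L) ^ 2 +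
            algebraMap K L _ * (y : L) ^ 3 = _
          simp only [map_div₀, ← IsScalarTower.algebraMap_apply, e]
          ring
        rw [e', div_lt n0]
        exact ht.trans_le n1
      simpa only [map_add, map_mul, map_pow] using rh_of_lt this
    have z1 := z0 y₀ h h0 (f0 ▸ k0)
    have z2 := z0 y₁ _ h1 (f1 ▸ k ν)
    rw [r0] at z1
    have z3 : rh V (A _ b0) = 0 := by linear_combination z1
    let T : V.ring := ⟨algebraMap K L c, ((H.ext c).trans pr.one).le⟩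
    have hT : rh V T = algebraMap (kap u) (kap V) (u.red c) :=
      (red_coe _).symm.trans (red_algebraMap' pr.one.le)
    have z4 : rh V y₁ ^ 3 + rh V T = 0 := by
      have := (q.nrm H).2.2
      rw [f1] at this
      have k := rh_of_lt (x := y₁ ^ 3 + T) this
      rwa [(rh V).map_add, (rh V).map_pow] at k
    have y0 : rh V y₁ ≠ 0 := fun e => NV.red_ne_zero pr.one
      ((map_eq_zero (algebraMap (kap u) (kap V))).1 (by rw [← hT]; simpa [e] using z4))
    have z5 : rh V (A _ b1) + rh V (A _ b2) * rh V y₁ + rh V (A _ b3) * rh V y₁ ^ 2 = 0 :=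
      (mul_eq_zero.1 (by linear_combination z2 - z3)).resolve_right y0
    obtain ⟨k1, k2, k3⟩ := ind3 (a := u.red (a₁ / algebraMap C K N))
      (b := -u.red (a₂ / algebraMap C K N)) (e := u.red (a₃ / algebraMap C K N)) pr.uni
      ((algebraMap (kap u) (kap V)).injective (by
        simp only [map_add, map_mul, map_pow, map_neg, map_zero, ← hA _ b1, ← hA _ b2, ← hA _ b3,
          ← hT]
        have e : rh V T = -rh V y₁ ^ 3 := by linear_combination z4
        have e' : rh V (A _ b1) = -(rh V (A _ b2) * rh V y₁ + rh V (A _ b3) * rh V y₁ ^ 2) := by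
          linear_combination z5
        rw [e, e']
        linear_combination -(rh V (A _ b2) * rh V y₁ * (rh V (A _ b3) * rh V y₁ ^ 2) *
          (rh V (A _ b2) * rh V y₁ + rh V (A _ b3) * rh V y₁ ^ 2)) * three H.ch V))
    have lt : ∀ a, u a ≤ ‖N‖ → u.red (a / algebraMap C K N) = 0 → u a < ‖N‖ := fun a h1 h2 =>
      (div_lt n0).1 ((NV.red_eq_zero ((div_le n0).2 h1)).1 h2)
    rw [hA _ b0, map_eq_zero] at z3
    exact (hN.trans_lt (max_lt (max_lt (max_lt (lt _ b0 z3) (lt _ b1 k1))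
      (lt _ b2 (neg_eq_zero.1 k2))) (lt _ b3 k3))).false
  have lp := norm_pos_iff.2 o.l0
  have om : ∀ a, Rg u s z a → u a < 1 → ω (algebraMap K L a) < 1 := fun a h1 h2 => by
    have := o.cen a h2.le h1 0 (by simp) (by
      rw [NV.red_of_lt h2, vl_zero', cred_eq_zero (by simp)]; simp)
    rwa [map_zero, sub_zero] at this
  have sm : ∀ t, (t = x ∨ t = ν x ∨ t = γ (ν x) ∨ t = γ (γ (ν x))) → ω (algebraMap K L a₁ * t +
      algebraMap K L a₂ * t ^ 2 + algebraMap K L a₃ * t ^ 3) < ‖l‖ := fun t ht => by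
    have h1 := q.root o ht
    have h2 : ω t ≤ 1 := h1.trans o.l1.le
    rw [show ∀ p q r t : L, p * t + q * t ^ 2 + r * t ^ 3 = (p + (q + r * t) * t) * t from
      fun p q r t => by ring, X0.nv_mul]
    have h3 := NV.add_lt (om _ g1 lt.1) (Side.mul_lt (NV.add_lt (om _ g2 lt.2.1)
      (Side.mul_lt (om _ g3 lt.2.2) h2)) h2)
    exact (mul_le_mul_of_nonneg_left h1 (ω.av.nonneg _)).trans_lt (mul_lt_of_lt_one_left lp h3)
  have s0 := sm _ (Or.inl rfl)
  have s1 := sm _ (Or.inr (Or.inl rfl))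
  have s2 := sm _ (Or.inr (Or.inr (Or.inl rfl)))
  have s3 := sm _ (Or.inr (Or.inr (Or.inr rfl)))
  have k1 := k ν
  have k2 : γ (ν h) = _ := k (γ * ν)
  have k3 : γ (γ (ν h)) = _ := k (γ * γ * ν)
  simp only [AlgEquiv.mul_apply] at k2 k3
  have w0 : ω (algebraMap K L a₀) < ‖l‖ := by
    have h1 := NV.add_lt (NV.add_lt (NV.add_lt s0 s1) s2) s3
    have h2 : ω (algebraMap C L 4 * -algebraMap K L a₀) < ‖l‖ := by
      convert h1 using 2
      rw [map_ofNat]
      linear_combination k0 + k1 + k2 + k3 - tr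
    rwa [X0.nv_mul, ω.ext', norm_four H.ch, one_mul, NV.map_neg'] at h2
  have fin : ∀ p q r t : L, ω p < ‖l‖ → ω (q + r + t) < ‖l‖ → ω (p + q + r + t) < ‖l‖ :=
    fun p q r t h1 h2 => by rw [add_assoc, add_assoc, ← add_assoc q]; exact NV.add_lt h1 h2
  exact ⟨k0 ▸ fin _ _ _ _ w0 s0, k1 ▸ fin _ _ _ _ w0 s1, k2 ▸ fin _ _ _ _ w0 s2,
    k3 ▸ fin _ _ _ _ w0 s3⟩

end Qd

end Vale.Agent.P022K.TH.Lo
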