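import Vale.Agent.P022K.TH.LocC
import Vale.Agent.P022K.TH.Act
import Vale.Agent.P022K.TH.Deg
import Vale.Agent.P022K.WB.Nv6

/-!
# P022K, block TH: inertia fixes the boundary of the small disc
-/

set_option autoImplicit false
set_option linter.all false

open Vale.Agent.P019P P025H746 P025H492 IntermediateField

noncomputable section

namespace Vale.Agent.P022K.TH.Lo

open Vale.Agent.P027M Vale.Agent.P027M.I Vale.Agent.P022K.FI

section norm

variable {C F : Type} [NontriviallyNormedField C] [IsUltrametricDist C] [IsAlgClosed C] [Field F]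
  [Algebra C F] {w : NV C F}

theorem og_of {T T' : F} {m : C} (h : w.OverG T) (hm : ‖m‖ = 1)
    (e : w (T' - algebraMap C F m * T) < 1) : w.OverG T' := by
  have h0 : w (algebraMap C F m) ≤ 1 := by rw [w.ext', hm]
  have h1 := NV.mul_le_one h0 h.apply_T.le
  have h2 : w T' ≤ 1 := by simpa using NV.add_le e.le h1
  refine G.overG_of_transc h2 fun h3 => h.transc_red ?_
  have m0 : cred m ≠ 0 := fun k => ((cred_eq_zero hm.le).1 k).ne hm
  rw [(red_eq_iff h2 h1).2 e, NV.red_mul h0 h.apply_T.le, NV.red_algebraMap hm.le] at h3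
  have := (isAlgebraic_algebraMap (cred m)⁻¹).mul h3
  rwa [← mul_assoc, ← map_mul, inv_mul_cancel₀ m0, map_one, one_mul] at this

theorem two {r t : ℝ} (r0 : 0 < r) (t0 : 0 < t) {a b a' b' : F} (ha : w a ≤ r) (hb : w b ≤ t)
    (h1 : w (a' - a) < r) (h2 : w (b' - b) < t) : w (a * b) ≤ r * t ∧ w (a' * b' - a * b) < r * t := by
  have h3 : w b' ≤ t := by simpa using NV.add_le h2.le hb
  refine ⟨by rw [X0.nv_mul]; exact mul_le_mul ha hb (w.av.nonneg _) r0.le, ?_⟩
  rw [show a' * b' - a * b = (a' - a) * b' + a * (b' - b) by ring]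
  refine NV.add_lt ?_ ?_ <;> rw [X0.nv_mul]
  · exact (mul_le_mul_of_nonneg_left h3 (w.av.nonneg _)).trans_lt (mul_lt_mul_of_pos_right h1 t0)
  · exact (mul_le_mul_of_nonneg_right ha (w.av.nonneg _)).trans_lt (mul_lt_mul_of_pos_left h2 r0)

theorem tri {r : ℝ} (r0 : 0 < r) {a b c a' b' c' : F} (ha : w a ≤ r) (hb : w b ≤ r) (hc : w c ≤ r)
    (h1 : w (a' - a) < r) (h2 : w (b' - b) < r) (h3 : w (c' - c) < r) :
    w (a' * b' * c' - a * b * c) < r ^ 3 := by
  have k := two r0 r0 ha hb h1 h2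
  rw [pow_three']
  exact (two (mul_pos r0 r0) r0 k.1 hc k.2 h3).2

end norm

section sep

variable {C K : Type} [NontriviallyNormedField C] [IsUltrametricDist C] [CompleteSpace C]
  [IsAlgClosed C] [Field K] [Algebra C K] [CFF C K] {u ξ : NV C K} [CFF (kC C) (kap u)]
  {s : Plk C K → Plk (kC C) (kap u)} {z z' : Plk (kC C) (kap u)} {T : K}

/-- the centre is unique -/
theorem cen_eq (hs : Gs.IsSp u s) (h : Gs.Gd u T) (h1 : Xi.Cen s z ξ) (h2 : Xi.Cen s z' ξ) :
    z = z' := by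
  classical
  by_contra ne
  obtain ⟨P, hP⟩ := Gs.exists_notMem {z, z'}
  obtain ⟨Q', rfl⟩ := hs.surj P
  obtain ⟨Q, rfl⟩ := hs.surj z
  rw [Finset.mem_insert, Finset.mem_singleton, not_or] at hP
  set D : Plk C K →₀ ℤ := Finsupp.single Q' (2 * (gen C K : ℤ) + 1) + Finsupp.single Q (-1) with hD
  have hd : dg D = 2 * (gen C K : ℤ) := by rw [hD, map_add, dg_sgl, dg_sgl]; ring
  obtain ⟨y, y0, y1, y2⟩ := exists_exact (D := D.mapDomain s) z' (by rw [Gs.dg_map, hd, h.gen_eq])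
  obtain ⟨x, x1, x2, rfl⟩ := hs.lift h (D := D) (by omega) (Or.inr y1)
  have rg : ∀ t, s Q' ≠ t → Rg u s t x := fun t ht R hR => by
    have := mem_LL_iff.1 x1 R
    rw [hD, Finsupp.add_apply, Finsupp.single_eq_of_ne (fun e : R = Q' => ht (e ▸ hR)), zero_add,
      Finsupp.single_apply] at this
    refine mem_Mge0.1 (this.imp_right fun k => le_trans ?_ k)
    split_ifs <;> simp
  have y3 := y1 (s Q)
  rw [hD, Finsupp.mapDomain_add, Finsupp.mapDomain_single, Finsupp.mapDomain_single,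
    Finsupp.add_apply, Finsupp.single_eq_of_ne (Ne.symm hP.1)] at y3
  rw [hD, Finsupp.mapDomain_add, Finsupp.mapDomain_single, Finsupp.mapDomain_single,
    Finsupp.add_apply, Finsupp.single_eq_of_ne (Ne.symm hP.2),
    Finsupp.single_eq_of_ne (Ne.symm ne)] at y2
  have v0 : vl (s Q) (u.red x) = 0 := (vl_eq_zero_iff (hs.mem x2 (rg _ hP.1))).2
    (Or.inr (by simpa using y3))
  obtain ⟨e, he, e2⟩ := cred_surj (vl z' (u.red x))
  have k1 := h1 x x2 (rg _ hP.1) 0 (by simp) (by rw [v0, cred_eq_zero (by simp)]; simp)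
  have k2 := NV.sub_lt k1 (h2 x x2 (rg _ hP.2) e he e2)
  rw [map_zero, sub_zero, sub_sub_cancel, ξ.ext', ← cred_eq_zero he, e2,
    vl_eq_zero_iff (hs.mem x2 (rg _ hP.2))] at k2
  exact k2.elim y0 fun k => by simp [y2] at k

end sep

variable {C K K' K₀ L : Type} [NontriviallyNormedField C] [IsUltrametricDist C] [CompleteSpace C]
  [IsAlgClosed C] [CharZero C] [Field K] [Algebra C K] [CFF C K] [Field K'] [Algebra C K']
  [CFF C K'] [Field K₀] [Algebra C K₀] [CFF C K₀] [Algebra K K₀] [IsScalarTower C K K₀]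
  [FiniteDimensional K K₀] [Field L] [Algebra C L] [CFF C L] [Algebra K L] [Algebra K₀ L]
  [IsScalarTower C K L] [IsScalarTower C K₀ L] [IsScalarTower K K₀ L] [FiniteDimensional K L]
  {p' : K' →ₐ[C] K₀} {u : NV C K} {u' : NV C K'} {v v' : NV C K₀} {V : NV C L} {γ ν : L ≃ₐ[K] L}
  {S : L ≃+* L} {σ : C ≃+* C} {ε : ℤ} (G : Geo p' u u' v v' V γ ν) (A : Act V γ ν S σ ε)
include G

theorem extK (a : K) : V (algebraMap K L a) = u a := by
  rw [IsScalarTower.algebraMap_apply K K₀ L, G.e0]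
  exact G.sd.e0 a

include A

theorem perm (t : L) : (S (γ t) = γ (S t) ∧ S (γ (γ t)) = γ (γ (S t))) ∨
    (S (γ t) = γ (γ (S t)) ∧ S (γ (γ t)) = γ (S t)) := by
  have g := G.a4.gam3
  refine A.sgn.imp (fun e => ?_) fun e => ?_
  · have k : ∀ x, S (γ x) = γ (S x) := fun x => by rw [A.cg, e, zpow_one]
    exact ⟨k _, by rw [k, k]⟩
  · have k : ∀ x, S (γ x) = γ (γ (S x)) := fun x => γ.injective (by
      rw [g, A.cg, e, zpow_neg_one, ← AlgEquiv.mul_apply, mul_inv_cancel, AlgEquiv.one_apply])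
    exact ⟨k _, by rw [k, k, g]⟩

/-- the action on `K` -/
theorem exK : ∃ β : K ≃+* K, (∀ a, algebraMap K L (β a) = S (algebraMap K L a)) ∧ Semi C β σ ∧
    ∀ a, u (β a) = u a := by
  obtain ⟨β, h⟩ := ex_equiv ((S : L →+* L).comp (algebraMap K L)) (algebraMap K L)
    (fun a => G.fix (S _) ((Ac.fixS A).2 (γ.commutes a)) (by rw [← A.cn, ν.commutes]))
    fun b => (G.fix (S.symm (algebraMap K L b)) ((Ac.fixS A).1 (by
      rw [S.apply_symm_apply, γ.commutes])) (S.injective (by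
        rw [A.cn, S.apply_symm_apply, ν.commutes]))).imp fun a e => by
          change S _ = _
          rw [e, S.apply_symm_apply]
  have h : ∀ a, algebraMap K L (β a) = S (algebraMap K L a) := h
  have h1 : ∀ c, β (algebraMap C K c) = algebraMap C K (σ c) := fun c => (algebraMap K L).injective
    (by rw [h, ← IsScalarTower.algebraMap_apply, ← IsScalarTower.algebraMap_apply, A.semi.1])
  refine ⟨β, h, ⟨h1, A.semi.2⟩, iso_of G.gf.onto (σ := (β : K →+* K)) h1 A.semi.2 fun x hx => ?_⟩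
  rw [← extK G] at hx ⊢
  rw [map_sub]
  exact h x ▸ A.triv x hx

/-- the two vertices are fixed -/
theorem vert {t : L} (ht : γ t = t) : V (S t) = V t ∧ V (ν (S t)) = V (ν t) := by
  obtain ⟨β, b1, -, b3⟩ := exK G A
  obtain ⟨e, h⟩ := ex_equiv ((S : L →+* L).comp (algebraMap K₀ L)) (algebraMap K₀ L)
    (fun a => (G.fix0 (S _)).1 ((Ac.fixS A).2 ((G.fix0 _).2 ⟨a, rfl⟩)))
    fun b => ((G.fix0 (S.symm (algebraMap K₀ L b))).1 ((Ac.fixS A).1 (by
      rw [S.apply_symm_apply]; exact (G.fix0 _).2 ⟨b, rfl⟩))).imp fun a e => by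
          change S _ = _
          rw [e, S.apply_symm_apply]
  have h : ∀ a, algebraMap K₀ L (e a) = S (algebraMap K₀ L a) := h
  have h1 : ∀ a, e (algebraMap K K₀ a) = algebraMap K K₀ (β a) := fun a =>
    (algebraMap K₀ L).injective (by
      rw [h, ← IsScalarTower.algebraMap_apply, ← IsScalarTower.algebraMap_apply, b1])
  obtain ⟨k1, k2⟩ := WB.Nv.sd_map G.sd G.sd (by norm_num) e (s := σ) (fun c =>
    (algebraMap K₀ L).injective (by
      rw [h, ← IsScalarTower.algebraMap_apply, ← IsScalarTower.algebraMap_apply, A.semi.1]))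
    A.semi.2 (fun y => ⟨β y, h1 y, b3 y⟩) fun y => ⟨β.symm y, by
      rw [← β.apply_symm_apply y, β.symm_apply_apply]; exact h1 _⟩
  obtain ⟨y, rfl⟩ := (G.fix0 t).1 ht
  rw [← h, G.e0, G.e0, G.e1, G.e1, k1, k2]
  exact ⟨rfl, rfl⟩

variable [CFF (kC C) (kap u)] {s : Plk C K → Plk (kC C) (kap u)} {z : Plk (kC C) (kap u)}
  (hs : Gs.IsSp u s)
include hs

/-- the residue classes are fixed -/
theorem cls {x : L} (hx : Rl s z x) : Rl s z (S x) := fun P hP => by
  obtain ⟨β, b1, b2, b3⟩ := exK G A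
  obtain ⟨T, hT⟩ := G.sd.good
  obtain ⟨P', -, h1, -⟩ := ex_pl (σ := S) (s := σ) A.semi.1 P
  have e : plEquiv β σ b2.1 (down K P') = down K P := Subtype.ext (ValuationSubring.ext _ _
    fun a => by rw [AuxFAct.mem_plEquiv, mem_down, mem_down, h1, ← b1, β.apply_symm_apply])
  have k := hs.equiv hs hT.gd β σ b2.1 (RingEquiv.refl _) (RingEquiv.refl _) (fun _ => rfl)
    (fun x hx => b3 x ▸ hx) (fun x hx => (red_eq_iff ((b3 x).trans_le hx) hx).2 (by
      rw [← extK G] at hx ⊢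
      rw [map_sub, b1]
      exact A.triv x hx)) (down K P')
  refine ⟨(h1 x).1 (hx P' ?_).1, trivial⟩
  rw [← hP, ← e, k]
  exact Subtype.ext (ValuationSubring.ext _ _ fun a =>
    (AuxFAct.mem_plEquiv (RingEquiv.refl _) (RingEquiv.refl _) (fun _ => rfl) _ a).symm)

omit hs in
/-- **inertia fixes the boundary of the small disc** -/
theorem fixw (H : Lc s z V γ ν) {x : L} {b c d : K} (q : Qd s z V γ ν x b c d) {ω : NV C L}
    {l d₀ : C} (o : Om s z b c d ω l d₀) (a : K) : ω (S (algebraMap K L a)) = ω.comap K a := by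
  obtain ⟨β, b1, b2, b3⟩ := exK G A
  have pr := q.par H
  have fx : γ (S x) = S x := (Ac.fixS A).2 q.fx
  have n := (q.nrm H).2.2
  have h1 : V (ν (S x - x)) < 1 := by
    obtain ⟨-, y₁, -, -, -, e1, -⟩ := H.lift q.toPt
    have k0 : V (ν (S x)) ≤ 1 := ((vert G A q.fx).2.trans (congrArg V e1)).trans_le y₁.2
    have k1 := (vert G A (t := x ^ 3 + algebraMap K L c) (by
      rw [map_add, map_pow, q.fx, γ.commutes])).2
    simp only [map_add, map_pow, ← b1, AlgEquiv.commutes] at k1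
    have k2 := A.triv c ((H.ext c).trans pr.one).le
    have k3 := NV.sub_lt (NV.sub_lt (k1.trans_lt n) n) (b1 c ▸ k2)
    rw [show ∀ p q r t : L, p + q - (r + t) - (q - t) = p - r from fun p q r t => by ring, e1] at k3
    rw [map_sub, e1]
    have k4 := rh_eq (x := (⟨_, k0⟩ : V.ring) ^ 3) (y := y₁ ^ 3) k3
    rw [(rh V).map_pow, (rh V).map_pow] at k4
    exact lt_of_rh (x := ⟨_, k0⟩ - y₁) (by
      rw [map_sub, cube_inj (three H.ch V) k4, sub_self])
  have t1 := congrArg S q.e1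
  have t3 := congrArg S q.e3
  have p := perm G A (ν x)
  simp only [map_add, map_neg, map_mul, map_zero] at t1 t3
  have sm := q.small H o (h := S x - x) (by rw [map_sub, fx, q.fx])
    ((cls G A H.sp q.reg.rl).sub q.reg.rl) (NV.sub_lt ((vert G A q.fx).1.trans_lt q.lt) q.lt) h1 (by
      simp only [map_sub]
      rcases p with ⟨p1, p2⟩ | ⟨p1, p2⟩ <;> rw [p2, p1, A.cn] at t1 <;>
        linear_combination t1 - q.e1)
  simp only [map_sub] at sm
  obtain ⟨s0, s1, s2, s3⟩ := sm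
  have r0 := q.root o (Or.inl rfl)
  have r1 := q.root o (Or.inr (Or.inl rfl))
  have r2 := q.root o (Or.inr (Or.inr (Or.inl rfl)))
  have r3 := q.root o (Or.inr (Or.inr (Or.inr rfl)))
  have lp := norm_pos_iff.2 o.l0
  have k := NV.add_lt (NV.add_lt (NV.add_lt (tri lp r0 r1 r2 s0 s1 s2) (tri lp r0 r1 r3 s0 s1 s3))
    (tri lp r0 r2 r3 s0 s2 s3)) (tri lp r1 r2 r3 s1 s2 s3)
  have k' : ω.comap K (β c - c) < ‖l‖ ^ 3 := by
    rw [NV.comap_apply, map_sub, b1, ← NV.map_neg']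
    convert k using 2
    rcases p with ⟨p1, p2⟩ | ⟨p1, p2⟩ <;> rw [p2, p1, A.cn] at t3 <;>
      linear_combination q.e3 - t3
  have s0 : σ l ≠ 0 := (map_ne_zero _).2 o.l0
  have og : (ω.comap K).OverG (β (c / algebraMap C K (l ^ 3))) :=
    og_of o.og (m := l ^ 3 / σ (l ^ 3)) (by
      rw [norm_div, A.semi.2, div_self (norm_ne_zero_iff.2 (pow_ne_zero _ o.l0))]) (by
      have l3 : algebraMap C K (l ^ 3) ≠ 0 := (map_ne_zero _).2 (pow_ne_zero _ o.l0)
      rw [map_div₀, b2.1, map_div₀, div_mul_div_comm, mul_comm _ (algebraMap C K (l ^ 3)),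
        mul_div_mul_left _ _ l3, ← sub_div, div_lt ((map_ne_zero _).2 (pow_ne_zero _ o.l0)),
        A.semi.2, norm_pow]
      exact k')
  have e := pr.uniq (pow_ne_zero 3 o.l0) (ξ := ω.comap K)
    (w := pullNV (β : K →+* K) b2.1 b2.2 (ω.comap K)) (fun h h1 h2 => o.cen.le h2 h1)
    (fun h h1 h2 => o.cen.le ((b3 h).trans_le h2) (Rv.rg (b1 h ▸ cls G A H.sp (rl_of h1)))) o.og
    (pullNV_overG _ _ _ og)
  rw [← b1]
  exact congrArg (fun n : NV C K => n a) e

end Vale.Agent.P022K.TH.Lo
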