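import Vale.Agent.P022K.TH.Gea
import Vale.Agent.P022K.TH.LocC
import Vale.Agent.P027M.I.Pts

/-!
# P022K, block TH: `LOCP` and `GEO`
-/

set_option autoImplicit false
set_option linter.unusedSectionVars false
set_option linter.style.haveILetI false

noncomputable section

open IntermediateField Vale.Agent.P019P P025H746 P025H492 Module

namespace Vale.Agent.P022K.TH

open Vale.Agent.P027M Vale.Agent.P027M.I Vale.Agent.P022K.FI Lo

theorem locp : LOCP := by
  intro C K K' K₀ L _ _ _ _ _ _ _ _ _ _ _ _ _ _ _ _ _ _ _ _ _ _ _ _ _ _ p' u u' v v' V γ ν _ s z y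
    H hs N
  haveI : FiniteDimensional K₀ L := FiniteDimensional.right K K₀ L
  have a4 := H.a4
  have uV : ∀ a, V (algebraMap K L a) = u a := fun a => by
    rw [IsScalarTower.algebraMap_apply K K₀ L, H.e0]; exact H.sd.e0 a
  have lc : Lc s z V γ ν := ⟨H.gf, H.ch, hs, H.unrL, a4.gam3, a4.nunu, fun p p0 => by
      have h1 := a4.nug3 (γ (γ (ν p)))
      rwa [a4.gam3, a4.nunu, p0] at h1, H.fix, uV, H.ine, fun f h1 h2 h3 => by
    obtain ⟨f, rfl⟩ := (H.fix0 f).1 h1
    rw [← map_one ν, ← map_sub, ← map_one (algebraMap K₀ L), ← map_sub, H.e1]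
    refine N.glue f (fun P hP => ?_) (H.e0 f ▸ h3)
    obtain ⟨Q, rfl⟩ := exists_over (L := L) P
    exact (h2 Q (by rwa [down_down] at hP)).1⟩
  have pt : Pt s z V γ ν (algebraMap K₀ L y) := ⟨(H.fix0 _).2 ⟨y, rfl⟩, (H.e0 y).trans_lt N.lt,
    fun P hP => by
      obtain ⟨h1, h2⟩ := N.reg (down K₀ P) (by rwa [down_down])
      exact ⟨h1, by rwa [Pts.vl_down P h1]⟩, N.uni.imp fun c hc => ⟨hc.1, hc.2.1, by
      have := hc.2.2
      rwa [← H.e1, map_sub, map_sub, map_pow, map_pow, ← IsScalarTower.algebraMap_apply,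
        ν.commutes] at this⟩⟩
  obtain ⟨x, b, c, d, q⟩ := lc.qd pt
  obtain ⟨ω, l, d₀, o⟩ := q.om lc
  obtain ⟨x, rfl⟩ := (H.fix0 x).1 q.fx
  refine ⟨ω.comap K, x / algebraMap C K₀ l, c / algebraMap C K (l ^ 3), d₀, o.cen.cl,
    fun w hw => ?_⟩
  have L0 : algebraMap C L l ≠ 0 := (map_ne_zero _).2 o.l0
  have e : ∀ a : K, w (algebraMap K L a) = ω (algebraMap K L a) := hw.out
  have z0 : w 0 < 1 := by rw [map_zero]; exact one_pos
  simp only [map_div₀, ← IsScalarTower.algebraMap_apply C K₀ L, fixC]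
  refine ⟨H.gf.onto, H.ch, a4.deg, o.d1, ?_, ?_, ?_, ?_, o.og, o.top⟩
  · rwa [← add_div, ← add_div, ← add_div, q.e1, zero_div]
  · have h1 := (div_lt (w := w) (pow_ne_zero 2 o.l0)).2 ((e b).trans_lt (norm_pow l 2 ▸ o.hb))
    rw [q.e2, map_pow] at h1
    convert h1 using 2
    field_simp
  · convert z0 using 2
    rw [map_div₀, q.e3, ← IsScalarTower.algebraMap_apply, map_pow]
    field_simp
    ring
  · have h0 := e (d - algebraMap C K (d₀ * l ^ 4))
    rw [map_sub, ← IsScalarTower.algebraMap_apply] at h0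
    have h1 := (div_lt (w := w) (pow_ne_zero 4 o.l0)).2 (h0.trans_lt (norm_pow l 4 ▸ o.hd))
    rw [q.e4, map_mul, map_pow] at h1
    convert h1 using 2
    field_simp

/-- **GEO** -/
theorem geo2 : GEO := geo_of locp

end Vale.Agent.P022K.TH
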