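import Vale.Agent.P022K.FI.Good2
import Vale.Agent.P027M.I.All0

/-!
# P022K, block TH: the strong genus inequality, and Kummer classes on curves of compact type

`sgi`: the genera of the residue fields of a finite family of norms add up to at most the genus.
`keyt`: if they add up to the genus, a Kummer class which is trivial at every norm is trivial.
-/

set_option autoImplicit false
set_option linter.unusedSectionVars false
set_option linter.style.haveILetI false

noncomputable section

open IntermediateField Vale.Agent.P019P P025H746 P025H492 P025H458 Module Polynomial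
  Vale.Agent.P027M.I

namespace Vale.Agent.P022K.TH

namespace Sg

theorem exists_uv {k : Type} [Field k] {A B p : k[X]} {N : ℕ} (hB : B.Monic)
    (dA : A.natDegree = N) (dB : B.natDegree = N) (h : IsCoprime A B) (hN : 0 < N)
    (hp : p.natDegree ≤ 2 * N - 1) : ∃ u v : k[X], u.natDegree ≤ N - 1 ∧ v.natDegree ≤ N - 1 ∧
      p = u * A + v * B := by
  obtain ⟨a, b, e⟩ := h
  have hB1 : B ≠ 1 := by rintro rfl; rw [natDegree_one] at dB; omega
  have h1 := natDegree_modByMonic_lt (p * a) hB hB1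
  have h2 := modByMonic_add_div (p * a) B
  have e1 : p = p * a %ₘ B * A + (p * a /ₘ B * A + p * b) * B := by
    linear_combination (-p) * e - A * h2
  refine ⟨p * a %ₘ B, p * a /ₘ B * A + p * b, by omega, ?_, e1⟩
  by_cases h0 : p * a /ₘ B * A + p * b = 0
  · rw [h0, natDegree_zero]; omega
  · have h3 := natDegree_mul h0 hB.ne_zero
    have h4 : (p * a %ₘ B * A).natDegree ≤ 2 * N - 1 := natDegree_mul_le.trans (by omega)
    have h5 := natDegree_sub_le_of_le hp h4
    rw [show p - p * a %ₘ B * A = (p * a /ₘ B * A + p * b) * B by linear_combination e1,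
      max_self] at h5
    omega

variable {C : Type} [NontriviallyNormedField C] [IsUltrametricDist C] [IsAlgClosed C]
  {F : Type} [Field F] [Algebra C F] [CFF C F] {T : F} [FiniteDimensional C⟮T⟯ F]

theorem pow_En (n : ℕ) : redv C T T ^ n ∈ En C T n :=
  ⟨T ^ n, pow_mem_LL T n, Itg.self.pow n, redv_pow Itg.self n⟩

theorem aeval_En {p : (kC C)[X]} {n : ℕ} (h : p.natDegree ≤ n) :
    aeval (redv C T T) p ∈ En C T n := by
  rw [aeval_eq_sum_range]
  exact Submodule.sum_mem _ fun i hi => Submodule.smul_mem _ _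
    (En_mono ((Nat.lt_succ_iff.1 (Finset.mem_range.1 hi)).trans h) (pow_En i))

variable (T) in
/-- locally constant functions -/
def cs : (WW C T → kC C) →ₐ[kC C] PP C T :=
  AlgHom.pi fun w => (Algebra.ofId (kC C) (kap w.1)).comp (Pi.evalAlgHom _ _ w)

theorem cs_apply (c : WW C T → kC C) (w : WW C T) : cs T c w = algebraMap _ _ (c w) := rfl

theorem cs_Pn (c : WW C T → kC C) : cs T c ∈ Pn C T 0 :=
  mem_Pn.2 fun w => const_mem_LL (by rw [zero_nsmul]) (c w)

/-- the polynomial `(X - a) ^ n` -/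
def pw (a : kC C) (n : ℕ) : (kC C)[X] := (X - Polynomial.C a) ^ n

theorem pw_monic (a : kC C) (n : ℕ) : (pw a n).Monic := (monic_X_sub_C a).pow n

theorem pw_deg (a : kC C) (n : ℕ) : (pw a n).natDegree = n := by
  rw [pw, natDegree_pow, natDegree_X_sub_C, mul_one]

theorem exists_nc (hF : Full C T) (h : cd C T < Fintype.card (WW C T) - 1) :
    ∃ n : ℕ, 0 < n ∧ ∀ a : kC C, ∃ (c : WW C T → kC C) (w w' : WW C T), c w ≠ c w' ∧
      aeval (redv C T T) (pw a n) * cs T c ∈ En C T n := by
  obtain ⟨n₀, hn⟩ := cod' C F T hF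
  refine ⟨n₀ + 1, n₀.succ_pos, fun a => ?_⟩
  have h1 := hn (n₀ + 1) (Nat.le_succ _)
  let s := aeval (redv C T T) (pw a (n₀ + 1))
  have hs : s ∈ En C T (n₀ + 1) := aeval_En (pw_deg a _).le
  let φ : (WW C T → kC C) →ₗ[kC C] Pn C T (n₀ + 1) :=
    LinearMap.codRestrict _ ((LinearMap.mulLeft (kC C) s).comp (cs T).toLinearMap) fun c => by
      simpa using Pn_mul (En_le_Pn _ hs) (cs_Pn c)
  let E : Submodule (kC C) (Pn C T (n₀ + 1)) := (En C T (n₀ + 1)).comap (Submodule.subtype _)
  have h2 : finrank (kC C) E = finrank (kC C) (En C T (n₀ + 1)) :=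
    (Submodule.comapSubtypeEquivOfLe (En_le_Pn _)).finrank_eq
  have h3 := E.finrank_quotient_add_finrank
  have h4 := (E.mkQ.comp φ).finrank_range_add_finrank_ker
  have h5 := Submodule.finrank_le (LinearMap.range (E.mkQ.comp φ))
  rw [Module.finrank_fintype_fun_eq_card] at h4
  by_contra hcon
  push Not at hcon
  obtain ⟨w₀⟩ := hF.nonempty
  have h6 : LinearMap.ker (E.mkQ.comp φ) ≤ Submodule.span (kC C) {1} := fun c hc => by
    have h7 : φ c ∈ E := (Submodule.Quotient.mk_eq_zero E).1 hc
    refine Submodule.mem_span_singleton.2 ⟨c w₀, funext fun w => ?_⟩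
    by_contra e
    exact hcon c w₀ w (fun e' => e (by simp [e'])) h7
  have h8 := (Submodule.finrank_mono h6).trans (finrank_span_le_card {1})
  simp only [Set.toFinset_card, Fintype.card_unique] at h8
  omega

theorem exists_ind {n : ℕ} {a : kC C} {c : WW C T → kC C} (w₀ : WW C T)
    (h : aeval (redv C T T) (pw a n) * cs T c ∈ En C T n) :
    aeval (redv C T T) (pw a (Fintype.card (WW C T) * n)) * ind C T {w | c w = c w₀} ∈
      En C T (Fintype.card (WW C T) * n) := by
  classical
  let s := aeval (redv C T T) (pw a n)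
  have hs : s ∈ En C T n := aeval_En (pw_deg a _).le
  let q : WW C T → WW C T → kC C := fun v =>
    if c v = c w₀ then 1 else (c w₀ - c v)⁻¹ • (c - c v • 1)
  have h1 : ∀ v, s * cs T (q v) ∈ En C T n := fun v => by
    simp only [q]
    split_ifs
    · rwa [map_one, mul_one]
    · rw [map_smul, map_sub, map_smul, map_one, mul_smul_comm, mul_sub, mul_smul_comm, mul_one]
      exact Submodule.smul_mem _ _ (sub_mem h (Submodule.smul_mem _ _ hs))
  have h2 : ∀ A : Finset (WW C T), ∏ v ∈ A, s * cs T (q v) ∈ En C T (A.card * n) := fun A => by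
    induction A using Finset.induction_on with
    | empty => simpa using pow_En (C := C) (T := T) 0
    | insert v A hv ih =>
      rw [Finset.prod_insert hv, Finset.card_insert_of_notMem hv, add_mul, one_mul, add_comm]
      exact En_mul (h1 v) ih
  have h3 := h2 Finset.univ
  rw [Finset.prod_mul_distrib, Finset.prod_const, ← map_prod, Finset.card_univ] at h3
  convert h3 using 2
  · simp only [s, pw, map_pow, ← pow_mul, mul_comm]
  · funext w
    rw [cs_apply, Finset.prod_apply, ind]
    split_ifs with e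
    · rw [Finset.prod_eq_one, map_one]
      intro v _
      simp only [q]
      split_ifs with e'
      · rfl
      · have e1 : c w = c w₀ := e
        simp [e1, inv_mul_cancel₀ (sub_ne_zero.2 (Ne.symm e'))]
    · rw [Finset.prod_eq_zero (Finset.mem_univ w), map_zero]
      have e1 : ¬ c w = c w₀ := e
      simp [q, e1]

/-- connectedness costs genus -/
theorem cd_ge (hF : Full C T) : (Fintype.card (WW C T) : ℤ) - 1 ≤ cd C T := by
  by_contra hcon
  obtain ⟨n, hn, h⟩ := exists_nc hF (not_le.1 hcon)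
  choose c w w' h1 h2 using h
  haveI : IsAlgClosed (kC C) := CFF.ac (k := kC C) (F := kap hF.nonempty.some.1)
  obtain ⟨a, a', ne, e⟩ := Finite.exists_ne_map_eq_of_infinite
    fun a : kC C => {v | c a v = c a (w a)}
  have h3 := exists_ind (w a) (h2 a)
  have h4 := exists_ind (w a') (h2 a')
  rw [← e] at h4
  set N := Fintype.card (WW C T) * n
  have hN : 0 < N := Nat.mul_pos (Fintype.card_pos_iff.2 hF.nonempty) hn
  have key : ∀ p : (kC C)[X], p.natDegree ≤ 2 * N - 1 →
      aeval (redv C T T) p * ind C T {v | c a v = c a (w a)} ∈ En C T (2 * N - 1) := fun p hp => by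
    obtain ⟨u, v, hu, hv, rfl⟩ := exists_uv (pw_monic a' N) (pw_deg _ _)
      (pw_deg _ _) (isCoprime_X_sub_C_of_isUnit_sub (sub_ne_zero.2 ne).isUnit).pow hN hp
    rw [map_add, map_mul, map_mul, add_mul, mul_assoc, mul_assoc,
      show 2 * N - 1 = N - 1 + N by omega]
    exact add_mem (En_mul (aeval_En hu) h3) (En_mul (aeval_En hv) h4)
  rcases conn' C F T _ (2 * N - 1) (by simpa using key 1 (by simp)) (by
    simpa [redv_pow Itg.self] using key (X ^ (2 * N - 1)) (by simp)) with e1 | e1
  · exact (e1 ▸ (rfl : c a (w a) = c a (w a)) : w a ∈ (∅ : Set (WW C T)))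
  · exact h1 a (e1 ▸ Set.mem_univ (w' a) : w' a ∈ {v | c a v = c a (w a)}).symm

end Sg

variable {C K : Type} [NontriviallyNormedField C] [IsUltrametricDist C] [IsAlgClosed C]
  [Field K] [Algebra C K] [CFF C K] {ι : Type} [Fintype ι] (w : ι → NV C K)
  [∀ i, CFF (kC C) (kap (w i))]

/-- **SGI**: the strong genus inequality -/
theorem sgi (hC : Sph C) (hn : ∀ r : ℝ, 0 ≤ r → ∃ x : C, ‖x‖ = r) (hw : Function.Injective w) :
    ∑ i, gen (kC C) (kap (w i)) ≤ gen C K := by
  classical
  rcases isEmpty_or_nonempty ι with h | h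
  · simp
  obtain ⟨T, hT⟩ := FI.exists_overG w hw
  haveI := (finite_of_notMem (nc_of_transc (hT h.some).transc)).2
  have h1 := Sg.cd_ge (stab hC hn (hT h.some).transc).1
  have h2 : ∑ i, gen (kC C) (kap (w i)) ≤ ∑ v : WW C T, gen (kC C) (kap v.1) := by
    let e : ι ↪ WW C T := ⟨fun i => ⟨w i, hT i⟩, fun i j e => hw (congrArg Subtype.val e)⟩
    exact (Finset.sum_map Finset.univ e fun v : WW C T => gen (kC C) (kap v.1)).symm.le.trans
      (Finset.sum_le_sum_of_subset (Finset.subset_univ _))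
  rw [cd, Finset.sum_sub_distrib, Finset.sum_const, Finset.card_univ, nsmul_eq_mul, mul_one,
    ← Nat.cast_sum] at h1
  omega

namespace Sg

open Node

variable {L : Type} [Field L] [Algebra C L] [Algebra K L] [IsScalarTower C K L]

theorem free1 {m : ℕ} (hm : (m : kC C) ≠ 0) {y : L} (hY : IntermediateField.adjoin K {y} = ⊤)
    {f : K} (hy : y ^ m = algebraMap K L f) {u : NV C K} (ht : Triv m u f) (v : NV C L)
    [h : NVExt u v] (τ : L ≃ₐ[K] L) (hv : ∀ x, v (τ x) = v x) : τ = 1 := by
  have hm0 := ne_zero_of_cast hm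
  obtain ⟨z, hz⟩ := ht
  have h1 : v ((y * algebraMap K L z) ^ m - 1) < 1 := by
    rwa [mul_pow, hy, ← map_pow, ← map_mul, ← map_one (algebraMap K L), ← map_sub, h.out]
  obtain ⟨h2, h3⟩ := eq_one_of_sub h1
  have h4 : v (y * algebraMap K L z) ≤ 1 := by
    have : v.av (y * algebraMap K L z) ^ m ≤ 1 := by rw [← map_pow]; exact h2
    exact (pow_le_one_iff_of_nonneg (v.av.nonneg _) hm0).1 this
  rw [NV.red_pow h4] at h3
  have h5 : v.red (y * algebraMap K L z) ≠ 0 := fun h0 => by
    rw [h0, zero_pow hm0] at h3; exact zero_ne_one h3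
  have hy0 : y ≠ 0 := by rintro rfl; exact h5 (by rw [zero_mul, NV.red_zero])
  obtain ⟨μ, hμ, hτ⟩ := exists_mu (C := C) hm0 τ hy0 hy
  obtain ⟨a, ha, -⟩ := root_const (k := kC C) hm0 h3
  obtain ⟨c, hc, rfl⟩ := cred_surj a
  have h6 := rm_const (w := v) (w' := v) (τ : L →+* L) hv (s := RingEquiv.refl C)
    (aut_const τ) (fun _ => rfl) hc
  have hn := (norm_root hm0 hμ).le
  rw [RingEquiv.refl_apply, ha] at h6
  replace h6 : v.red (τ (y * algebraMap K L z)) = v.red (y * algebraMap K L z) :=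
    (rm_red (w := v) (w' := v) (τ : L →+* L) hv _).symm.trans h6
  rw [map_mul, τ.commutes, hτ, mul_assoc, NV.red_mul (by rw [v.ext']; exact hn) h4,
    NV.red_algebraMap hn] at h6
  have h7 : cred μ = 1 := (algebraMap (kC C) (kap v)).injective (by
    rw [map_one]; exact mul_right_cancel₀ h5 (by rw [h6, one_mul]))
  refine eq_one_of_gen hY fun x hx => ?_
  rw [hx, hτ, root_eq_one hm hμ h7, map_one, one_mul]

theorem gen_of_one {u : NV C K} {v : NV C L} [NVExt u v] [CFF (kC C) (kap u)] [CFF (kC C) (kap v)]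
    (h : finrank (kap u) (kap v) = 1) : gen (kC C) (kap u) = gen (kC C) (kap v) :=
  gen_eq (RingEquiv.ofBijective (algebraMap (kap u) (kap v))
    (Algebra.finrank_eq_one_iff_bijective_algebraMap.1 h)) (RingEquiv.refl _)
    fun a => (IsScalarTower.algebraMap_apply (kC C) (kap u) (kap v) a).symm

theorem core [CharZero C] [FiniteDimensional K L] (hC : Sph C)
    (hn : ∀ r : ℝ, 0 ≤ r → ∃ x : C, ‖x‖ = r) (hw : Function.Injective w)
    (hg : gen C K ≤ ∑ i, gen (kC C) (kap (w i))) [Nonempty ι] {m : ℕ} (hm : (m : kC C) ≠ 0) {y : L}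
    (hY : IntermediateField.adjoin K {y} = ⊤) {f : K} (hy : y ^ m = algebraMap K L f)
    (hd : ∀ P : Plk C K, (m : ℤ) ∣ ord P f) (ht : ∀ i, Triv m (w i) f) : finrank K L = 1 := by
  classical
  haveI : CFF C L := cff_of_finite (K := K)
  haveI : IsGalois K L := isGalois_radicals (k := C) hY fun x hx =>
    ⟨m, f, cast_ne_zero hm, by rw [hx, hy]⟩
  have hu : IsUnr C K L := isUnr_radicals hY fun x hx =>
    ⟨m, f, cast_ne_zero hm, by rw [hx, hy], hd⟩
  have hval : ∀ i x, ∃ c : C, ‖c‖ = w i x := fun i x => hn _ ((w i).av.nonneg x)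
  choose v hv using fun i => DecP.exists_ext' (L := L) (w i) (hval i)
  have inj : ∀ i, Function.Injective fun g : L ≃ₐ[K] L => (v i).twist g := fun i g g' e => by
    have h1 : g * g'⁻¹ = 1 := free1 hm hY hy (ht i) (v i) _ fun x => by
      have := NV.congr e (g'⁻¹ x)
      simpa [NV.twist_apply] using this
    exact mul_inv_eq_one.1 h1
  have one : ∀ i (g : L ≃ₐ[K] L), finrank (kap (w i)) (kap ((v i).twist g)) = 1 := fun i g => by
    have h1 := sum_resdeg_le (w i) (hval i) _ (inj i)
    have h2 : ∀ g : L ≃ₐ[K] L, 1 ≤ finrank (kap (w i)) (kap ((v i).twist g)) := fun g =>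
      haveI := finite_resdeg (w i) (hval i) ((v i).twist g)
      finrank_pos
    rw [← IsGalois.card_aut_eq_finrank, Nat.card_eq_fintype_card, ← Finset.card_univ,
      Finset.card_eq_sum_ones] at h1
    exact ((Finset.sum_eq_sum_iff_of_le fun g _ => h2 g).1
      (le_antisymm (Finset.sum_le_sum fun g _ => h2 g) h1) g (Finset.mem_univ g)).symm
  haveI cf : ∀ p : ι × (L ≃ₐ[K] L), CFF (kC C) (kap ((v p.1).twist p.2)) := fun p =>
    haveI := finite_resdeg (w p.1) (hval p.1) ((v p.1).twist p.2)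
    cff_of_finite (K := kap (w p.1))
  have h1 := sgi (fun p : ι × (L ≃ₐ[K] L) => (v p.1).twist p.2) hC hn (by
    rintro ⟨i, g⟩ ⟨j, g'⟩ e
    obtain rfl : i = j := hw ((nvExt_iff.1 (inferInstance : NVExt (w i) ((v i).twist g))).symm.trans
      ((congrArg (fun u : NV C L => u.comap K) e).trans
        (nvExt_iff.1 (inferInstance : NVExt (w j) ((v j).twist g')))))
    exact congrArg _ (inj i e))
  have h2 : ∑ p : ι × (L ≃ₐ[K] L), gen (kC C) (kap ((v p.1).twist p.2)) =
      (∑ i, gen (kC C) (kap (w i))) * finrank K L := by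
    rw [Fintype.sum_prod_type, Finset.sum_mul]
    refine Finset.sum_congr rfl fun i _ => ?_
    rw [Finset.sum_congr rfl fun g _ => (@gen_of_one _ _ _ _ _ _ _ _ _ _ _ _ _ _ _ _ _ (cf (i, g))
      (one i g)).symm, Finset.sum_const,
      Finset.card_univ, ← Nat.card_eq_fintype_card, IsGalois.card_aut_eq_finrank, smul_eq_mul,
      mul_comm]
  have h3 := hu.genus
  have h4 : 0 < finrank K L := finrank_pos
  have h5 : (gen C K : ℤ) * finrank K L ≤ gen C L := by
    exact_mod_cast (Nat.mul_le_mul_right _ hg).trans (h2.ge.trans h1)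
  have : (finrank K L : ℤ) ≤ 1 := by nlinarith
  omega

end Sg

/-- **KEYT**: reduction is injective on Kummer classes if no genus is lost -/
theorem keyt [CharZero C] (hC : Sph C) (hn : ∀ r : ℝ, 0 ≤ r → ∃ x : C, ‖x‖ = r)
    (hw : Function.Injective w) (hg : gen C K ≤ ∑ i, gen (kC C) (kap (w i))) [Nonempty ι] {m : ℕ}
    (hm : (m : kC C) ≠ 0) {f : K} (hd : ∀ P : Plk C K, (m : ℤ) ∣ ord P f)
    (ht : ∀ i, Triv m (w i) f) : ∃ z : K, f = z ^ m := by
  have hm0 := Nat.pos_of_ne_zero (Node.ne_zero_of_cast hm)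
  obtain ⟨y, hy⟩ := IsAlgClosed.exists_pow_nat_eq (algebraMap K (AlgebraicClosure K) f) hm0
  haveI : FiniteDimensional K K⟮y⟯ := adjoin.finiteDimensional (Algebra.IsIntegral.isIntegral y)
  have h1 := Sg.core w (L := K⟮y⟯) hC hn hw hg hm (y := AdjoinSimple.gen K y)
    (lift_injective _ (by rw [lift_adjoin_simple, lift_top]; rfl)) (f := f) (Subtype.ext hy) hd ht
  obtain ⟨z, hz⟩ := mem_bot.1 (finrank_adjoin_simple_eq_one_iff.1 h1)
  exact ⟨z, (algebraMap K (AlgebraicClosure K)).injective (by rw [map_pow, hz, hy])⟩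

end Vale.Agent.P022K.TH
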