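import Vale.Agent.P022K.TH.Kum
import Vale.Agent.P022K.FI.X1G
import Vale.Agent.P022K.FI.X1J

/-!
# P022K, block TH: roots of functions on a tower, translations, the levels at a place over `3`
-/

set_option autoImplicit false
set_option linter.unusedSectionVars false
set_option linter.style.haveILetI false

open IsLocalRing
open scoped MatrixGroups

noncomputable section

namespace Vale.Agent.P022K.TH

open Vale.Agent.P022 Sh FI FI.Hk FI.X1 Vale.Agent.P019P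
open Vale.Agent.P022.H218.L3 (Mer)

variable {G0 G : Type} [Group G0] [Group G] {T : Tw G0 G} {U U' : Subgroup G}

/-! ## roots -/

section root

variable {n : ℕ} {h ψ : G → Mer}

theorem RU_zpow (hh : h ∈ T.RU U) (m : ℤ) : h ^ m ∈ T.RU U := by
  cases m with
  | ofNat m => exact zpow_natCast h m ▸ pow_mem hh m
  | negSucc m => exact zpow_negSucc h m ▸ Tw.RU_inv (pow_mem hh _)

theorem root_all (hh : h ∈ T.RU U) (H : ∀ x, ∃ y, T.Rel U y x ∧ ∃ z ∈ KX T U y, h y = z ^ n) :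
    ∃ ψ ∈ T.RU U, h = ψ ^ n := by
  have key : ∀ x, ∃ z ∈ KX T U x, h x = z ^ n := fun x => by
    obtain ⟨y, r, z, hz, e⟩ := H x
    obtain ⟨φ, h1, rfl, -⟩ := Tw.ex_RU y hz
    exact ⟨φ x, RU_mem h1 x, Tw.RU_ext hh (pow_mem h1 n) e r⟩
  choose z h1 h2 using key
  obtain ⟨ψ, h3, h4⟩ := Tw.ex_RU_all h1
  exact ⟨ψ, h3, Tw.RU_ext_rp hh (pow_mem h3 n) fun x => by rw [Pi.pow_apply, h4, h2]⟩

theorem desc (le : U' ≤ U) (fi : U'.relIndex U ≠ 0) (nor : ∀ k ∈ U, ∀ u ∈ U', k⁻¹ * u * k ∈ U')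
    (ex : ∀ u ∈ U, u ^ 4 ∈ U') (hn : n.Coprime 2) (hh : h ∈ T.RU U) (h0 : ∀ x, h x ≠ 0)
    (hψ : ψ ∈ T.RU U') (e : h = ψ ^ n) : ∃ χ ∈ T.RU U, h = χ ^ n := by
  haveI : (U'.subgroupOf U).Normal := ⟨fun u hu k => by
    simpa [Subgroup.mem_subgroupOf] using nor _ (inv_mem k.2) _ hu⟩
  haveI := Subgroup.index_ne_zero_iff_finite.1 fi
  haveI := Fintype.ofFinite (U ⧸ U'.subgroupOf U)
  obtain ⟨k, hk⟩ := (IsPGroup.iff_card (p := 2) (G := U ⧸ U'.subgroupOf U)).1 fun g => by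
    obtain ⟨u, rfl⟩ := QuotientGroup.mk_surjective g
    exact ⟨2, (QuotientGroup.eq_one_iff _).2 (ex u u.2)⟩
  obtain ⟨a, b, hab⟩ := Nat.isCoprime_iff_coprime.2 (hn.pow_right k)
  have R := rep_sub le
  have m : hp U U' ψ ∈ T.RU U := ⟨fun γ x => by
    simp only [R.hp hψ.2, map_prod, mul_assoc, hψ.1], hp_inv (cor_tr le fi) hψ.2⟩
  refine ⟨_, mul_mem (RU_zpow hh a) (RU_zpow m b), funext fun x => ?_⟩
  have e1 : hp U U' ψ x ^ n = h x ^ 2 ^ k := by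
    rw [R.hp hψ.2, ← Finset.prod_pow, ← hk, Nat.card_eq_fintype_card, ← Finset.card_univ,
      ← Finset.prod_const]
    exact Finset.prod_congr rfl fun i _ => (congrFun e _).symm.trans (hh.2 x _ i.out.2)
  simp only [Pi.pow_apply, Pi.mul_apply]
  rw [mul_pow, ← zpow_natCast, ← zpow_natCast, ← zpow_mul, ← zpow_mul, mul_comm b, zpow_mul _ _ b,
    zpow_natCast, e1, ← zpow_natCast, ← zpow_mul, ← zpow_add₀ (h0 x), mul_comm _ b, hab, zpow_one]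

end root

/-! ## translations -/

section tr

variable {x : G} {g g' : G}

/-- `a` is the translation by `g` after `θ` on the component of `x` -/
def Tr (θ : (G → Mer) → G → Mer) (g : G) (a : Kf T U x → Kf T U x) : Prop :=
  ∀ φ ∈ T.RU U, ∀ f, Kf.val f = φ x → Kf.val (a f) = θ φ (x * g)

theorem ex_val (f : Kf T U x) : ∃ φ ∈ T.RU U, Kf.val f = φ x :=
  (Tw.ex_RU x (Kf.val_mem f)).imp fun _ h => ⟨h.1, h.2.1.symm⟩

theorem ex_kf {φ : G → Mer} (h : φ ∈ T.RU U) (x : G) : ∃ f : Kf T U x, Kf.val f = φ x :=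
  ⟨⟨_, RU_mem h x⟩, rfl⟩

theorem rt_mem (hg : ∀ u ∈ U, g⁻¹ * u * g ∈ U) {φ : G → Mer} (h : φ ∈ T.RU U) : rt g φ ∈ T.RU U :=
  Tw.RU_mono (fun u hu => mem_cj.2 (hg u hu)) (Tw.RU_rt h g)

variable {σ : ℂ ≃+* ℂ} {θ : (G → Mer) → G → Mer}

theorem ex_S (s : T.Sl σ θ) (hU : U ∈ T.Lev) (hg : ∀ u ∈ U, g⁻¹ * u * g ∈ U)
    (hg' : ∀ u ∈ U, g⁻¹⁻¹ * u * g⁻¹ ∈ U) (k : Ker (thU s hU) x (x * g)) :
    ∃ S : Kf T U x ≃+* Kf T U x, Tr θ g S ∧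
      ∀ c, S (algebraMap ℂ (KX T U x) c) = algebraMap ℂ (KX T U x) (σ c) := by
  have e : cj g⁻¹ U = U := le_antisymm (fun u hu => by simpa [mul_assoc] using hg _ (mem_cj.1 hu))
    fun u hu => mem_cj.2 (hg' u hu)
  obtain ⟨S, hS⟩ := Ker.ex (Θ := (thU s hU).trans (rtU e)) (x := x) (x' := x) fun φ h0 =>
    (congrArg (fun y => θ φ.1 (x * y)) (inv_inv g)).trans (k φ h0)
  refine ⟨S, fun φ hφ f hf => ?_, fun c => (hS (algebraMap ℂ _ c)).trans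
    (Subtype.ext (congrFun (s.cst c) _))⟩
  obtain rfl : f = T.evK U x ⟨φ, hφ⟩ := Kf.val_inj hf
  exact (congrArg Subtype.val (hS _)).trans (congrArg (fun y => θ φ (x * y)) (inv_inv g))

variable [Fact (U ≤ U')] (hn : ∀ k ∈ U', ∀ u ∈ U, k⁻¹ * u * k ∈ U)

variable (T x) in
/-- the graph of the translations -/
def Gr : Subgroup (G × (Kf T U x ≃ₐ[Kf T U' x] Kf T U x)) where
  carrier := {a | a.1 ∈ U' ∧ Tr id a.1 a.2}
  mul_mem' {a b} ha hb := ⟨mul_mem ha.1 hb.1, fun φ hφ f e =>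
    (ha.2 _ (rt_mem (hn _ hb.1) hφ) _ (hb.2 φ hφ f e)).trans (congrArg φ (mul_assoc _ _ _))⟩
  one_mem' := ⟨one_mem _, fun φ _ f e => e.trans (congrArg φ (mul_one x).symm)⟩
  inv_mem' {a} ha := ⟨inv_mem ha.1, fun φ hφ f e => by
    have m := rt_mem (T := T) (hn _ (inv_mem ha.1)) hφ
    obtain ⟨f', e'⟩ := ex_kf m x
    obtain rfl : f = a.2 f' := Kf.val_inj (e.trans ((ha.2 _ m f' e').trans
      (congrArg φ (mul_inv_cancel_right _ _))).symm)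
    exact (congrArg Kf.val (a.2.symm_apply_apply f')).trans e'⟩

variable {hn} {a b : Kf T U x ≃ₐ[Kf T U' x] Kf T U x}

theorem Gr.eq (ha : (g, a) ∈ Gr T x hn) (hb : (g', b) ∈ Gr T x hn) (e : g⁻¹ * g' ∈ U) : a = b :=
  AlgEquiv.ext fun f => Kf.val_inj ((ex_val f).elim fun φ h =>
    (ha.2 φ h.1 f h.2).trans ((h.1.2.eq e x).trans (hb.2 φ h.1 f h.2).symm))

theorem Gr.ac (γ : T.Gam U' x) : (x⁻¹ * T.j γ * x, Gk.ac hn x γ) ∈ Gr T x hn :=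
  ⟨T.mem_Gam.1 γ.2, fun φ hφ f e => by
    rw [Gk.ac_val, e, ← hφ.1]
    exact congrArg φ (by group)⟩

theorem Gr.ex (hg : g ∈ U') (r : T.Rel U x (x * g)) : ∃ a, (g, a) ∈ Gr T x hn := by
  obtain ⟨γ, u, hu, e⟩ := r
  have e1 : x⁻¹ * T.j γ * x = g * u⁻¹ := by
    rw [eq_mul_inv_iff_mul_eq, mul_assoc, mul_assoc, ← mul_assoc (T.j γ), ← e, inv_mul_cancel_left]
  have m := Gr.ac (hn := hn) ⟨γ, T.mem_Gam.2 (e1 ▸ mul_mem hg (inv_mem (Fact.out (p := U ≤ U') hu)))⟩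
  exact ⟨_, hg, fun φ hφ f e => (m.2 φ hφ f e).trans (hφ.2.eq (by simpa [e1] using hu) x)⟩

end tr

/-! ## the local group -/

theorem qq3 : qq ℤ_[3] = 3 :=
  (Nat.card_congr (PadicInt.residueField (p := 3)).toEquiv).trans (Nat.card_zmod 3)

theorem sl_dec : ∀ a b c d : ZMod 3, a * d - b * c = 1 → ∃ i j k : Fin 4,
    (!![1, 1; 0, 1] : Matrix (Fin 2) (Fin 2) (ZMod 3)) ^ (i : ℕ) * !![0, 1; -1, 0] ^ (j : ℕ) *
      !![1, 1; 0, 1] ^ (k : ℕ) = !![a, b; c, d] ∧ (c = 0 → Even (j : ℕ)) := by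
  decide +kernel

theorem rd_n : (rd (nO (1 : ℤ_[3]))).val = !![1, 1; 0, 1] := by
  ext i j
  fin_cases i <;> fin_cases j <;> simp [nO]

theorem rd_s : (rd (sO (O := ℤ_[3]))).val = !![0, 1; -1, 0] := by
  ext i j
  fin_cases i <;> fin_cases j <;> simp [sO]

/-- the Weyl element -/
abbrev sl : GL (Fin 2) ℚ_[3] := ss ℤ_[3] ℚ_[3]

theorem loc_dec {k : GL (Fin 2) ℤ_[3]} (h : (rd k).val.det = 1) : ∃ i j l : ℕ,
    (nl 3 ^ i * sl ^ j * nl 3 ^ l)⁻¹ * gK ℚ_[3] k ∈ Km ℤ_[3] ℚ_[3] 1 ∧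
      (k 1 0 ∈ maximalIdeal ℤ_[3] → Even j) := by
  obtain ⟨i, j, l, e, ev⟩ := sl_dec _ _ _ _ (Matrix.det_fin_two (rd k).val ▸ h)
  refine ⟨i, j, l, ?_, fun m => ev (by rwa [← PadicInt.ker_toZMod] at m)⟩
  simp only [sl, ss, nl, ← map_pow, ← map_mul, ← map_inv]
  rw [rd_one, map_mul, map_inv, inv_mul_eq_one, map_mul, map_mul, map_pow, map_pow, map_pow]
  exact Units.ext (by
    rw [Units.val_mul, Units.val_mul, Units.val_pow_eq_pow_val, Units.val_pow_eq_pow_val,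
      Units.val_pow_eq_pow_val, rd_n, rd_s, e, ← Matrix.eta_fin_two])

theorem n_cube : nl 3 ^ 3 ∈ Km ℤ_[3] ℚ_[3] 1 := by
  rw [← map_pow, rd_one, map_pow]
  exact Units.ext (by rw [Units.val_pow_eq_pow_val, rd_n]; decide +kernel)

theorem sn_cube : (sl * nl 3) ^ 3 ∈ Km ℤ_[3] ℚ_[3] 1 := by
  rw [sl, ss, ← map_mul, ← map_pow, rd_one, map_pow, map_mul]
  exact Units.ext (by rw [Units.val_pow_eq_pow_val, Units.val_mul, rd_n, rd_s]; decide +kernel)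

theorem s_sq : sl ^ 2 ∈ Zl ℚ_[3] := mem_Zl.2 ⟨-1, by
  ext i j
  fin_cases i <;> fin_cases j <;> simp [sq, ss_val, d2_val, Matrix.mul_apply, Fin.sum_univ_two]⟩

theorem s_Q8 : sl ∈ U3 Q8 := ⟨_, ⟨by rw [rd_s]; decide +kernel, Units.ext (by
  rw [Units.val_pow_eq_pow_val, rd_s]; decide +kernel)⟩, rfl⟩

theorem Km_nor {k v : GL (Fin 2) ℚ_[3]} (hk : k ∈ KK ℤ_[3] ℚ_[3]) (hv : v ∈ Km ℤ_[3] ℚ_[3] 1) :
    k⁻¹ * v * k ∈ Km ℤ_[3] ℚ_[3] 1 := by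
  obtain ⟨k, rfl⟩ := hk
  obtain ⟨v, rfl⟩ := LocA.Km_le 1 hv
  rw [← map_inv, ← map_mul, ← map_mul, rd_one, map_mul, map_mul, rd_one.1 hv, mul_one, map_inv,
    inv_mul_cancel]

/-- the sign as a unit -/
def sg : ℤˣ →* ℤ_[3]ˣ := Units.map (Int.castRingHom ℤ_[3]).toMonoidHom

/-- `diag (± 1, 1)` -/
def de (e : ℤˣ) : GL (Fin 2) ℚ_[3] := dO ℚ_[3] (sg e)

theorem de_sq (e : ℤˣ) : de e * de e = 1 := by
  rw [de, ← dO_mul, ← map_mul, Int.units_mul_self, map_one, dO_one]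

theorem de_n (e : ℤˣ) : de e * nl 3 = nl 3 ^ (e : ℤ) * de e := by
  rw [nl, ← nn_eq, de, dO_nn]
  rcases Int.units_eq_one_or e with rfl | rfl
  · simp
  · rw [Units.val_neg, Units.val_one, zpow_neg_one, inv_eq_of_mul_eq_one_right
      (show nn ℚ_[3] (1 : ℤ_[3]) * nn ℚ_[3] (-1 : ℤ_[3]) = 1 by rw [← nn_add, add_neg_cancel, nn_zero])]
    simp [sg]

theorem de_s (e : ℤˣ) : (de e * sl)⁻¹ * (sl * de e) ∈ Zl ℚ_[3] :=
  mem_Zl.2 ⟨Units.map (Int.castRingHom ℚ_[3]).toMonoidHom e, by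
    rw [inv_mul_eq_iff_eq_mul]
    ext i j
    rcases Int.units_eq_one_or e with rfl | rfl <;> fin_cases i <;> fin_cases j <;>
      simp [de, sg, ss_val, dO_val, d2_val, Matrix.mul_apply, Fin.sum_univ_two]⟩

/-! ## the quadratic character -/

variable {w : T.Lc ℤ_[3] ℚ_[3]} {ν : G →* ℤˣ}

variable (w ν) in
/-- a quadratic character of the components which is ramified at `w` -/
structure Nu : Prop where
  j : ∀ g, ν (T.j g) = 1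
  lev : ∃ W ∈ T.Lev, W ≤ ν.ker
  sq : ∀ g, IsSquare (Matrix.GeneralLinearGroup.det g) → ν (w.ι g) = 1
  ns : ∀ c : ℤ_[3]ˣ, ¬ IsSquare c → ν (w.ι (dO ℚ_[3] c)) = -1

namespace Nu

variable (N : Nu w ν)

include N

theorem neg {c : ℤ_[3]ˣ} (h : PadicInt.toZMod (c : ℤ_[3]) = -1) : ν (w.ι (dO ℚ_[3] c)) = -1 :=
  N.ns c fun ⟨r, e⟩ => by
    rw [e, Units.val_mul, map_mul] at h
    exact (by decide : ∀ a : ZMod 3, a * a ≠ -1) _ h

theorem pos {c : ℤ_[3]ˣ} (h : PadicInt.toZMod (c : ℤ_[3]) = 1) : ν (w.ι (dO ℚ_[3] c)) = 1 := by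
  have := N.neg (c := c * -1) (by simp [h])
  rwa [dO_mul, map_mul, map_mul, N.neg (c := -1) (by simp), mul_eq_right] at this

theorem nu_de (e : ℤˣ) : ν (w.ι (de e)) = e := by
  rcases Int.units_eq_one_or e with rfl | rfl
  exacts [N.pos (by simp), N.neg (by simp [sg])]

theorem gk {k : GL (Fin 2) ℤ_[3]} : ν (w.ι (gK ℚ_[3] k)) = 1 ↔ (rd k).val.det = 1 := by
  have e : (rd k).val.det = PadicInt.toZMod (k.det : ℤ_[3]) := (RingHom.map_det _ _).symm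
  have e1 := N.sq ((dO ℚ_[3] k.det)⁻¹ * gK ℚ_[3] k) ⟨1, by
    rw [map_mul, map_inv, mul_one, inv_mul_eq_one]
    ext
    simp [dO_val, Matrix.det_fin_two]⟩
  rw [map_mul, map_mul, map_inv, map_inv, inv_mul_eq_one] at e1
  rw [← e1, e]
  rcases (by decide : ∀ a b : ZMod 3, a * b = 1 → a = 1 ∨ a = -1) _ _
    ((map_mul _ _ _).symm.trans ((congrArg PadicInt.toZMod k.det.mul_inv).trans (map_one _))) with
    h | h
  · simp only [N.pos h, h]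
  · rw [N.neg h, h]
    decide

theorem set {V : Subgroup (GL (Fin 2) ℚ_[3])} (h : ∀ u ∈ U, w.π u = 1 → ν u = 1)
    (hV : ∀ v ∈ V, ν (w.ι v) = 1) : w.set V U ≤ ν.ker :=
  sup_le (sup_le (fun u hu => h u hu.1 hu.2) (N.lev.elim fun _ a => (sInf_le a.1).trans a.2))
    fun _ ⟨v, hv, e⟩ => e ▸ hV v hv

theorem iw1 {v : GL (Fin 2) ℚ_[3]} (hv : v ∈ Iw1 ℤ_[3] ℚ_[3]) : ν (w.ι v) = 1 := by
  obtain ⟨k, h1, h2, rfl⟩ := Iw1_ex hv
  rw [← PadicInt.ker_toZMod, RingHom.mem_ker] at h1 h2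
  rw [map_sub] at h2
  rw [N.gk, Matrix.det_fin_two]
  have := (rd k).det_ne_zero
  rw [Matrix.det_fin_two] at this
  exact (by decide : ∀ a b c d : ZMod 3, c = 0 → a - d = 0 → a * d - b * c ≠ 0 →
    a * d - b * c = 1) _ _ _ _ h1 h2 this

variable (hU : U ∈ T.Lev) (mx : w.At (KK ℤ_[3] ℚ_[3]) U) (h : ∀ u ∈ U, w.π u = 1 → ν u = 1)

include hU mx h

theorem dec {k : G} (hk : k ∈ U) (e : ν k = 1) : ∃ i j l : ℕ,
    (w.ι (nl 3) ^ i * w.ι sl ^ j * w.ι (nl 3) ^ l)⁻¹ * k ∈ w.set (Km ℤ_[3] ℚ_[3] 1) U ∧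
      (k ∈ w.set (Iw0 ℤ_[3] ℚ_[3]) U → Even j) := by
  have key : ∀ (V : Subgroup (GL (Fin 2) ℚ_[3])) (P : Prop), k ∈ w.set V U → (∀ v ∈ V,
      ∃ a : GL (Fin 2) ℤ_[3], (P → a 1 0 ∈ maximalIdeal ℤ_[3]) ∧ gK ℚ_[3] a = v) → ∃ i j l : ℕ,
      (w.ι (nl 3) ^ i * w.ι sl ^ j * w.ι (nl 3) ^ l)⁻¹ * k ∈ w.set (Km ℤ_[3] ℚ_[3] 1) U ∧
        (P → Even j) := fun V P m hV => by
    obtain ⟨v, hv, h1⟩ := split hU m
    obtain ⟨a, a1, rfl⟩ := hV v hv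
    have h2 : ν _ = 1 := N.set h (V := ⊥) (fun v hv => by rw [hv, map_one, map_one])
      (h1 ⊥ 1 (gK ℚ_[3] a) (by simp))
    rw [map_one, mul_one, map_mul, e, mul_one, map_inv, inv_eq_one, N.gk] at h2
    obtain ⟨i, j, l, h3, h4⟩ := loc_dec h2
    have h5 := h1 _ 1 _ (by simpa only [mul_one] using Subgroup.mem_sup_left h3)
    rw [map_one, mul_one, map_mul, map_mul, map_pow, map_pow, map_pow] at h5
    exact ⟨i, j, l, h5, fun p => h4 (a1 p)⟩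
  by_cases m : k ∈ w.set (Iw0 ℤ_[3] ℚ_[3]) U
  · exact key _ _ m fun v hv => (Iw0_ex hv).imp fun _ a => ⟨fun _ => a.1, a.2⟩
  · exact key _ _ ((set_eq hU mx).ge hk) fun v ⟨a, e⟩ => ⟨a, fun m' => absurd m' m, e⟩

theorem rel (sa : w.SA) {x y : G} (r : T.Rel U x y) (e : ν x = ν y) :
    T.Rel (w.set (Km ℤ_[3] ℚ_[3] 1) U) x y := by
  obtain ⟨γ, k, hk, rfl⟩ := r
  rw [map_mul, map_mul, N.j, one_mul, left_eq_mul] at e
  obtain ⟨i, j, l, m, -⟩ := N.dec hU mx h hk e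
  refine (rel_sa sa (w.lev U hU 1) x (g := nl 3 ^ i * sl ^ j * nl 3 ^ l) ?_).trans
    ⟨γ, _, m, by simp only [map_mul, map_pow, mul_assoc, mul_inv_rev, mul_inv_cancel_left]⟩
  rw [map_mul, map_mul, map_pow, map_pow, map_pow, det_ss, nl, ← nn_eq, nn, det_un]
  simp

end Nu

theorem set_nor (hU : U ∈ T.Lev) {k : G} (h1 : w.π k ∈ KK ℤ_[3] ℚ_[3] ⊔ Zl ℚ_[3])
    (h2 : ∀ u ∈ U, w.π u = 1 → (Lv.aw w k)⁻¹ * u * Lv.aw w k ∈ U) :
    ∀ u ∈ w.set (Km ℤ_[3] ℚ_[3] 1) U, k⁻¹ * u * k ∈ w.set (Km ℤ_[3] ℚ_[3] 1) U := fun u hu => by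
  obtain ⟨h3, h4⟩ := (Lv.mem_set hU).1 hu
  refine (Lv.mem_set hU).2 ⟨?_, ?_⟩ <;> rw [map_mul, map_mul, map_inv]
  · exact h2 _ h3 (Lv.pi_aw w u)
  · obtain ⟨a, ha, a1⟩ := Gn.mem_sup_zl.1 h1
    obtain ⟨b, hb, b1⟩ := Gn.mem_sup_zl.1 h4
    have := mul_mem (Subgroup.mem_sup_left (Km_nor ha hb)) (Subgroup.mem_sup_right b1)
    rw [mul_assoc, Gn.zl_comm b1, ← mul_assoc, mul_assoc _ b, mul_inv_cancel_left] at this
    have e := Gn.zl_comm a1 (a⁻¹ * w.π u * a)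
    rw [← inv_mul_eq_iff_eq_mul] at e
    rw [← e] at this
    convert this using 1
    group

/-- the character as a function on the tower -/
def nf (ν : G →* ℤˣ) : G → Mer := Tw.cz fun x => (ν x : ℤ)

theorem Nu.nf_mem (N : Nu w ν) (h : U ≤ ν.ker) : nf ν ∈ T.RU U :=
  ⟨fun γ x => by rw [nf, Tw.cz, Tw.cz, map_intCast, map_mul, N.j, one_mul],
    fun x u hu => by rw [nf, Tw.cz, Tw.cz, map_mul, h hu, mul_one]⟩

/-- **THL**: inertia in the level of the quaternion group, for a tower -/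
def THL {p : ℕ} [Fact p.Prime] (D : Emb w p) : Prop := T.Ok → w.SA →
  (∀ U ∈ T.Lev, T.Neat U → w.At (KK ℤ_[3] ℚ_[3]) U → ∀ [∀ x, CFF ℂ (KX T U x)], RD D U) →
  ∀ σ θ (s : T.Sl σ θ), Dec D.ι D.e 1 σ →
    (∀ (U : Subgroup G) [∀ x, CFF ℂ (KX T U x)] (h : Ctx D U), h.Ine (thU s h.lev)) →
    ∀ ν, Nu w ν → ∀ ε : ℤˣ, (∀ x, θ (nf ν) x = ((ε * ν x : ℤˣ) : ℤ)) → Thw w θ ε

end Vale.Agent.P022K.TH
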