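import Vale.Agent.P022K.FI.X1W
import Vale.Agent.P022K.F0.Cov

/-!
# P022K, block TH: level `Iw0` over a maximal level, degree and inseparable component
-/

set_option autoImplicit false
set_option linter.unusedSectionVars false
set_option linter.style.haveILetI false

open UpperHalfPlane IsLocalRing Module
open scoped MatrixGroups

noncomputable section

namespace Vale.Agent.P022K.TH

open Vale.Agent.P022K.Sh Vale.Agent.P022.H218.L3 Vale.Agent.P019P P025H746 FI FI.Hk FI.X1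
  Vale.Agent.P027M

variable {G0 G : Type} [Group G0] [Group G] {T : Tw G0 G}
  {O K : Type} [CommRing O] [IsDomain O] [IsDiscreteValuationRing O] [Field K] [Algebra O K]
  {w : T.Lc O K} {p : ℕ} [Fact p.Prime] {D : Emb w p} {U : Subgroup G} {τ : ℍ} {x : G}
  {v : NV (Cx D.ι) (LW T)}

theorem conj_sO (k : GL (Fin 2) O) : (sO⁻¹ * k * sO : GL (Fin 2) O) 1 0 = -k 0 1 := by
  simp [sO, Matrix.mul_apply, Fin.sum_univ_two, Matrix.vecMul, dotProduct]

theorem of_Iw0 (hi : Function.Injective (algebraMap O K)) {k : GL (Fin 2) O}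
    (h : gK K k ∈ Iw0 O K ⊔ Zl K) : k 1 0 ∈ maximalIdeal O := by
  obtain ⟨a, ha, h1⟩ := Gn.mem_sup_zl.1 h
  obtain ⟨a, h2, rfl⟩ := Iw0_ex ha
  obtain ⟨c, hc⟩ := mem_Zl.1 h1
  rw [← map_inv, ← map_mul] at hc
  have h3 : (a⁻¹ * k : GL (Fin 2) O) 1 0 = 0 := hi (by
    rw [map_zero]
    exact congrArg (fun g : GL (Fin 2) K => g 1 0) hc)
  rw [← mul_inv_cancel_left a k, Units.val_mul, Matrix.mul_apply, Fin.sum_univ_two, h3, mul_zero,
    add_zero]
  exact Ideal.mul_mem_right _ _ h2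

/-- the degree of a cover of curves from representatives of determinant one -/
theorem deg_of (hT : T.Ok) (cf : T.CF) (sa : w.SA) {V : Subgroup G} [le : Fact (V ≤ U)]
    (hV : V ∈ T.Lev) (ne : T.Neat U) [FiniteDimensional (Kf T U x) (Kf T V x)] {I : Type}
    [Fintype I] (g : I → GL (Fin 2) K) (hd : ∀ i, (g i).det = 1)
    (R : Rep (U : Set G) V Finset.univ fun i => w.ι (g i)) :
    finrank (Kf T U x) (Kf T V x) = Fintype.card I := by
  have : ∀ i, ∃ γ, (w.ι (g i))⁻¹ * lc T x γ ∈ V := fun i => by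
    obtain ⟨γ, u, hu, e⟩ := rel_sa sa hV x (hd i)
    refine ⟨γ, ?_⟩
    rw [lc, mul_assoc x⁻¹, eq_mul_inv_of_mul_eq e.symm]
    simpa [mul_assoc] using hu
  choose r hr using this
  refine (Tw.Cv.norm (T := T) (Γ := T.Gam U x) (Γ' := T.Gam V x) (i := Kf.val)
    ⟨fun γ hγ => T.mem_Gam.2 (le.out (T.mem_Gam.1 hγ)), fun f => ⟨fun hf => ⟨⟨f, hf⟩, rfl⟩, fun ⟨y, e⟩ => e ▸ y.2⟩,
      fun f => ⟨fun hf => ⟨⟨f, hf⟩, rfl⟩, fun ⟨y, e⟩ => e ▸ y.2⟩⟩ cf (hT.fu V hV x) (ne x)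
    (s := Finset.univ) (r := r)
    ⟨fun _ hy _ hu => mul_mem hy (T.mem_Gam.2 (le.out (T.mem_Gam.1 hu))), fun i hi => ?_,
      fun i hi k hk e => R.inj i hi k hk ?_, fun γ hγ => ?_⟩).2.2
  · have := mul_mem (R.mem i hi) (le.out (hr i))
    rw [mul_inv_cancel_left] at this
    exact T.mem_Gam.2 this
  · have e1 : lc T x ((r i)⁻¹ * r k) ∈ V := T.mem_Gam.1 e
    convert mul_mem (mul_mem (hr i) e1) (inv_mem (hr k)) using 1
    simp only [lc, map_mul, map_inv]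
    group
  · obtain ⟨i, hi, e⟩ := R.sur (lc T x γ) (T.mem_Gam.1 hγ)
    refine ⟨i, hi, T.mem_Gam.2 ?_⟩
    convert mul_mem (inv_mem (hr i)) e using 1
    simp only [lc, map_mul, map_inv]
    group

variable [∀ x, CFF ℂ (KX T U x)] (h : Ctx D U) [le : Fact (w.set (Iw0 O K) U ≤ U)]

include h

theorem rep_Iw0 [Fintype (ResidueField O)] : Rep (U : Set G) (w.set (Iw0 O K) U) Finset.univ
    fun i => w.ι (gK K (pO i * sO : GL (Fin 2) O)) := by
  refine ⟨fun _ hy _ hu => mul_mem hy (le.out hu), fun i _ => h.mx.1 _ ⟨_, rfl⟩,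
    fun i _ k _ e => pO_inj ?_, fun y hy => ?_⟩
  · have := ((Lv.mem_set h.lev).1 e).2
    rw [← map_inv, ← map_mul, w.πι, ← map_inv, ← map_mul, mul_inv_rev, mul_assoc, ← mul_assoc _ _ sO,
      ← mul_assoc] at this
    have := of_Iw0 w.inj this
    rwa [conj_sO, neg_mem_iff] at this
  · obtain ⟨_, ⟨k, rfl⟩, hk⟩ := split h.lev ((set_eq h.lev h.mx).ge hy)
    obtain ⟨i, hi⟩ := pO_sur (k * sO⁻¹)
    refine ⟨i, Finset.mem_univ _, ?_⟩
    have := hk (Iw0 O K) 1 (gK K (pO i * sO : GL (Fin 2) O)) (Subgroup.mem_sup_left (by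
      rw [mul_one, ← map_inv, ← map_mul]
      refine gK_Iw0 ?_
      rw [← neg_mem_iff, ← conj_sO] at hi
      simpa only [mul_inv_rev, mul_assoc, inv_mul_cancel, mul_one] using hi))
    rwa [map_one, mul_one] at this

/-- the degree of level `Iw0` -/
theorem deg_Iw0 (x : G) [CFF ℂ (KX T (w.set (Iw0 O K) U) x)] :
    ∃ _ : FiniteDimensional (Kf T U x) (K0 w U x), finrank (Kf T U x) (K0 w U x) = qq O + 1 := by
  haveI := w.fin
  letI := Fintype.ofFinite (ResidueField O)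
  haveI fd : FiniteDimensional (Kf T U x) (K0 w U x) :=
    P025H492.finite_of_transcendental (k := Cx D.ι) (CFF.ex (k := Cx D.ι) (F := Kf T U x)).choose_spec.1
  refine ⟨fd, (deg_of h.ok h.cf h.sa (lev_set h.ok h.lev Iw1_le Iw0_le) h.neat _ (fun i => ?_)
    (rep_Iw0 h)).trans (by rw [Fintype.card_option, qq, Nat.card_eq_fintype_card])⟩
  rw [map_mul, map_mul, show gK K sO = ss O K from rfl, det_ss, mul_one]
  ext
  cases i <;> simp [pO, sO, nO, Matrix.det_fin_two]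

/-- the second component is purely inseparable -/
theorem pw_Iw0 (l : Vl D U v τ) (o : Ord w D.e τ x) {η' : NV (Cx D.ι) (K0 w U x)}
    (b : Nv h.ok v (x * w.ι (ss O K)) η') (y : K0 w U x) (hy : η' y ≤ 1) :
    ∃ a : Kf T U x, η' (y ^ qq O - algebraMap _ _ a) < 1 := by
  have hI := lev_set (w := w) h.ok h.lev Iw1_le Iw0_le
  have e : x * w.ι (Sh.dg w.ϖ) = x * w.ι (ss O K) * w.ι (PP w) := by
    rw [mul_assoc, ← map_mul, ss_PP]
  obtain ⟨φ, h1, h2⟩ := ex_SR (hT := h.ok) hI y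
  have h3 : Ev (x * w.ι (Sh.dg w.ϖ)) (Rt (w.ι (PP w))⁻¹ φ) = Ev (x * w.ι (ss O K)) φ := by
    rw [Ev_Rt, e, mul_inv_cancel_right]
  obtain ⟨ψ, h4, h5⟩ := den h l (o_dg o w.ϖ) hI (φ := Rt (w.ι (PP w))⁻¹ φ)
    (inv_Rt.2 fun k hk => by
      rw [Rt_Rt]
      refine (Rt_eq h1 ?_).symm
      rw [inv_inv, ← mul_assoc]
      exact set_PP h.lev (fun _ hv => PP_Iw0 w hv) hk) (by rwa [h3, ← b φ y h1 h2])
  obtain ⟨f, h6, h7⟩ := (l _ (o_dg o w.ϖ)).pw2 _ (RU_mem (sr_mem ψ h4) _) h5.2.1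
  obtain ⟨χ, h8, h9⟩ := ex_SR (hT := h.ok) h.lev (⟨f, h6⟩ : Kf T U _)
  have h10 : f = Ev (x * w.ι (ss O K)) χ := by
    rw [Ev_mul h8 x (h.mx.1 _ ss_mem), ← Ev_st h h8]
    exact Subtype.ext h9
  refine ⟨⟨χ.1 x, RU_mem (sr_mem χ h8) x⟩, (b (φ ^ qq O - χ) _ (sub_mem (pow_mem (sr_mem φ h1) _)
    (Tw.RU_mono le.out (sr_mem χ h8))).2 (by rw [map_sub, map_pow, h2]; rfl)).trans_lt ?_⟩
  rw [map_sub, map_pow, ← h3, ← h10]
  exact ((h5.pow _).trans (Cg.of (h5.symm.pow _).1 h7).symm).lt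

end Vale.Agent.P022K.TH
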