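import Vale.Agent.P022K.TH.Ta
import Vale.Agent.P022K.TH.Lop
import Vale.Agent.P022K.TH.Two
import Vale.Agent.P022K.FI.X1N

/-!
# P022K, block TH: inertia in the level of the quaternion group, for a tower
-/

set_option autoImplicit false
set_option linter.unusedSectionVars false
set_option linter.style.haveILetI false

open IsLocalRing UpperHalfPlane
open scoped MatrixGroups

noncomputable section

namespace Vale.Agent.P022K.TH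

open Vale.Agent.P022 Sh FI FI.Hk FI.X1 Vale.Agent.P019P P025H746 P025H492
open Vale.Agent.P022.H218.L3 (Mer)

variable {G0 G : Type} [Group G0] [Group G] {T : Tw G0 G} {U : Subgroup G}
  {w : T.Lc ℤ_[3] ℚ_[3]} {ν : G →* ℤˣ} {p : ℕ} [Fact p.Prime] {D : Emb w p}
  {σ : ℂ ≃+* ℂ} {θ : (G → Mer) → G → Mer} {ε : ℤˣ}

theorem ex_res {C K L : Type} [NontriviallyNormedField C] [IsUltrametricDist C] [IsAlgClosed C]
    [Field K] [Algebra C K] [Field L] [Algebra C L] (f : K →ₐ[C] L) (v : NV C L) :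
    ∃ η : NV C K, ∀ y, v (f y) = η y := ⟨P027M.I.pullNV (f : K →+* L) (s := RingEquiv.refl C)
  f.commutes (fun _ => rfl) v, fun _ => rfl⟩

theorem ex_alg {U' : Subgroup G} [Fact (U ≤ U')] {x : G} {y : Kf T U x}
    (h : ∀ γ ∈ T.Gam U' x, T.act γ (Kf.val y) = Kf.val y) :
    y ∈ Set.range (algebraMap (Kf T U' x) (Kf T U x)) := ⟨⟨Kf.val y, T.mem_KF.2 h⟩, Kf.val_inj rfl⟩

instance {U' U₂ : Subgroup G} [Fact (U ≤ U')] [Fact (U' ≤ U₂)] [Fact (U ≤ U₂)] {x : G} :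
    IsScalarTower (Kf T U₂ x) (Kf T U' x) (Kf T U x) := IsScalarTower.of_algebraMap_eq fun _ => rfl

/-- the valuation on the component of `x` -/
def Vx {ι : ℂ ≃+* CS p} (ok : T.Ok) (hU : U ∈ T.Lev) (v : NV (Cx ι) (LW T)) (x : G) :
    NV (Cx ι) (Kf T U x) := X0.res
  { (IntermediateField.inclusion (KX_le ok hU x)).toRingHom with commutes' := fun _ => rfl } v

theorem Vx_eq {ι : ℂ ≃+* CS p} {ok : T.Ok} {hU : U ∈ T.Lev} {v : NV (Cx ι) (LW T)} {x : G}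
    (φ : SR ok) (y : G) {f : Kf T U x} (e : Kf.val f = φ.1 y) : Vx ok hU v x f = v (Ev y φ) :=
  congrArg v (Subtype.ext e)

variable (w U) in
/-- the full level three -/
abbrev U1 : Subgroup G := w.set (Km ℤ_[3] ℚ_[3] 1) U

variable [∀ x, CFF ℂ (KX T U x)] (h : Ctx D U) (N : Nu w ν)
  (hν : ∀ u ∈ U, w.π u = 1 → ν u = 1) (s : T.Sl σ θ) (i : h.Ine (thU s h.lev))
  (hε : ∀ x, θ (nf ν) x = ((ε * ν x : ℤˣ) : ℤ))

include h

theorem lev1 : U1 U w ∈ T.Lev := w.lev U h.lev 1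

theorem nor1 : ∀ k ∈ U, ∀ u ∈ U1 U w, k⁻¹ * u * k ∈ U1 U w := fun _ hk =>
  have a := (Lv.At_mem h.mx h.lev).1 hk
  set_nor h.lev a.2 fun _ hu _ => mul_mem (mul_mem (inv_mem a.1) hu) a.1

theorem de_mem (e : ℤˣ) : w.ι (de e) ∈ U := h.mx.1 _ (Iw0_le (dO_Iw0 _))

include N hν s i hε in
theorem ker1 (x : G) : Ker (thU s (lev1 h)) x (x * w.ι (de ε)) := by
  haveI := fun x => (h.cf _ (h.ok.fu _ (lev1 h) x)).1
  obtain ⟨x', k⟩ := s.is.ex_comp (lev1 h) x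
  have k1 : Ker (thU s (lev1 h)) x x' := fun φ => k φ.1 φ.2
  have k2 : Ker (thU s h.lev) x x' := fun φ => k φ.1 (Tw.RU_mono (lev_of h (Lv.Km_le 1)) φ.2)
  refine k1.right (N.rel h.lev h.mx hν h.sa ((k2.rel (i x).1).trans
    (Tw.rel_right x (de_mem h ε))) ?_)
  have e := k1.const (sm_thU s _) (φ := ⟨_, N.nf_mem (N.set hν fun v hv => N.iw1 (Km_Iw1 hv))⟩)
    (c := ((ν x : ℤ) : ℂ)) (map_intCast _ _).symm
  haveI : CharZero Mer := charZero_of_injective_algebraMap (algebraMap ℂ Mer).injective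
  rw [thU_val, hε, map_intCast, map_intCast, Int.cast_inj, Units.val_inj] at e
  rw [map_mul, N.nu_de, ← e, mul_right_comm, Int.units_mul_self, one_mul]

section fld

variable {v : NV (Cx D.ι) (LW T)} {τ : ℍ} {x : G} (l : Vl D U v τ) (o : Ord w D.e τ x)
  [f1 : Fact (U1 U w ≤ U)] {a b : Kf T (U1 U w) x ≃ₐ[Kf T U x] Kf T (U1 U w) x}
  (ha : (w.ι (nl 3), a) ∈ Gr T x (nor1 h)) (hb : (w.ι sl, b) ∈ Gr T x (nor1 h))

theorem gr_one {k : G} (m : (k, a) ∈ Gr T x (nor1 h)) (e : k ∈ U1 U w) : a = 1 :=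
  Gr.eq m (g' := 1) (one_mem _) (by simpa using e)

include ha hb

theorem gr_rel : a ^ 3 = 1 ∧ b ^ 2 = 1 ∧ (b * a) ^ 3 = 1 :=
  ⟨gr_one h (k := w.ι (nl 3) ^ 3) (pow_mem ha 3) (map_pow w.ι _ _ ▸ iota_mem' h.lev n_cube),
    gr_one h (k := w.ι sl ^ 2) (pow_mem hb 2)
      (map_pow w.ι _ _ ▸ iota_mem h.lev (Subgroup.mem_sup_right s_sq)),
    gr_one h (k := (w.ι sl * w.ι (nl 3)) ^ 3) (pow_mem (mul_mem hb ha) 3) (by
      simpa only [map_pow, map_mul] using iota_mem' (w := w) h.lev sn_cube)⟩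

include N hν in
theorem gr_fix {y : Kf T (U1 U w) x} (m : a y = y) {γ : G0} (hγ : γ ∈ T.Gam U x)
    (m' : b y = y ∨ γ ∈ T.Gam (w.set (Iw0 ℤ_[3] ℚ_[3]) U) x) : T.act γ (Kf.val y) = Kf.val y := by
  obtain ⟨i, j, k, e, ev⟩ := N.dec h.lev h.mx hν (T.mem_Gam.1 hγ) (by simp [N.j])
  have m0 : a ∈ MulAction.stabilizer _ y := m
  have m1 : b ^ j ∈ MulAction.stabilizer _ y := m'.elim (fun m' => pow_mem m' j) fun m' => by
    obtain ⟨j, rfl⟩ := (ev (T.mem_Gam.1 m')).two_dvd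
    rw [pow_mul, (gr_rel h ha hb).2.1, one_pow]
    exact one_mem _
  rw [← Gk.ac_val (nor1 h) x ⟨γ, hγ⟩, ← Gr.eq (mul_mem (mul_mem (pow_mem ha i) (pow_mem hb j))
    (pow_mem ha k)) (Gr.ac ⟨γ, hγ⟩) e]
  exact congrArg _ (mul_mem (mul_mem (pow_mem m0 i) m1) (pow_mem m0 k))

variable [CFF ℂ (KX T (U1 U w) x)]

include l o s i in
theorem act_kf (dec : Dec D.ι D.e 1 σ) {S : Kf T (U1 U w) x ≃+* Kf T (U1 U w) x}
    (hS : Tr θ (w.ι (de ε)) S)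
    (hc : ∀ c, S (algebraMap ℂ (KX T _ x) c) = algebraMap ℂ (KX T _ x) (σ c)) :
    Act (Vx h.ok (lev1 h) v x) a b S (au D.ι σ) ε := by
  have key : ∀ {k k' c c'}, (k, c) ∈ Gr T x (nor1 h) → (k', c') ∈ Gr T x (nor1 h) →
      (w.ι (de ε) * k)⁻¹ * (k' * w.ι (de ε)) ∈ U1 U w →
      ∀ y, S (c y) = c' (S y) := fun {k k' c c'} m m' e y => by
    obtain ⟨φ, h1, h2⟩ := ex_val y
    have h3 := s.mem _ (lev1 h) φ h1
    refine Kf.val_inj ((hS _ (rt_mem (nor1 h _ m.1) h1) _ (m.2 φ h1 y h2)).trans (Eq.trans ?_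
      (m'.2 _ (rt_mem (nor1 h _ (de_mem h ε)) h3) _ (hS φ h1 y h2)).symm))
    rw [s.eqv _ (lev1 h) φ h1, id, rt, rt, mul_assoc, mul_assoc]
    exact h3.2.eq e x
  refine ⟨⟨hc, dec.iso⟩, fun c hc => (pow_one (M := ℂ) c ▸ dec.pow c hc :),
    (Int.units_eq_one_or ε).imp (congrArg Units.val) (congrArg Units.val),
    key (k' := w.ι (nl 3) ^ (ε : ℤ)) ha (zpow_mem ha ε) ?_, key hb hb ?_, fun y hy => ?_⟩
  · rw [← map_mul, de_n, map_mul, map_zpow, inv_mul_cancel]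
    exact one_mem _
  · simpa only [map_mul, map_inv] using iota_mem h.lev (Subgroup.mem_sup_right (de_s ε))
  · obtain ⟨φ, m, e⟩ := ex_SR (hT := h.ok) h.lev y
    rw [Vx_eq (Th s φ - φ) x (by
      rw [map_sub, hS _ (Tw.RU_mono f1.out (sr_mem φ m)) _ ((Kf.val_alg y).trans e), Kf.val_alg]
      exact congrArg₂ (· - ·) (Th_inv s h.lev m x _ (de_mem h ε)) e), map_sub]
    exact (ine0 h (l x o) s i m ((Vx_eq φ x ((Kf.val_alg y).trans e)).symm.trans_le hy)).lt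

variable [f0 : Fact (w.set (Iw0 ℤ_[3] ℚ_[3]) U ≤ U)]
  [f2 : Fact (U1 U w ≤ w.set (Iw0 ℤ_[3] ℚ_[3]) U)] [CFF ℂ (KX T (w.set (Iw0 ℤ_[3] ℚ_[3]) U) x)]
  [FiniteDimensional (Kf T U x) (K0 w U x)] [FiniteDimensional (Kf T U x) (Kf T (U1 U w) x)]

include l o N hν in
theorem geo_kf :
    ∃ η η', Geo (pS h x) (nmF h x) (nmF h (x * st w)) η η' (Vx h.ok (lev1 h) v x) a b := by
  obtain ⟨η, e0⟩ : ∃ η : NV (Cx D.ι) (K0 w U x), ∀ y,
      Vx h.ok (lev1 h) v x (algebraMap _ _ y) = η y :=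
    ex_res (IsScalarTower.toAlgHom (Cx D.ι) (K0 w U x) (Kf T (U1 U w) x)) (Vx h.ok (lev1 h) v x)
  obtain ⟨η', e1⟩ : ∃ η : NV (Cx D.ι) (K0 w U x), ∀ y,
      Vx h.ok (lev1 h) v x (b (algebraMap _ _ y)) = η y :=
    ex_res ((b.toAlgHom.restrictScalars (Cx D.ι)).comp
      (IsScalarTower.toAlgHom (Cx D.ι) (K0 w U x) (Kf T (U1 U w) x))) (Vx h.ok (lev1 h) v x)
  have a0 : Nv h.ok v x η := fun φ f _ e => (e0 f).symm.trans (Vx_eq φ _ ((Kf.val_alg f).trans e))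
  have a1 : Nv h.ok v (x * w.ι sl) η' := fun φ f m e =>
    (e1 f).symm.trans (Vx_eq φ _ (hb.2 _ (Tw.RU_mono f2.out (sr_mem φ m)) _
      ((Kf.val_alg f).trans e)))
  have pw := pw_Iw0 h l o a1
  obtain ⟨_, dg⟩ := deg_Iw0 h x
  have sd := sd0 h l o a0 a1
  have sd' := sd1 h l o a0 a1
  rw [qq3] at pw dg sd sd'
  obtain ⟨g3, n2, ng⟩ := gr_rel h ha hb
  refine ⟨η, η', ⟨Cx.gf _, ?_, sd, sd', pw, dg,
    Gk.unr x D.ι h.ok (lev_set h.ok h.lev Iw1_le Iw0_le) h.lev h.neat⟩,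
    Gk.unr x D.ι h.ok (lev1 h) h.lev h.neat, g3, n2, ng, fun y => ⟨fun m => ?_, ?_⟩,
    fun y m m' => ?_, e0, e1, fun y hy => ?_⟩
  · have := (congrArg (fun n : ℕ => ‖(n : Cx D.ι)‖) ((Nat.prime_dvd_prime_iff_eq Fact.out
      Nat.prime_three).1 (qq3 ▸ D.dvd))).symm.trans_lt (Cx.norm_p_lt _)
    rwa [Nat.cast_ofNat] at this
  · exact ex_alg fun γ hγ => gr_fix h N hν ha hb m
      (T.mem_Gam.2 (f0.out (T.mem_Gam.1 hγ))) (Or.inr hγ)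
  · rintro ⟨y, rfl⟩
    obtain ⟨φ, m, e⟩ := ex_val y
    rw [← Kf.val_alg (U := U1 U w)] at e
    refine Kf.val_inj ((ha.2 _ (Tw.RU_mono f2.out m) _ e).trans ((m.2 x _
      (iota_mem' h.lev (Iw1_le ?_))).trans e.symm))
    rw [nl, ← nn_eq]
    exact nn_Iw1 _
  · exact ex_alg fun γ hγ => gr_fix h N hν ha hb m hγ (Or.inl m')
  · obtain ⟨φ, m, e⟩ := ex_SR (hT := h.ok) (lev1 h) y
    rw [Vx_eq (Rt (w.ι (nl 3)) φ - φ) x (by rw [map_sub, ha.2 _ (sr_mem φ m) _ e, e]; rfl),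
      map_sub, Ev_Rt, nl, ← nn_eq]
    exact (unip h (l x o) φ 1 ((Vx_eq φ x e).symm.trans_le hy)).lt

end fld

include N hν s i hε

theorem core (dec : Dec D.ι D.e 1 σ) {v : NV (Cx D.ι) (LW T)} {τ : ℍ}
    {x : G} (l : Vl D U v τ) (o : Ord w D.e τ x) {n : ℕ} (hn : n.Coprime 6) {F g χ : G → Mer}
    (hF : F ∈ T.RU (U1 U w)) (g0 : ∀ x, g x ≠ 0) (e : F = g ^ n) (hχ : χ ∈ T.RU (U1 U w))
    (e' : F * rt (w.ι (nl 3)) F * rt (w.ι (nl 3)) (rt (w.ι (nl 3)) F) = χ ^ n)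
    (s0 : F (x * w.ι sl) = F x) (s1 : F (x * (w.ι sl * w.ι (nl 3))) = F (x * w.ι (nl 3))) :
    ∃ z ∈ KX T (U1 U w) x, θ (θ F) x = F x ^ (ε : ℤ) * z ^ n := by
  have l1 := lev1 h
  haveI f1 : Fact (U1 U w ≤ U) := ⟨lev_of h (Lv.Km_le 1)⟩
  haveI f0 : Fact (w.set (Iw0 ℤ_[3] ℚ_[3]) U ≤ U) := ⟨lev_of h Iw0_le⟩
  haveI f2 : Fact (U1 U w ≤ w.set (Iw0 ℤ_[3] ℚ_[3]) U) := ⟨set_mono h.lev (Km_Iw1.trans Iw1_le)⟩
  obtain ⟨c1, pt, hp⟩ := h.cf _ (h.ok.fu _ l1 x)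
  haveI := (h.cf _ (h.ok.fu _ (lev_set (w := w) h.ok h.lev Iw1_le Iw0_le) x)).1
  have t := (CFF.ex (k := Cx D.ι) (F := Kf T U x)).choose_spec.1
  haveI : FiniteDimensional (Kf T U x) (K0 w U x) := finite_of_transcendental t
  haveI : FiniteDimensional (Kf T U x) (Kf T (U1 U w) x) := finite_of_transcendental t
  have mn : w.ι (nl 3) ∈ U := h.mx.1 _ ⟨_, rfl⟩
  have md := de_mem h ε
  obtain ⟨a, ha⟩ := Gr.ex (hn := nor1 h) mn (rel_sa h.sa l1 x (by rw [nl, ← nn_eq, nn, det_un]))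
  obtain ⟨b, hb⟩ := Gr.ex (hn := nor1 h) (h.mx.1 _ ss_mem) (rel_sa h.sa l1 x det_ss)
  obtain ⟨S, hS, hc⟩ := ex_S s l1 (nor1 h _ md) (nor1 h _ (inv_mem md)) (ker1 h N hν s i hε x)
  obtain ⟨η, η', A⟩ := geo_kf h N hν l o ha hb
  obtain ⟨f, hf⟩ := ex_kf hF x
  obtain ⟨z₀, hz⟩ := ex_kf hχ x
  have f0 : f ≠ 0 := fun e0 => pow_ne_zero n (g0 x) (by rw [← Pi.pow_apply, ← e, ← hf, e0, map_zero])
  have b1 := ha.2 F hF f hf
  obtain ⟨z, -, -, -, r⟩ := geo2 _ _ _ _ _ _ _ _ _ _ _ a b S _ ε A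
    (act_kf h s i l o ha hb dec hS hc) n f z₀ hn f0 (fun P => by
      obtain ⟨τ', rfl⟩ := hp.onto P
      refine MOrd.dvd_pow (τ := τ') (f := g x) ?_
      rw [← Pi.pow_apply, ← e, ← hf]
      exact hp.ord (Lv.neat_le h.neat f1.out x) τ' f f0)
    (Kf.val_inj ((hb.2 F hF f hf).trans (s0.trans hf.symm)))
    (Kf.val_inj (((mul_mem hb ha).2 F hF f hf).trans (s1.trans b1.symm)))
    (Kf.val_inj (by
      rw [map_mul, map_mul, map_pow, hz, hf, b1, ha.2 _ (rt_mem (nor1 h _ mn) hF) _ b1]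
      exact congrFun e' x))
  refine ⟨_, Kf.val_mem z, ?_⟩
  have h3 := s.mem _ l1 F hF
  rw [← hf, ← map_zpow₀, ← map_pow, ← map_mul, ← r,
    hS _ (rt_mem (nor1 h _ md) h3) _ (hS F hF f hf), s.eqv _ l1 _ h3, rt, mul_assoc, ← map_mul,
    de_sq, map_one, mul_one]

omit h N hν s i hε

variable (D) in
/-- **THL** -/
theorem thl : THL D := by
  intro ok sa rd σ θ s dec ine ν N ε hε
  refine thw_of s fun U₀ l0 n0 a0 U l le a n _ hn f hf g g0 e ⟨χ, hχ, e'⟩ => ?_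
  obtain ⟨W, lW, kW⟩ := N.lev
  let U' := U ⊓ (ν.comp (Lv.aw w)).ker
  have m' : ∀ u ∈ U, w.π u = 1 → (u ∈ U' ↔ ν u = 1) := fun u hu e => by
    rw [Subgroup.mem_inf, MonoidHom.mem_ker, MonoidHom.comp_apply, Lv.aw_of w e, and_iff_right hu]
  have l1 := w.lev _ (ok.inf U l W lW) 1
  have l' : U' ∈ T.Lev := ok.up _ l1 _ (fun u hu => by
      obtain ⟨h1, h2⟩ := (Lv.mem_set (ok.inf U l W lW)).1 hu
      exact ⟨(Lv.At_mem a l).2 ⟨h1.1, sup_le_sup_right (Km_le Q8) _ h2⟩, kW h1.2⟩)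
    fun e => ok.fi _ l1 U l (Subgroup.relIndex_eq_zero_of_le_right inf_le_left e)
  have lB := Lv.set_KK (w := w) l'
  haveI := fun x => (T.cf _ (ok.fu _ lB x)).1
  have nB := n0.mono (set_le l' l0 a0 (inf_le_left.trans le))
  have h : Ctx D (w.set (KK ℤ_[3] ℚ_[3]) U') :=
    ⟨ok, T.cf, T.gen, lB, nB, Lv.At_set l', sa, rd _ lB nB (Lv.At_set l')⟩
  have mB : ∀ u, w.π u = 1 → (u ∈ w.set (KK ℤ_[3] ℚ_[3]) U' ↔ u ∈ U') := fun u e => by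
    rw [Lv.mem_set l', Lv.aw_of w e, e, and_iff_left (one_mem _)]
  have hν : ∀ u ∈ w.set (KK ℤ_[3] ℚ_[3]) U', w.π u = 1 → ν u = 1 := fun u hu e =>
    (m' u ((mB u e).1 hu).1 e).1 ((mB u e).1 hu)
  have le1 : U1 (w.set (KK ℤ_[3] ℚ_[3]) U') w ≤ U := fun u hu => by
    obtain ⟨h1, h2⟩ := (Lv.mem_set lB).1 hu
    exact (Lv.At_mem a l).2 ⟨((mB _ (Lv.pi_aw w u)).1 h1).1, sup_le_sup_right (Km_le Q8) _ h2⟩
  have f0 : ∀ x, f x ≠ 0 := fun x => e ▸ pow_ne_zero n (g0 x)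
  have m2 := s.mem U l _ (s.mem U l f hf)
  have m3 := mul_mem m2 (RU_zpow hf (-ε))
  have ms : w.ι sl ∈ U := a.1 _ s_Q8
  obtain ⟨ψ, h1, h2⟩ := root_all (n := n) (Tw.RU_mono le1 m3) fun x => by
    obtain ⟨τ, y, o, r⟩ := h.ex_ord x
    obtain ⟨v, hv⟩ := h.rd.loc τ y o
    obtain ⟨z, z1, z2⟩ := core h N hν s (ine _ h) hε dec (x := y * w.ι (de ((ν y)⁻¹ * ν x))) hv
      (o_dO o _) hn (Tw.RU_mono le1 hf) g0 e (Tw.RU_mono le1 hχ) e' (hf.2 _ _ ms)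
      (hf.2.eq (by simpa [mul_assoc] using nrm l a (nO 1) (inv_mem ms)) _)
    refine ⟨_, N.rel lB h.mx hν sa ((Tw.rel_right y (de_mem h _)).symm.trans r.symm) ?_, z, z1, ?_⟩
    · rw [map_mul, N.nu_de, mul_inv_cancel_left]
    · rw [Pi.mul_apply, Pi.pow_apply, z2, mul_right_comm, ← zpow_add₀ (f0 _), add_neg_cancel,
        zpow_zero, one_mul]
  refine (desc le1 (ok.fi _ (lev1 h) U l) (fun k hk => ?_) (fun u hu => ?_)
    (hn.coprime_dvd_right (by decide)) m3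
    (fun x => mul_ne_zero (s.em.ne l (s.mem U l f hf) (s.em.ne l hf f0) x) (zpow_ne_zero _ (f0 x)))
    h1 h2).imp fun ψ' k => ⟨k.1, funext fun x => ?_⟩
  · obtain ⟨k1, k2⟩ := (Lv.At_mem a l).1 hk
    refine set_nor lB (sup_le_sup_right (U3_le Q8) _ k2) fun u hu e => ?_
    have e1 : w.π ((Lv.aw w k)⁻¹ * u * Lv.aw w k) = 1 := by simp [Lv.pi_aw, e]
    exact (mB _ e1).2 ((m' _ (mul_mem (mul_mem (inv_mem k1) ((mB u e).1 hu).1) k1) e1).2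
      (by simp [hν u hu e]))
  · obtain ⟨k1, k2⟩ := (Lv.At_mem a l).1 hu
    obtain ⟨_, ⟨q, hq, rfl⟩, k3⟩ := Gn.mem_sup_zl.1 k2
    have e1 : w.π (Lv.aw w (u ^ 4)) = 1 := Lv.pi_aw w _
    refine (Lv.mem_set lB).2 ⟨(mB _ e1).2 ((m' _ (map_pow (Lv.aw w) u 4 ▸ pow_mem k1 4) e1).2
      (by rw [map_pow, map_pow, show 4 = 2 * 2 from rfl, pow_mul, Int.units_sq])), ?_⟩
    rw [map_pow, ← mul_inv_cancel_left (gK ℚ_[3] q) (w.π u), Commute.mul_pow (Gn.zl_comm k3 _)]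
    exact mul_mem (Subgroup.mem_sup_left (by rw [← map_pow, rd_one, map_pow]; exact hq.2))
      (Subgroup.mem_sup_right (pow_mem k3 4))
  · rw [Pi.mul_apply, ← k.2, Pi.mul_apply, Pi.pow_apply, Pi.pow_apply, mul_left_comm,
      ← zpow_add₀ (f0 _), add_neg_cancel, zpow_zero, mul_one]

end Vale.Agent.P022K.TH
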