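import Vale.Agent.P022K.TH.Tx
import Vale.Agent.P022K.TH.Tl
import Vale.Agent.P022K.FI.As2
import Vale.Agent.P022K.F0.NuH

/-!
# P022K, block TH: row THX
-/

set_option autoImplicit false
set_option linter.unusedSectionVars false

open NumberField

noncomputable section

namespace Vale.Agent.P022K.TH

open Vale.Agent.P022 Sh FI FI.Hk FI.X1 F0

/-- **THX** -/
theorem thx {F : Type} [Field F] [NumberField F] (X : QD F) : THX X :=
  thx_of X (fun _ _ _ D => thl D)
    (fun _ _ h => (h.ex_nu two_unit).imp fun _ n => ⟨n.1, n.2.1, n.2.2.1, n.2.2.2⟩) noa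
    (left _ _ _ X.ok) (can F X) (arix X) (rdx X) (rtx X)

end Vale.Agent.P022K.TH
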