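import Vale.Agent.P022K.TH.Ta
import Vale.Agent.P022K.FI.X1W
import Vale.Agent.P022K.FI.X1Y

/-!
# P022K, block TH: row THX from the row THL for towers
-/

set_option autoImplicit false
set_option linter.unusedSectionVars false
set_option linter.style.haveILetI false

open IsLocalRing NumberField IsDedekindDomain
open scoped MatrixGroups

noncomputable section

namespace Vale.Agent.P022K.TH

open Vale.Agent.P022 Sh FI FI.Hk FI.X1 F0 H916 Vale.Agent.P019P P025H746 Vale.Agent.P027M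
open Vale.Agent.P022.H218.L3 (Mer)

theorem two_unit : IsUnit (2 : ℤ_[3]) := by
  rw [PadicInt.isUnit_iff, show (2 : ℤ_[3]) = ((2 : ℕ) : ℤ_[3]) from rfl,
    PadicInt.norm_natCast_eq_one_iff]
  decide

section tower

variable {G0 G : Type} [Group G0] [Group G] {T : Tw G0 G} {w : T.Lc ℤ_[3] ℚ_[3]} {p : ℕ}
  [Fact p.Prime] {D : Emb w p} {ν : G →* ℤˣ} {σ : ℂ ≃+* ℂ} {θ : (G → Mer) → G → Mer}

theorem v_one {v : NV (Cx D.ι) (LW T)} {b : LW T} (hb : b * b = 1) : v b = 1 :=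
  (mul_self_eq_one_iff.1 hb).elim (fun e => by simp [e]) fun e => by simp [e]

theorem eq_of_cg {v : NV (Cx D.ι) (LW T)} {a b : LW T} (h : Cg v a b) (ha : a * a = 1)
    (hb : b * b = 1) : a = b := by
  refine (mul_self_eq_mul_self_iff.1 (ha.trans hb.symm)).resolve_right fun e => h.lt.ne ?_
  have h1 := v_one (v := v) hb
  have h2 : v (2 : LW T) = 1 := by
    have := (v_cs (v := v) (D := D) 2).trans
      (by simpa only [map_ofNat] using nrm_unit (D := D) two_unit)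
    rwa [cs, map_ofNat, map_ofNat] at this
  rw [e, show -b - b = -(2 * b) by ring, map_neg_eq_map, map_mul, h1, h2, one_mul]

/-- inertia on the quadratic character -/
theorem th_nf (ok : T.Ok) (sa : w.SA) (rd : ∀ U ∈ T.Lev, T.Neat U → w.At (KK ℤ_[3] ℚ_[3]) U →
      ∀ [∀ x, CFF ℂ (KX T U x)], RD D U ∧ RDT D U) (s : T.Sl σ θ)
    (iso : ∀ c, ‖D.ι (σ c)‖ = ‖D.ι c‖)
    (ine : ∀ (U : Subgroup G) [∀ x, CFF ℂ (KX T U x)] (h : Ctx D U), h.Ine (thU s h.lev))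
    {a : ℂ} {c : ℤ_[3]ˣ} (ha : ‖D.ι a‖ ^ (qq ℤ_[3] - 1) = ‖D.ι (D.e w.ϖ)‖)
    (hc : ‖D.ι (a - D.e (algebraMap ℤ_[3] ℚ_[3] c) * σ a)‖ < ‖D.ι a‖) (N : Nu w ν)
    {U₀ : Subgroup G} (h0 : U₀ ∈ T.Lev) (n0 : T.Neat U₀) (m0 : w.At (KK ℤ_[3] ℚ_[3]) U₀) (x : G) :
    θ (nf ν) x = ((ν (w.ι (dO ℚ_[3] c)) * ν x : ℤˣ) : ℤ) := by
  obtain ⟨W, hW, le⟩ := N.lev
  have hB := ok.inf _ h0 _ hW
  have hU := Lv.set_KK (w := w) hB
  have ne := Lv.neat_le n0 (set_le hB h0 m0 inf_le_left)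
  haveI : ∀ x, CFF ℂ (KX T (w.set (KK ℤ_[3] ℚ_[3]) (U₀ ⊓ W)) x) := fun x =>
    (T.cf _ (ok.fu _ hU x)).1
  obtain ⟨r1, r2⟩ := rd _ hU ne (Lv.At_set hB)
  have h : Ctx D _ := ⟨ok, T.cf, T.gen, hU, ne, Lv.At_set hB, sa, r1⟩
  have hV := lev_set (w := w) ok hU le_rfl (Iw1_le.trans Iw0_le)
  have m := N.nf_mem (N.set (U := w.set (KK ℤ_[3] ℚ_[3]) (U₀ ⊓ W))
    (fun u hu e => le (Lv.aw_of w e ▸ ((Lv.mem_set hB).1 hu).1).2) fun _ => N.iw1)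
  let φ : SR h.ok := mkS ok hV ⟨_, m⟩
  have sq : φ * φ = 1 := Subtype.ext (funext fun y => by
    show ((ν y : ℤ) : Mer) * ((ν y : ℤ) : Mer) = 1
    rw [← Int.cast_mul, ← Units.val_mul, Int.units_mul_self, Units.val_one, Int.cast_one])
  obtain ⟨τ, y, o, r⟩ := ordx h hV x
  obtain ⟨v, l⟩ := r2 τ y o
  have sq' : Ev (y * w.ι (dO ℚ_[3] c)) φ * Ev (y * w.ι (dO ℚ_[3] c)) φ = 1 := by
    rw [← map_mul, sq, map_one]
  have k := eq_of_cg (ine2 h (fun y o => (l y o).1) (o_dO o c) (l _ (o_dO o c)).2 s (ine _ h) iso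
    ha hc (φ := φ) m.2 (v_one sq').le) (by rw [← map_mul, ← map_mul, sq, map_one, map_one]) sq'
  rw [mul_assoc, ← map_mul, ← dO_mul, mul_inv_cancel, dO_one, map_one, mul_one] at k
  refine (Tw.RU_ext (s.mem _ hV _ m) (sr_mem _ (inv_dO hU c (φ := φ) m.2))
    (congrArg Subtype.val k) r.symm).trans ?_
  show ((ν (x * _) : ℤ) : Mer) = _
  rw [map_mul, mul_comm]

end tower

variable {F : Type} [Field F] [NumberField F]

/-- **THX** from the rows -/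
theorem thx_of (X : QD F) (thl : ∀ (L : X.tw.Lc ℤ_[3] ℚ_[3]) (p : ℕ) [Fact p.Prime] (D : Emb L p),
    THL D) (nu : ∀ (L : X.tw.Lc ℤ_[3] ℚ_[3]) w, X.IsPl w L → ∃ ν, Nu L ν) (noa : NOA) (left : X.tw.LEFT) (can : X.CAN) (ari : ARIX X) (rdx : RDX X)
    (rtx : RTX X) : THX X := by
  intro L w hw j io hj P hP hb
  obtain ⟨p, _, D, -, he, hq, hp, h1⟩ := emb X (cmpx X) L w hw j io hj P hP hb
  obtain ⟨l, c, l1, l2, l3⟩ := tame hw hj hP hb D he hq hp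
  obtain ⟨ν, N⟩ := nu L w hw
  obtain ⟨sa, rd⟩ := rdx _ _ L w hw p D he
  refine ⟨fun g => ν (L.ι (dO ℚ_[3] (c g))), fun g hg hi σ θ hσ s => ?_, ?_⟩
  · obtain ⟨σ₁, e, dec⟩ := h1 1 one_pos g hg fun x => (pow_one x).symm ▸ hi x
    obtain ⟨θ₁, s₁⟩ := ex_sl can hj hg e
    have ine : ∀ U [∀ x, CFF ℂ (KX X.tw U x)] (h : Ctx D U), h.Ine (thU s₁ h.lev) :=
      fun U _ h => (ine_fro noa left ari rdx hw D he s₁ U h).1 dec
    intro U₀ h0 n₀ m₀ U hU le mU d n hn hq a a₁ a₂ r₁ r₂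
    have t := (chg X.ok io can.mod (fun σ e => ex_sl can hj (one_mem _) e) hU (n₀.mono le) s s₁
      fun a => (hσ a).trans (e a).symm).2 n hn
    exact thl L p D X.ok sa rd σ₁ θ₁ s₁ dec ine ν N _ (th_nf X.ok sa (fun U hU nU mU _ =>
      ⟨rd U hU nU mU, rtx _ _ L w hw p D he U hU nU mU⟩) s₁ dec.iso ine l1 (l2 g hg σ₁ e dec.iso) N
      h0 n₀ m₀) U₀ h0 n₀ m₀ U hU le mU d n hn hq a a₁ a₂ (t _ _ r₁) (t _ _ r₂)
  · obtain ⟨g, g1, g2, g3⟩ := l3 (-1)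
    refine ⟨g, g1, g2, N.neg ?_⟩
    rw [← PadicInt.ker_toZMod, RingHom.mem_ker, map_sub, sub_eq_zero] at g3
    simpa using g3

end Vale.Agent.P022K.TH
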