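import Vale.Agent.P022K.FI.Res2
import Vale.Agent.P022K.TH.St

/-!
# P022K, block TH: the Gauss norm of a small disc in a residue class
-/

set_option autoImplicit false
set_option linter.all false

open Vale.Agent.P019P P025H746 P025H492 Filter IntermediateField

noncomputable section

namespace Vale.Agent.P022K.TH

namespace Xi

open Vale.Agent.P027M FI.Res

variable {C K : Type} [NontriviallyNormedField C] [IsUltrametricDist C] [CompleteSpace C]
  [IsAlgClosed C] [Field K] [Algebra C K] [CFF C K] {u : NV C K} [CFF (kC C) (kap u)]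
  {s : Plk C K → Plk (kC C) (kap u)} {z : Plk (kC C) (kap u)} {c h : K} {Q : Plk C K}

/-- `c` is a parameter of the residue class of `z` -/
structure Par (s : Plk C K → Plk (kC C) (kap u)) (z : Plk (kC C) (kap u)) (c : K) : Prop where
  sp : Gs.IsSp u s
  nm : ∀ h, ∃ e : C, ‖e‖ = u h
  one : u c = 1
  rg : Rg u s z c
  uni : ord z (u.red c) = 1

/-- the centre of `ξ` is `z` -/
def Cen (s : Plk C K → Plk (kC C) (kap u)) (z : Plk (kC C) (kap u)) (ξ : NV C K) : Prop :=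
  ∀ h, u h ≤ 1 → Rg u s z h → ∀ e : C, ‖e‖ ≤ 1 → cred e = vl z (u.red h) →
    ξ (h - algebraMap C K e) < 1

theorem rg_sub {h' : K} (a : Rg u s z h) (b : Rg u s z h') : Rg u s z (h - h') :=
  fun Q e => sub_mem (a Q e) (b Q e)

theorem rg_mul {h' : K} (a : Rg u s z h) (b : Rg u s z h') : Rg u s z (h * h') :=
  fun Q e => mul_mem (a Q e) (b Q e)

theorem rg_const (e : C) : Rg u s z (algebraMap C K e) := fun Q _ => const_mem Q e

theorem val (hs : Gs.IsSp u s) (h1 : u h ≤ 1) (hr : Rg u s z h) (hQ : s Q = z) :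
    ‖vl Q h‖ ≤ 1 ∧ cred (vl Q h) = vl z (u.red h) := by
  subst hQ
  obtain ⟨h2, h3⟩ := hs.val h1 hr (c := vl Q h) (vl_mem (hr Q rfl))
  exact ⟨h2, (vl_eq h3).symm⟩

theorem norm_unit (hs : Gs.IsSp u s) (h1 : u h = 1) (hr : Rg u s z h) (hr' : Rg u s z h⁻¹)
    (hQ : s Q = z) : ‖vl Q h‖ = 1 := by
  have h2 := (val hs h1.le hr hQ).1
  have h3 := (val hs (by rw [map_inv₀, h1, inv_one]) hr' hQ).1
  have h4 := congrArg norm (vl_mul (hr Q hQ) (hr' Q hQ))
  rw [mul_inv_cancel₀ (ne_of_one h1), vl_one, norm_one, norm_mul] at h4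
  exact h2.antisymm (h4.le.trans (mul_le_of_le_one_right (norm_nonneg _) h3))

theorem lt_of_cred {a e : C} (ha : ‖a‖ ≤ 1) (he : ‖e‖ ≤ 1) : cred a = cred e ↔ ‖a - e‖ < 1 := by
  rw [← cred_eq_zero (norm_sub_le' ha he), Gs.cred_sub ha he, sub_eq_zero]

theorem Cen.le {ξ : NV C K} (H : Cen s z ξ) (h1 : u h ≤ 1) (hr : Rg u s z h) : ξ h ≤ 1 := by
  obtain ⟨e, he, h2⟩ := cred_surj (vl z (u.red h))
  have := NV.add_le (H h h1 hr e he h2).le (show ξ (algebraMap C K e) ≤ 1 by rwa [ξ.ext'])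
  rwa [sub_add_cancel] at this

theorem Cen.le' {ξ : NV C K} (H : Cen s z ξ) {e : C} (h1 : u h ≤ ‖e‖) (he : e ≠ 0)
    (hr : Rg u s z h) : ξ h ≤ ‖e‖ := by
  have p := norm_pos_iff.2 he
  have := H.le (h := h * algebraMap C K e⁻¹) (by
    rwa [map_mul, u.ext', norm_inv, mul_inv_le_iff₀ p, one_mul]) (rg_mul hr (rg_const _))
  rwa [map_mul, ξ.ext', norm_inv, mul_inv_le_iff₀ p, one_mul] at this

namespace Par

variable (H : Par s z c)

include H

theorem lt (hQ : s Q = z) : ‖vl Q c‖ < 1 := by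
  obtain ⟨h1, h2⟩ := val H.sp H.one.le H.rg hQ
  rwa [vl_of_pos (P := z) (by rw [H.uni]; exact one_pos), cred_eq_zero h1] at h2

theorem ne {a : C} (ha : ‖a‖ < 1) : c - algebraMap C K a ≠ 0 :=
  ne_of_one (Gs.red_sub_lt H.one ha).1

open Classical in
theorem pt {a : C} (ha : ‖a‖ < 1) : ∃ Q, s Q = z ∧ vl Q c = a ∧
    ∀ R, s R = z → ord R (c - algebraMap C K a) = if R = Q then 1 else 0 := by
  obtain ⟨h1, h2⟩ := Gs.red_sub_lt H.one ha
  have h3 := H.sp.ord h1 z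
  rw [h2, H.uni] at h3
  have h4 : ∀ R, s R = z → 0 ≤ dv C (c - algebraMap C K a) R := fun R e => by
    rw [dv_apply]
    exact mem_ord.1 (rg_sub H.rg (rg_const a) R e)
  obtain ⟨Q, e, h5⟩ := Gs.cls_ex (h3 ▸ one_ne_zero)
  have h6 := (h4 Q e).lt_of_ne' h5
  refine ⟨Q, e, vl_eq_of_pos (by rwa [dv_apply] at h6), fun R hR => ?_⟩
  rw [← dv_apply, Gs.cls_one h4 h3.symm e h6 hR]

open Classical in
theorem ord_eq (hQ : s Q = z) {R : Plk C K} (hR : s R = z) :
    ord R (c - algebraMap C K (vl Q c)) = if R = Q then 1 else 0 := by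
  obtain ⟨Q', -, -, h⟩ := H.pt (H.lt hQ)
  have h1 := (vl_mem (H.rg Q hQ)).resolve_left (H.ne (H.lt hQ))
  obtain rfl : Q = Q' := by
    by_contra e
    rw [h Q hQ, if_neg e] at h1
    omega
  exact h R hR

/-- all functions are products of constants, units and linear factors -/
theorem ind {p : K → Prop} (mul : ∀ x y, p x → p y → p (x * y)) (inv : ∀ x, p x → p x⁻¹)
    (cst : ∀ e : C, e ≠ 0 → p (algebraMap C K e))
    (un : ∀ g, u g = 1 → Rg u s z g → Rg u s z g⁻¹ → p g)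
    (lin : ∀ b : C, ‖b‖ < 1 → p (c - algebraMap C K b)) (h0 : h ≠ 0) : p h := by
  classical
  have pw : ∀ x (n : ℕ), p x → p (x ^ n) := fun x n hx => by
    induction n with
    | zero => simpa using cst 1 one_ne_zero
    | succ n ih => exact pow_succ x n ▸ mul _ _ ih hx
  have zp : ∀ x (n : ℤ), p x → p (x ^ n) := fun x n hx => by
    rcases n with n | n
    · simpa using pw x n hx
    · simpa using inv _ (pw x (n + 1) hx)
  have key : ∀ (A : Finset (Plk C K)) h, h ≠ 0 → (∀ Q, s Q = z → Q ∉ A → ord Q h = 0) → p h := by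
    intro A
    induction A using Finset.induction_on with
    | empty =>
      intro h h0 h1
      obtain ⟨e, he⟩ := H.nm h
      have e0 : e ≠ 0 := by rw [← norm_pos_iff, he]; exact u.av.pos h0
      have e1 : algebraMap C K e ≠ 0 := (map_ne_zero _).2 e0
      have h2 : ∀ Q, s Q = z → ord Q (h * (algebraMap C K e)⁻¹) = 0 := fun Q hQ => by
        rw [ord_mul Q h0 (inv_ne_zero e1), ord_inv, ord_const, h1 Q hQ (by simp), neg_zero, add_zero]
      have := mul _ _ (un _ (by rw [map_mul, map_inv₀, u.ext', he, mul_inv_cancel₀ (u.av.pos h0).ne'])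
        (fun Q hQ => mem_ord.2 (h2 Q hQ).ge) fun Q hQ => mem_ord.2 (by
          rw [ord_inv, h2 Q hQ, neg_zero])) (cst e e0)
      rwa [inv_mul_cancel_right₀ e1] at this
    | insert Q A hQ ih =>
      intro h h0 h1
      by_cases e : s Q = z
      · have h2 := zpow_ne_zero (ord Q h) (H.ne (H.lt e))
        have := mul _ _ (ih (h * ((c - algebraMap C K (vl Q c)) ^ ord Q h)⁻¹)
          (mul_ne_zero h0 (inv_ne_zero h2)) fun R hR h3 => by
            rw [ord_mul R h0 (inv_ne_zero h2), ord_inv, ord_zpow, H.ord_eq e hR]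
            split_ifs with e'
            · simp [e']
            · simp [h1 R hR (by simp [e', h3])]) (zp _ (ord Q h) (lin _ (H.lt e)))
        rwa [inv_mul_cancel_right₀ h2] at this
      · exact ih h h0 fun R hR h3 => h1 R hR (by
          rw [Finset.mem_insert, not_or]
          exact ⟨fun e' => e (e' ▸ hR), h3⟩)
  exact key (dv C h).support h h0 fun Q _ hQ => by
    rwa [Finsupp.notMem_support_iff, dv_apply] at hQ

/-- **the Gauss norm of the disc `|c| ≤ |l|`** -/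
theorem xi {l : C} (l0 : l ≠ 0) (l1 : ‖l‖ < 1) : ∃ ξ : NV C K, Cen s z ξ ∧ ξ c = ‖l‖ ∧
    Transcendental (kC C) (ξ.red (c / algebraMap C K l)) ∧
    (kC C)⟮ξ.red (c / algebraMap C K l)⟯ = ⊤ := by
  classical
  have lp := norm_pos_iff.2 l0
  let G : Filter (Plk C K) := comap (fun Q => cred (vl Q c / l)) cofinite ⊓
    𝓟 {Q | s Q = z ∧ ‖vl Q c‖ ≤ ‖l‖}
  haveI : G.NeBot := by
    refine ⟨fun e => ?_⟩
    obtain ⟨A, hA, h1⟩ := mem_comap.1 (inf_principal_eq_bot.1 e)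
    obtain ⟨a, ha⟩ := (mem_cofinite.1 hA).exists_notMem
    obtain ⟨e, he, rfl⟩ := cred_surj a
    have h2 : ‖l * e‖ ≤ ‖l‖ := by rw [norm_mul]; exact mul_le_of_le_one_right lp.le he
    obtain ⟨Q, h3, h4, -⟩ := H.pt (h2.trans_lt l1)
    refine h1 (a := Q) ?_ ⟨h3, h4 ▸ h2⟩
    rw [Set.mem_preimage, h4, mul_div_cancel_left₀ _ l0]
    exact not_not.1 ha
  have g1 : ∀ᶠ Q in G, s Q = z ∧ ‖vl Q c‖ ≤ ‖l‖ := mem_inf_of_right (mem_principal_self _)
  have g2 : ∀ b : C, ∀ᶠ Q in G, c - algebraMap C K b ∈ Q.1 ∧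
      ‖vl Q (c - algebraMap C K b)‖ = max ‖l‖ ‖b‖ := fun b => by
    have g3 : ∀ᶠ Q in G, cred (vl Q c / l) ≠ cred (b / l) :=
      mem_inf_of_left (preimage_mem_comap (Set.finite_singleton _).compl_mem_cofinite)
    filter_upwards [g1, g3] with Q h1 h2
    refine ⟨rg_sub H.rg (rg_const b) Q h1.1, ?_⟩
    rw [vl_sub_const (H.rg Q h1.1)]
    rcases le_or_gt ‖b‖ ‖l‖ with e | e
    · have h3 : ∀ x : C, ‖x‖ ≤ ‖l‖ → ‖x / l‖ ≤ 1 := fun x hx => by rwa [norm_div, div_le_one lp]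
      rw [Ne, lt_of_cred (h3 _ h1.2) (h3 _ e), ← sub_div, norm_div, div_lt_one lp, not_lt] at h2
      rw [max_eq_left e]
      exact (norm_sub_le' h1.2 e).antisymm h2
    · rw [max_eq_right e.le, norm_sub_rev, norm_sub_of_lt (h1.2.trans_lt e)]
  have ex : ∀ h : K, ∃ N : ℝ, (h ≠ 0 → N ≠ 0) ∧ ∀ᶠ Q in G, h ∈ Q.1 ∧ ‖vl Q h‖ = N := fun h => by
    by_cases h0 : h = 0
    · exact ⟨0, fun e => absurd h0 e, Eventually.of_forall fun Q => by simp [h0, vl_zero]⟩
    refine (H.ind (p := fun h => ∃ N : ℝ, N ≠ 0 ∧ ∀ᶠ Q in G, h ∈ Q.1 ∧ ‖vl Q h‖ = N) ?_ ?_ ?_ ?_ ?_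
      h0).imp fun N h => ⟨fun _ => h.1, h.2⟩
    · rintro x y ⟨N, h1, h2⟩ ⟨M, h3, h4⟩
      refine ⟨N * M, mul_ne_zero h1 h3, ?_⟩
      filter_upwards [h2, h4] with Q a b
      exact ⟨mul_mem a.1 b.1, by rw [vl_mul a.1 b.1, norm_mul, a.2, b.2]⟩
    · rintro x ⟨N, h1, h2⟩
      refine ⟨N⁻¹, inv_ne_zero h1, ?_⟩
      filter_upwards [h2] with Q a
      have a1 : vl Q x ≠ 0 := by rwa [← norm_ne_zero_iff, a.2]
      have a2 : x ≠ 0 := by rintro rfl; exact a1 (vl_zero Q)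
      have a3 : x⁻¹ ∈ Q.1 := by
        rw [mem_ord, ord_inv, neg_nonneg]
        exact not_lt.1 fun e => a1 (vl_of_pos e)
      have a4 := vl_mul a.1 a3
      rw [mul_inv_cancel₀ a2, vl_one] at a4
      exact ⟨a3, by rw [← a.2, ← norm_inv, eq_inv_of_mul_eq_one_right a4.symm]⟩
    · exact fun e he => ⟨‖e‖, norm_ne_zero_iff.2 he, Eventually.of_forall fun Q =>
        ⟨const_mem Q e, by rw [vl_const]⟩⟩
    · exact fun g h1 h2 h3 => ⟨1, one_ne_zero, g1.mono fun Q a =>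
        ⟨h2 Q a.1, norm_unit H.sp h1 h2 h3 a.1⟩⟩
    · exact fun b _ => ⟨_, (lt_max_of_lt_left lp).ne', g2 b⟩
  choose N N0 hN using ex
  have nn : ∀ h, 0 ≤ N h := fun h => by
    obtain ⟨Q, a⟩ := (hN h).exists
    exact a.2 ▸ norm_nonneg _
  have na : ∀ x y, N (x + y) ≤ max (N x) (N y) := fun x y => by
    obtain ⟨Q, a, b, d⟩ := ((hN x).and ((hN y).and (hN (x + y)))).exists
    rw [← a.2, ← b.2, ← d.2, vl_add a.1 b.1]
    exact IsUltrametricDist.norm_add_le_max _ _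
  have nc : ∀ e : C, N (algebraMap C K e) = ‖e‖ := fun e => by
    obtain ⟨Q, a⟩ := (hN (algebraMap C K e)).exists
    rw [← a.2, vl_const]
  let ξ : NV C K := ⟨⟨⟨N, fun x y => by
      obtain ⟨Q, a, b, d⟩ := ((hN x).and ((hN y).and (hN (x * y)))).exists
      rw [← a.2, ← b.2, ← d.2, vl_mul a.1 b.1, norm_mul]⟩, nn,
    fun x => ⟨fun e => by_contra fun h0 => N0 x h0 e, fun e => by simpa [e] using nc 0⟩,
    fun x y => (na x y).trans
      (max_le (le_add_of_nonneg_right (nn y)) (le_add_of_nonneg_left (nn x)))⟩, na, nc⟩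
  have cen : Cen s z ξ := fun h h1 h2 e h3 h4 => by
    obtain ⟨Q, a, b⟩ := (g1.and (hN (h - algebraMap C K e))).exists
    obtain ⟨h5, h6⟩ := val H.sp h1 h2 a.1
    change N _ < 1
    rw [← b.2, vl_sub_const (h2 Q a.1), ← lt_of_cred h5 h3, h6, h4]
  have lin : ∀ b : C, ξ (c - algebraMap C K b) = max ‖l‖ ‖b‖ := fun b => by
    obtain ⟨Q, a, d⟩ := ((g2 b).and (hN (c - algebraMap C K b))).exists
    exact d.2.symm.trans a.2
  have l2 : algebraMap C K l ≠ 0 := (map_ne_zero _).2 l0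
  have xc : ξ c = ‖l‖ := by simpa using lin 0
  have x1 : ξ (c / algebraMap C K l) = 1 := by rw [map_div₀, xc, ξ.ext', div_self lp.ne']
  have x2 : ∀ b : C, ‖b‖ ≤ 1 → ξ (c / algebraMap C K l - algebraMap C K b) = 1 := fun b hb => by
    rw [div_sub' l2, ← map_mul, map_div₀, lin, ξ.ext', norm_mul,
      max_eq_left (mul_le_of_le_one_right lp.le hb), div_self lp.ne']
  refine ⟨ξ, cen, xc, fun h => ?_, eq_top_iff.2 fun y _ => ?_⟩
  · obtain ⟨a, ha⟩ := minpoly.degree_eq_one_iff.1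
      (IsAlgClosed.degree_eq_one_of_irreducible _ (minpoly.irreducible h.isIntegral))
    obtain ⟨e, he, rfl⟩ := cred_surj a
    have := NV.red_ne_zero (x2 e he)
    rw [(Gs.red_sub_const x1.le he).2, ha, sub_self] at this
    exact this rfl
  obtain ⟨h, h1, rfl⟩ := NV.red_surj y
  rcases h1.lt_or_eq with h1 | h1
  · rw [NV.red_of_lt h1]
    exact zero_mem _
  have near : ∀ (g : K) (e : C), e ≠ 0 → ξ (g - algebraMap C K e) < ‖e‖ → ∃ e : C,
      ξ (algebraMap C K e * g) = 1 ∧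
        ξ.red (algebraMap C K e * g) ∈ (kC C)⟮ξ.red (c / algebraMap C K l)⟯ := fun g e e0 h2 => by
    have h3 : ξ (1 - algebraMap C K e⁻¹ * g) < 1 := by
      rwa [← (map_one (algebraMap C K)), ← inv_mul_cancel₀ e0, map_mul, ← mul_sub, map_mul, ξ.ext',
        norm_inv, inv_mul_lt_one₀ (norm_pos_iff.2 e0), ← NV.map_neg', neg_sub]
    have h4 := I.le_one_of_sub (by simp) h3
    have h5 := (I.red_eq_iff (by simp) h4).2 h3
    rw [NV.red_one] at h5
    exact ⟨e⁻¹, Gs.w_eq_one h4 (h5 ▸ one_ne_zero), h5 ▸ one_mem _⟩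
  obtain ⟨e, h2, h3⟩ := H.ind (p := fun h => ∃ e : C, ξ (algebraMap C K e * h) = 1 ∧
      ξ.red (algebraMap C K e * h) ∈ (kC C)⟮ξ.red (c / algebraMap C K l)⟯) (by
      rintro x y ⟨e, h1, h2⟩ ⟨e', h3, h4⟩
      refine ⟨e * e', ?_⟩
      rw [map_mul (algebraMap C K), mul_mul_mul_comm, map_mul ξ.av, NV.red_mul h1.le h3.le]
      exact ⟨by rw [h1, h3, one_mul], mul_mem h2 h4⟩) (by
      rintro x ⟨e, h1, h2⟩
      refine ⟨e⁻¹, ?_⟩
      rw [map_inv₀, ← mul_inv, map_inv₀ ξ.av, NV.red_inv h1]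
      exact ⟨by rw [h1, inv_one], inv_mem h2⟩) (fun e he => near _ e he (by simpa using he))
    (fun g h1 h2 h3 => by
      obtain ⟨Q, a⟩ := g1.exists
      have h4 := norm_unit H.sp h1 h2 h3 a.1
      exact near g (vl Q g) (by rw [← norm_ne_zero_iff, h4]; exact one_ne_zero)
        (h4 ▸ cen g h1.le h2 _ h4.le (val H.sp h1.le h2 a.1).2)) (fun b _ => by
      rcases le_or_gt ‖b‖ ‖l‖ with e | e
      · have h2 : ‖b / l‖ ≤ 1 := by rwa [norm_div, div_le_one lp]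
        refine ⟨l⁻¹, ?_⟩
        rw [mul_sub, ← map_mul, map_inv₀, ← div_eq_inv_mul, ← div_eq_inv_mul,
          (Gs.red_sub_const x1.le h2).2]
        exact ⟨x2 _ h2, sub_mem (mem_adjoin_simple_self _ _) (IntermediateField.algebraMap_mem _ _)⟩
      · exact near _ (-b) (by rw [neg_ne_zero, ← norm_pos_iff]; exact lp.trans e) (by
          rwa [map_neg, sub_neg_eq_add, sub_add_cancel, xc, norm_neg])) (ne_of_one h1)
  rw [map_mul, ξ.ext', h1, mul_one] at h2
  rw [NV.red_mul (by rw [ξ.ext', h2]) h1.le, NV.red_algebraMap h2.le] at h3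
  have h4 : algebraMap (kC C) (kap ξ) (cred e) ≠ 0 := by
    rw [map_ne_zero, Ne, cred_eq_zero h2.le, h2]
    exact lt_irrefl _
  have := mul_mem (inv_mem
    (IntermediateField.algebraMap_mem (kC C)⟮ξ.red (c / algebraMap C K l)⟯ (cred e))) h3
  rwa [inv_mul_cancel_left₀ h4] at this

theorem uniq {l : C} (l0 : l ≠ 0) {ξ w : NV C K} (h1 : ∀ h, Rg u s z h → u h ≤ 1 → ξ h ≤ 1)
    (h2 : ∀ h, Rg u s z h → u h ≤ 1 → w h ≤ 1) (o1 : ξ.OverG (c / algebraMap C K l))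
    (o2 : w.OverG (c / algebraMap C K l)) : w = ξ := by
  have un : ∀ w : NV C K, (∀ h, Rg u s z h → u h ≤ 1 → w h ≤ 1) → ∀ g, u g = 1 → Rg u s z g →
      Rg u s z g⁻¹ → w g = 1 := fun w h g a b d => by
    have := h _ d (by rw [map_inv₀, a, inv_one])
    rw [map_inv₀, inv_le_one₀ (w.av.pos (ne_of_one a))] at this
    exact (h g b a.le).antisymm this
  refine NV.ext (AbsoluteValue.ext fun h => ?_)
  by_cases h0 : h = 0
  · rw [h0, map_zero, map_zero]
  refine H.ind (p := fun h => w h = ξ h) (fun x y a b => by rw [map_mul, map_mul, a, b])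
    (fun x a => by rw [map_inv₀, map_inv₀, a]) (fun e _ => by rw [w.ext', ξ.ext'])
    (fun g a b d => by rw [un w h2 g a b d, un ξ h1 g a b d]) (fun b _ => ?_) h0
  have l2 : algebraMap C K l ≠ 0 := (map_ne_zero _).2 l0
  have e : c - algebraMap C K b = algebraMap C K l *
      Polynomial.aeval (c / algebraMap C K l) (Polynomial.X - Polynomial.C (b / l)) := by
    rw [map_sub, Polynomial.aeval_X, Polynomial.aeval_C, map_div₀, ← sub_div, mul_div_cancel₀ _ l2]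
  rw [e, map_mul, map_mul, o1, o2, w.ext', ξ.ext']

end Par

theorem Cen.cl {ξ : NV C K} (H : Cen s z ξ) : Cl u s z ξ := fun h h1 h2 => by
  obtain ⟨e, he, h3⟩ := cred_surj (vl z (u.red h))
  exact ⟨e, he, H h h2 h1 e he h3, h3⟩

end Xi

/-- **XI** -/
theorem xi : XI := by
  intro C K _ _ _ _ _ _ _ hC u _ s z _ hs c m h1 h2 h3 h4 h5
  have H : Xi.Par s z c := ⟨hs, fun h => hC.onto _ (u.av.nonneg h), h2, h1, h3⟩
  obtain ⟨ξ, p1, p2, p3, p4⟩ := H.xi h4 h5
  have p5 := P027M.G.overG_of_transc (by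
    rw [map_div₀, p2, ξ.ext', div_self (norm_ne_zero_iff.2 h4)]) p3
  exact ⟨ξ, p1.cl, p5, p4, fun w a b => H.uniq h4 (fun h c d => p1.le d c) a p5 b⟩

end Vale.Agent.P022K.TH
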